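import Crest.Prelude.Def_PTS

set_option autoImplicit false

/-!
R298, helper795: monotonicity of `Typed` in the specification and "finite spec without loss of
generality".
-/

namespace Crest.Agent.R298.Fin795

open Crest.LogicCS.PTS Crest.LogicCS.PTS.Term

universe u

variable {S : Type u}

/-- `P ≤ Q` : `P` is a sub-specification of `Q` (same sorts). -/
def Le (P Q : Spec S) : Prop :=
  (∀ a b, P.ax a b → Q.ax a b) ∧ (∀ a b c, P.rule a b c → Q.rule a b c)

theorem Le.refl (P : Spec S) : Le P P := ⟨fun _ _ h => h, fun _ _ _ h => h⟩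

theorem Le.trans {P Q R : Spec S} (h₁ : Le P Q) (h₂ : Le Q R) : Le P R :=
  ⟨fun a b h => h₂.1 a b (h₁.1 a b h), fun a b c h => h₂.2 a b c (h₁.2 a b c h)⟩

theorem Typed.mono {P Q : Spec S} (h : Le P Q) {Γ : List (Term S)} {M A : Term S}
    (d : Typed P Γ M A) : Typed Q Γ M A := by
  induction d with
  | ax h' => exact Typed.ax (h.1 _ _ h')
  | start _ ih => exact Typed.start ih
  | weak _ _ ih₁ ih₂ => exact Typed.weak ih₁ ih₂
  | prod _ _ hr ih₁ ih₂ => exact Typed.prod ih₁ ih₂ (h.2 _ _ _ hr)
  | abs _ _ ih₁ ih₂ => exact Typed.abs ih₁ ih₂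
  | appl _ _ ih₁ ih₂ => exact Typed.appl ih₁ ih₂
  | conv _ _ hb ih₁ ih₂ => exact Typed.conv ih₁ ih₂ hb

theorem Legal.mono {P Q : Spec S} (h : Le P Q) {Γ : List (Term S)} {M : Term S}
    (d : Legal P Γ M) : Legal Q Γ M := by
  obtain ⟨N, hN⟩ := d
  exact ⟨N, hN.imp (Typed.mono h) (Typed.mono h)⟩

/-- The specification with axiom set `X` and rule set `R`. -/
def mk (X : Set (S × S)) (R : Set (S × S × S)) : Spec S where
  ax a b := (a, b) ∈ X
  rule a b c := (a, b, c) ∈ R

/-- Finite specification: finitely many axioms and rules (the sort type may be infinite). -/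
def Finite (P : Spec S) : Prop :=
  {p : S × S | P.ax p.1 p.2}.Finite ∧ {p : S × S × S | P.rule p.1 p.2.1 p.2.2}.Finite





/-- The empty specification. -/
def bot : Spec S where
  ax _ _ := False
  rule _ _ _ := False









/-- All legal terms are weakly normalizing. -/
def WNSpec (P : Spec S) : Prop := ∀ (Γ : List (Term S)) (M : Term S), Legal P Γ M → WN M

/-- All legal terms are strongly normalizing. -/
def SNSpec (P : Spec S) : Prop := ∀ (Γ : List (Term S)) (M : Term S), Legal P Γ M → SN M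

theorem WNSpec.mono {P Q : Spec S} (h : Le P Q) (hQ : WNSpec Q) : WNSpec P :=
  fun Γ M hM => hQ Γ M (Legal.mono h hM)



end Crest.Agent.R298.Fin795
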