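import Crest.Agent.R298.Ty_452
import Crest.Agent.R298.Mem_360

/-!
R298 (S0452), helper452: typing of terms with memory.  Contexts and types are frozen
terms (erased); only the subject carries memories.
-/

set_option autoImplicit false

namespace Crest.Agent.R298.TyM452

open Crest.LogicCS.PTS Relation
open Crest.Agent.R298.Sub452 Crest.Agent.R298.Par452 Crest.Agent.R298.Ty452
open Crest.Agent.R298.Mem360
open Crest.Agent.R298.Mem360.MT (er emb mren mwk mups msub mscons minst er_mren er_mups er_msub
  er_minst er_emb emb_ren msub_id mren_id)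

universe u
variable {S : Type u} {P : Spec S}

/-- typing of terms with memory -/
inductive TM (P : Spec S) : List (Term S) → MT S → Term S → Prop
  | var {Γ : List (Term S)} {i : ℕ} {A : Term S} : Wf P Γ → Lk Γ i A → TM P Γ (.var i) A
  | sort {Γ : List (Term S)} {s t : S} : Wf P Γ → P.ax s t → TM P Γ (.sort s) (.sort t)
  | pi {Γ : List (Term S)} {A B : MT S} {a b c : S} : TM P Γ A (.sort a) →
      TM P (er A :: Γ) B (.sort b) → P.rule a b c → TM P Γ (.pi A B) (.sort c)
  | lam {Γ : List (Term S)} {A M : MT S} {B : Term S} {a c : S} : TM P Γ A (.sort a) →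
      TM P (er A :: Γ) M B → Typed P Γ (.pi (er A) B) (.sort c) →
      TM P Γ (.lam A M) (.pi (er A) B)
  | app {Γ : List (Term S)} {M N : MT S} {A B : Term S} : TM P Γ M (.pi A B) → TM P Γ N A →
      TM P Γ (.app M N) (inst (er N) B)
  | mem {Γ : List (Term S)} {M N : MT S} {A B : Term S} : TM P Γ M A → TM P Γ N B →
      TM P Γ (.mem M N) A
  | conv {Γ : List (Term S)} {M : MT S} {A A' : Term S} {s : S} : TM P Γ M A → BetaEq A A' →
      Typed P Γ A' (.sort s) → TM P Γ M A'

theorem TM.typed {Γ : List (Term S)} {M : MT S} {A : Term S} (h : TM P Γ M A) :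
    Typed P Γ (er M) A := by
  induction h with
  | var w l => exact var_wf l w
  | sort w a => exact ax_wf w a
  | pi _ _ r ih ih' => exact .prod ih ih' r
  | lam _ _ h _ ih => exact .abs ih h
  | app _ _ ih ih' => exact t_appl ih ih'
  | mem _ _ ih _ => exact ih
  | conv _ e h ih => exact .conv ih h e

theorem TM.wf {Γ : List (Term S)} {M : MT S} {A : Term S} (h : TM P Γ M A) : Wf P Γ :=
  twf h.typed

/-! ### renaming and substitution -/

theorem tm_ren {Γ : List (Term S)} {M : MT S} {A : Term S} (h : TM P Γ M A) :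
    ∀ {Δ : List (Term S)} {ρ : ℕ → ℕ}, Wf P Δ → RenOk ρ Γ Δ →
      TM P Δ (mren ρ M) (ren ρ A) := by
  induction h with
  | var w l => intro Δ ρ w' r; exact .var w' (r _ _ l)
  | sort w a => intro Δ ρ w' r; exact .sort w' a
  | pi hA _ r ih ih' =>
      intro Δ ρ w' hr
      have a := ih w' hr
      refine .pi a ?_ r
      rw [er_mren]
      refine ih' ?_ (hr.up _)
      have := a.typed
      rw [er_mren] at this
      exact .cons w' this
  | @lam Γ A M B a c hA hM hp ih ih' =>
      intro Δ ρ w' hr
      have a := ih w' hr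
      have b : Typed P Δ (.pi (ren ρ (er A)) (ren (up ρ) B)) (.sort c) := typed_ren hp w' hr
      have := a.typed
      rw [er_mren] at this
      simp only [ren_pi]
      have key := TM.lam (P := P) (Γ := Δ) (A := mren ρ A) (M := mren (up ρ) M)
        (B := ren (up ρ) B) (a := _) (c := c) a
        (by rw [er_mren]; exact ih' (.cons w' this) (hr.up _)) (by rw [er_mren]; exact b)
      rw [er_mren] at key
      exact key
  | app _ _ ih ih' =>
      intro Δ ρ w' hr
      rw [ren_inst, ← er_mren]
      exact .app (ih w' hr) (ih' w' hr)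
  | mem _ _ ih ih' => intro Δ ρ w' hr; exact .mem (ih w' hr) (ih' w' hr)
  | conv _ e hs ih =>
      intro Δ ρ w' hr
      exact .conv (ih w' hr) (BetaEq.ren e ρ) (typed_ren hs w' hr)

theorem tm_wk {Γ : List (Term S)} {M : MT S} {A B : Term S} {s : S} (h : TM P Γ M A)
    (hB : Typed P Γ B (.sort s)) : TM P (B :: Γ) (mwk M) (wk A) :=
  tm_ren h (.cons h.wf hB) (RenOk.wk Γ B)

/-- `σ` is a substitution (by terms with memory) from `Γ` to `Δ` -/
def MSubOk (P : Spec S) (σ : ℕ → MT S) (Γ Δ : List (Term S)) : Prop :=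
  ∀ i A, Lk Γ i A → TM P Δ (σ i) (sub (fun i => er (σ i)) A)


theorem MSubOk.ups {σ : ℕ → MT S} {Γ Δ : List (Term S)} (h : MSubOk P σ Γ Δ) {A : Term S} {s : S}
    (hA : Typed P Δ (sub (fun i => er (σ i)) A) (.sort s)) :
    MSubOk P (mups σ) (A :: Γ) (sub (fun i => er (σ i)) A :: Δ) := by
  intro i B hl
  rw [er_mups]
  cases hl with
  | zero _ _ => rw [sub_wk]; exact .var (.cons (twf hA) hA) (.zero _ _)
  | succ _ hl => rw [sub_wk]; exact tm_wk (h _ _ hl) hA


theorem MSubOk.var {Γ : List (Term S)} (w : Wf P Γ) : MSubOk P .var Γ Γ := by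
  intro i A h
  have : sub (fun i => er (MT.var i)) A = A := sub_id A
  rw [this]
  exact .var w h

theorem MSubOk.scons {σ : ℕ → MT S} {Γ Δ : List (Term S)} (h : MSubOk P σ Γ Δ) {N : MT S}
    {A : Term S} (hN : TM P Δ N (sub (fun i => er (σ i)) A)) :
    MSubOk P (mscons N σ) (A :: Γ) Δ := by
  intro i B hl
  cases hl with
  | zero _ _ =>
      simpa only [wk, sub_ren, Nat.succ_eq_add_one, mscons] using hN
  | succ _ hl =>
      have := h _ _ hl
      simpa only [wk, sub_ren, Nat.succ_eq_add_one, mscons] using this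










theorem step_eq {M M' : MT S} (h : MStep M M') : BetaEq (er M) (er M') := by
  rcases er_step h with h | h
  · rw [h]; exact .refl _
  · exact .rel _ _ h

theorem step_red {M M' : MT S} (h : MStep M M') : Red (er M) (er M') := by
  rcases er_step h with h | h
  · rw [h]
  · exact .single h







end Crest.Agent.R298.TyM452
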