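import Mathlib
import Crest.Agent.R298.Cod_893

-- ▼ part R298/Dom_201
section

/-!
# R298: info domain for the semantic half (tame + thin), helper201

`X := Ordinal.{0}` is the domain of all "plus" (and small) infos, `Neg := Pt → C` (all functions on
finite lists of (closed term, element of `X`)) the domain of the "minus" infos, and supports are
single ordinals.  The whole file is untyped: no spec, no terms, only two small types `Tm`, `C`.
-/

set_option autoImplicit false
set_option linter.unusedSectionVars false

namespace Crest.Agent.R298.Dom201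

/-- the domain of plus infos -/
abbrev X : Type 1 := Ordinal.{0}

variable {Tm C : Type} [Inhabited C]

/-- points of minus infos: finite lists of (closed term, plus info) -/
abbrev Pt (Tm : Type) : Type 1 := List (Tm × X)

/-- minus infos: all functions on points -/
abbrev Neg (Tm C : Type) : Type 1 := Pt Tm → C

/-- infos of both colours -/
abbrev Val (Tm C : Type) : Type 1 := X ⊕ Neg Tm C

/-- argument lists of plus infos -/
abbrev Args (Tm C : Type) : Type 1 := List (Tm × Val Tm C)

/-- all entries of the point are below `α` -/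
def PtLt (α : X) (p : Pt Tm) : Prop := ∀ e ∈ p, e.2 < α

/-- agreement of minus infos on all points below `α` -/
def AgN (α : X) (G H : Neg Tm C) : Prop := ∀ p, PtLt α p → G p = H p

/-- agreement of infos: plus infos are equal, minus infos agree below `α` -/
inductive AgV (α : X) : Val Tm C → Val Tm C → Prop
  | inl (x : X) : AgV α (Sum.inl x) (Sum.inl x)
  | inr {G H : Neg Tm C} : AgN α G H → AgV α (Sum.inr G) (Sum.inr H)

/-- agreement of argument lists -/
def AgA (α : X) : Args Tm C → Args Tm C → Prop :=
  List.Forall₂ fun e e' => e.1 = e'.1 ∧ AgV α e.2 e'.2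

/-- all plus entries of the argument list are below `α` -/
def ArgLt (α : X) (l : Args Tm C) : Prop := ∀ e ∈ l, ∀ x, e.2 = Sum.inl x → x < α

/-- `F` is `α`-supported: default if a plus entry is not below `α`, and it reads the minus entries
only at points below `α` -/
def Supp (α : X) (F : Args Tm C → C) : Prop :=
  (∀ l, ¬ ArgLt α l → F l = default) ∧ (∀ l l', AgA α l l' → F l = F l')

theorem PtLt.mono {α β : X} (h : α ≤ β) {p : Pt Tm} (hp : PtLt α p) : PtLt β p :=
  fun e he => (hp e he).trans_le h

theorem AgN.refl (α : X) (G : Neg Tm C) : AgN α G G := fun _ _ => rfl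

theorem AgN.symm {α : X} {G H : Neg Tm C} (h : AgN α G H) : AgN α H G :=
  fun p hp => (h p hp).symm

theorem AgN.trans {α : X} {G H K : Neg Tm C} (h : AgN α G H) (h' : AgN α H K) : AgN α G K :=
  fun p hp => (h p hp).trans (h' p hp)

theorem AgN.anti {α β : X} (h : α ≤ β) {G H : Neg Tm C} (hg : AgN β G H) : AgN α G H :=
  fun p hp => hg p (hp.mono h)

theorem AgV.refl (α : X) (v : Val Tm C) : AgV α v v := by
  cases v with
  | inl x => exact .inl x
  | inr G => exact .inr (AgN.refl α G)

theorem AgV.symm {α : X} {v w : Val Tm C} (h : AgV α v w) : AgV α w v := by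
  cases h with
  | inl x => exact .inl x
  | inr h => exact .inr h.symm

theorem AgV.anti {α β : X} (h : α ≤ β) {v w : Val Tm C} (hv : AgV β v w) : AgV α v w := by
  cases hv with
  | inl x => exact .inl x
  | inr hg => exact .inr (hg.anti h)

theorem AgA.refl (α : X) (l : Args Tm C) : AgA α l l := by
  unfold AgA
  induction l with
  | nil => exact .nil
  | cons e l ih => exact .cons ⟨rfl, AgV.refl α _⟩ ih

theorem AgA.symm {α : X} {l l' : Args Tm C} (h : AgA α l l') : AgA α l' l := by
  unfold AgA at *
  induction h with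
  | nil => exact .nil
  | cons h _ ih => exact .cons ⟨h.1.symm, h.2.symm⟩ ih

theorem AgA.anti {α β : X} (h : α ≤ β) {l l' : Args Tm C} (hl : AgA β l l') : AgA α l l' := by
  unfold AgA at *
  induction hl with
  | nil => exact .nil
  | cons h' _ ih => exact .cons ⟨h'.1, h'.2.anti h⟩ ih

theorem ArgLt.mono {α β : X} (h : α ≤ β) {l : Args Tm C} (hl : ArgLt α l) : ArgLt β l :=
  fun e he x hx => (hl e he x hx).trans_le h

theorem Supp.mono {α β : X} (h : α ≤ β) {F : Args Tm C → C} (hF : Supp α F) : Supp β F :=
  ⟨fun l hl => hF.1 l fun hl' => hl (hl'.mono h), fun l l' hl => hF.2 l l' (hl.anti h)⟩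

/-! ### the code -/

/-- small version of values below `α` -/
abbrev SVal (Tm C : Type) (α : X) : Type := α.ToType ⊕ (List (Tm × α.ToType) → C)

/-- the ordinal of an element of `α.ToType` -/
noncomputable def up {α : X} (t : α.ToType) : X :=
  (Ordinal.ToType.mk.symm t : Set.Iio α).1

theorem up_lt {α : X} (t : α.ToType) : up t < α :=
  (Ordinal.ToType.mk.symm t : Set.Iio α).2

noncomputable def dn {α : X} (x : X) (h : x < α) : α.ToType :=
  Ordinal.ToType.mk ⟨x, h⟩

theorem up_dn {α : X} (x : X) (h : x < α) : up (dn x h) = x := by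
  simp [up, dn]

theorem dn_up {α : X} (t : α.ToType) : dn (up t) (up_lt t) = t := by
  simp [up, dn]

open Classical in
/-- embedding of small minus values -/
noncomputable def embN {α : X} (g : List (Tm × α.ToType) → C) : Neg Tm C := fun p =>
  if h : ∀ e : {e // e ∈ p}, e.1.2 < α then g (p.attach.map fun e => (e.1.1, dn e.1.2 (h e)))
  else default

noncomputable def embV {α : X} : SVal Tm C α → Val Tm C
  | Sum.inl t => Sum.inl (up t)
  | Sum.inr g => Sum.inr (embN g)

/-- restriction of minus values -/
noncomputable def resN (α : X) (G : Neg Tm C) : List (Tm × α.ToType) → C :=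
  fun p => G (p.map fun e => (e.1, up e.2))

theorem embN_resN (α : X) (G : Neg Tm C) : AgN α (embN (resN α G)) G := by
  intro p hp
  have h : ∀ e : {e // e ∈ p}, e.1.2 < α := fun e => hp e.1 e.2
  unfold embN
  rw [dif_pos h]
  unfold resN
  congr 1
  rw [List.map_map]
  conv_rhs => rw [← List.attach_map_subtype_val p]
  apply List.map_congr_left
  intro e _
  simp only [Function.comp]
  rw [up_dn]

/-- the restricted (small) function -/
noncomputable def res (α : X) (F : Args Tm C → C) : List (Tm × SVal Tm C α) → C :=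
  fun l => F (l.map fun e => (e.1, embV e.2))

theorem exists_small (α : X) (l : Args Tm C) (h : ArgLt α l) :
    ∃ s : List (Tm × SVal Tm C α), AgA α (s.map fun e => (e.1, embV e.2)) l := by
  induction l with
  | nil => exact ⟨[], AgA.refl α _⟩
  | cons e l ih =>
    obtain ⟨s, hs⟩ := ih fun e' he' => h e' (List.mem_cons_of_mem _ he')
    obtain ⟨a, v⟩ := e
    cases v with
    | inl x =>
      have hx : x < α := h (a, Sum.inl x) (List.mem_cons_self ..) x rfl
      refine ⟨(a, Sum.inl (dn x hx)) :: s, ?_⟩
      refine List.Forall₂.cons ⟨rfl, ?_⟩ hs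
      simp only [embV, up_dn]
      exact AgV.inl x
    | inr G =>
      refine ⟨(a, Sum.inr (resN α G)) :: s, ?_⟩
      refine List.Forall₂.cons ⟨rfl, ?_⟩ hs
      simp only [embV]
      exact AgV.inr (embN_resN α G)

theorem res_inj {α : X} {F F' : Args Tm C → C} (hF : Supp α F) (hF' : Supp α F')
    (h : res α F = res α F') : F = F' := by
  funext l
  by_cases hl : ArgLt α l
  · obtain ⟨s, hs⟩ := exists_small α l hl
    rw [← hF.2 _ _ hs, ← hF'.2 _ _ hs]
    exact congrFun h s
  · rw [hF.1 l hl, hF'.1 l hl]

/-- supported functions -/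
def SF (Tm C : Type) [Inhabited C] : Type 1 := {F : Args Tm C → C // ∃ α, Supp α F}

theorem exists_code (Tm C : Type) [Inhabited C] : ∃ c : SF Tm C → X, Function.Injective c := by
  classical
  -- small types embed in the ordinals
  have hsm : ∀ α : X, ∃ f : (List (Tm × SVal Tm C α) → C) → X, Function.Injective f := by
    intro α
    let T := (List (Tm × SVal Tm C α) → C)
    let r : T → T → Prop := WellOrderingRel
    refine ⟨fun t => Ordinal.typein r t, ?_⟩
    exact Ordinal.typein_injective r
  choose f hf using hsm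
  let g : SF Tm C → X × X := fun F => (Classical.choose F.2, f _ (res (Classical.choose F.2) F.1))
  have hg : Function.Injective g := by
    intro F F' h
    have h1 : Classical.choose F.2 = Classical.choose F'.2 := congrArg Prod.fst h
    have h2 : f _ (res (Classical.choose F.2) F.1) = f _ (res (Classical.choose F'.2) F'.1) :=
      congrArg Prod.snd h
    have s1 := Classical.choose_spec F.2
    have s2 := Classical.choose_spec F'.2
    generalize Classical.choose F.2 = α at *
    generalize Classical.choose F'.2 = α' at *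
    subst h1
    exact Subtype.ext (res_inj s1 s2 (hf _ h2))
  have hinf : Cardinal.aleph0 ≤ Cardinal.mk X := by
    rw [Cardinal.aleph0_le_mk_iff]
    infer_instance
  have hcard : Cardinal.mk (X × X) = Cardinal.mk X := by
    rw [Cardinal.mk_prod]
    simpa using Cardinal.mul_eq_self hinf
  obtain ⟨e⟩ := Cardinal.eq.1 hcard
  exact ⟨fun F => e (g F), e.injective.comp hg⟩

/-- the code of a supported function -/
noncomputable def code (F : SF Tm C) : X := Classical.choose (exists_code Tm C) F

theorem code_inj : Function.Injective (code : SF Tm C → X) :=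
  Classical.choose_spec (exists_code Tm C)

open Classical in
/-- the function coded by an element of `X` (default if none) -/
noncomputable def app (x : X) : Args Tm C → C :=
  if h : ∃ F : SF Tm C, code F = x then (Classical.choose h).1 else fun _ => default

theorem app_code (F : SF Tm C) : app (code F) = F.1 := by
  have h : ∃ F' : SF Tm C, code F' = code F := ⟨F, rfl⟩
  unfold app
  rw [dif_pos h]
  exact congrArg Subtype.val (code_inj (Classical.choose_spec h))



open Classical in
/-- code of an arbitrary function (0-code of default if not supported) -/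
noncomputable def codeF (F : Args Tm C → C) : X :=
  if h : ∃ α, Supp α F then code ⟨F, h⟩ else 0

theorem app_codeF {F : Args Tm C → C} (h : ∃ α, Supp α F) : app (codeF F) = F := by
  unfold codeF
  rw [dif_pos h]
  exact app_code _

/-! ### small suprema -/

theorem exists_bound {ι : Type} (f : ι → X) : ∃ β : X, ∀ i, f i < β :=
  ⟨Order.succ (iSup f), fun i => Order.lt_succ_of_le (Ordinal.le_iSup f i)⟩

/-- a family that takes only small many values is bounded -/
theorem exists_bound_of_factor {ι : Type} {A : Type*} (g : A → ι) (f : A → X)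
    (h : ∀ a a', g a = g a' → f a = f a') : ∃ β : X, ∀ a, f a < β := by
  classical
  let F : ι → X := fun i => if hi : ∃ a, g a = i then f (Classical.choose hi) else 0
  obtain ⟨β, hβ⟩ := exists_bound F
  refine ⟨β, fun a => ?_⟩
  have hi : ∃ a', g a' = g a := ⟨a, rfl⟩
  have := hβ (g a)
  simp only [F] at this
  rw [dif_pos hi] at this
  rwa [h _ _ (Classical.choose_spec hi)] at this

end Crest.Agent.R298.Dom201
private theorem rz_65b0692e3a : type_of% @_root_.Crest.Agent.R298.Dom201.embV.eq_1 := @_root_.Crest.Agent.R298.Dom201.embV.eq_1 -- L136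
end

-- ▼ part R298/Inf_786
section

/-!
# R298: infos of small (tame) types, valid argument lists, `pack` (helper786)

Over `Dom_201` (`X := Ordinal.{0}`, `Neg := Pt → C`) and an abstract skeleton of closed types:
`dom`, `cod`, `live T a` (`T` is a product, `a : dom T`, `cod T a` relevant), `leaf T` (`T` is a
sort of `D_i`).  Irrelevant types have no live step, so they are tame and have one info.
-/

set_option autoImplicit false
set_option linter.unusedSectionVars false

namespace Crest.Agent.R298.Inf786

open Crest.Agent.R298.Dom201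

/-- skeleton of closed types -/
structure Skel (Tm Ty : Type) where
  dom : Ty → Ty
  cod : Ty → Tm → Ty
  live : Ty → Tm → Prop
  leaf : Ty → Prop

variable {Tm Ty C : Type} [Inhabited C]

section skeleton

variable (K : Skel Tm Ty)

/-- live codomain chains -/
inductive Cd : Ty → Ty → Prop
  | refl (T : Ty) : Cd T T
  | step {T T' : Ty} (a : Tm) : K.live T a → Cd (K.cod T a) T' → Cd T T'

variable {K}

theorem Cd.trans {T T' T'' : Ty} (h : Cd K T T') (h' : Cd K T' T'') : Cd K T T'' := by
  induction h with
  | refl _ => exact h'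
  | step a hl _ ih => exact .step a hl (ih h')

theorem Cd.one {T : Ty} {a : Tm} (h : K.live T a) : Cd K T (K.cod T a) :=
  .step a h (.refl _)

theorem Cd.snoc {T T' : Ty} {a : Tm} (h : Cd K T T') (hl : K.live T' a) :
    Cd K T (K.cod T' a) := h.trans (.one hl)

variable (K)

/-- `A` is the domain of a live codomain descendant of `T` -/
def Dm (A T : Ty) : Prop := ∃ T' a, Cd K T T' ∧ K.live T' a ∧ A = K.dom T'

/-- tame types -/
def Tame (T : Ty) : Prop := Acc (Dm K) T

variable {K}

theorem Dm.self {T : Ty} {a : Tm} (h : K.live T a) : Dm K (K.dom T) T :=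
  ⟨T, a, .refl T, h, rfl⟩

theorem Dm.cd {A T T' : Ty} (h : Cd K T T') (hA : Dm K A T') : Dm K A T := by
  obtain ⟨T'', a, h1, h2, h3⟩ := hA
  exact ⟨T'', a, h.trans h1, h2, h3⟩

theorem Tame.cd {T T' : Ty} (hT : Tame K T) (h : Cd K T T') : Tame K T' :=
  Acc.intro _ fun _ hA => hT.inv (hA.cd h)

theorem Tame.cod {T : Ty} {a : Tm} (hT : Tame K T) (h : K.live T a) : Tame K (K.cod T a) :=
  hT.cd (.one h)

theorem Tame.dom {T : Ty} {a : Tm} (hT : Tame K T) (h : K.live T a) : Tame K (K.dom T) :=
  hT.inv (Dm.self h)

theorem Tame.dm {A T : Ty} (hT : Tame K T) (h : Dm K A T) : Tame K A := hT.inv h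

theorem tame_of_dead {T : Ty} (h : ∀ a, ¬ K.live T a) : Tame K T := by
  refine Acc.intro _ fun A hA => ?_
  obtain ⟨T', a, h1, h2, _⟩ := hA
  cases h1 with
  | refl _ => exact absurd h2 (h a)
  | step b hb _ => exact absurd hb (h b)


variable (K)

/-- the recursion relation -/
def DmA (A T : Ty) : Prop := Dm K A T ∧ Tame K T

theorem dmA_wf : WellFounded (DmA K) := by
  refine ⟨fun T => ?_⟩
  by_cases hT : Tame K T
  · induction hT with
    | intro T _ ih => exact Acc.intro _ fun A hA => ih A hA.1
  · exact Acc.intro _ fun A hA => absurd hA.2 hT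

/-- validity of complete argument lists, relative to the ranges of the domains -/
def ValG (R : Ty → Set (Val Tm C)) : Ty → Args Tm C → Prop
  | T, [] => K.leaf T
  | T, e :: l => K.live T e.1 ∧ e.2 ∈ R (K.dom T) ∧ ValG R (K.cod T e.1) l

/-- infos of tame types -/
noncomputable def Info (C : Type) [Inhabited C] : Ty → Set X :=
  (dmA_wf K).fix fun T ih =>
    {x | ∃ F : Args Tm C → C,
      (∀ l, ¬ ValG K (fun A => {e | ∃ h : DmA K A T, ∃ y ∈ ih A h, e = Sum.inl y}) T l →
        F l = default) ∧ x = codeF F}

/-- wild minus types -/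
def IsNeg (sg : Ty → Prop) (A : Ty) : Prop := ¬ Tame K A ∧ sg A

open Classical in
/-- the infos of a closed type -/
noncomputable def rng (C : Type) [Inhabited C] (sg : Ty → Prop) (A : Ty) : Set (Val Tm C) :=
  if Tame K A then Sum.inl '' Info K C A
  else if sg A then Set.range Sum.inr else Set.range Sum.inl

/-- complete valid argument lists -/
def Valid (sg : Ty → Prop) : Ty → Args Tm C → Prop := ValG K (rng K C sg)

variable {K}

theorem rng_tame {sg : Ty → Prop} {A : Ty} (h : Tame K A) :
    rng K C sg A = Sum.inl '' Info K C A := by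
  unfold rng
  rw [if_pos h]

theorem rng_neg {sg : Ty → Prop} {A : Ty} (h : IsNeg K sg A) :
    rng K C sg A = Set.range Sum.inr := by
  unfold rng
  rw [if_neg h.1, if_pos h.2]

theorem rng_pos {sg : Ty → Prop} {A : Ty} (h : ¬ Tame K A) (h' : ¬ sg A) :
    rng K C sg A = Set.range Sum.inl := by
  unfold rng
  rw [if_neg h, if_neg h']

variable {sg : Ty → Prop}

@[simp] theorem valid_nil {T : Ty} : Valid K sg T ([] : Args Tm C) ↔ K.leaf T := Iff.rfl

@[simp] theorem valid_cons {T : Ty} {e : Tm × Val Tm C} {l : Args Tm C} :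
    Valid K sg T (e :: l) ↔
      K.live T e.1 ∧ e.2 ∈ rng K C sg (K.dom T) ∧ Valid K sg (K.cod T e.1) l := Iff.rfl

theorem info_unfold (T : Ty) : Info K C T =
    {x | ∃ F : Args Tm C → C,
      (∀ l, ¬ ValG K (fun A => {e | ∃ _ : DmA K A T, ∃ y ∈ Info K C A, e = Sum.inl y}) T l →
        F l = default) ∧ x = codeF F} := by
  unfold Info
  rw [(dmA_wf K).fix_eq]

theorem valG_iff {T : Ty} (hT : Tame K T) {T' : Ty} (h : Cd K T T') (l : Args Tm C) :
    ValG K (fun A => {e | ∃ _ : DmA K A T, ∃ y ∈ Info K C A, e = Sum.inl y}) T' l ↔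
      Valid K sg T' l := by
  induction l generalizing T' with
  | nil => exact Iff.rfl
  | cons e l ih =>
    obtain ⟨a, v⟩ := e
    constructor
    · rintro ⟨h1, ⟨h2, y, h3, h4⟩, h5⟩
      refine ⟨h1, ?_, (ih (h.snoc h1)).1 h5⟩
      rw [rng_tame (hT.dm h2.1)]
      exact ⟨y, h3, h4.symm⟩
    · rintro ⟨h1, h2, h5⟩
      have hD : Dm K (K.dom T') T := (Dm.self h1).cd h
      rw [rng_tame (hT.dm hD)] at h2
      obtain ⟨y, h3, h4⟩ := h2
      exact ⟨h1, ⟨⟨hD, hT⟩, y, h3, h4.symm⟩, (ih (h.snoc h1)).2 h5⟩

/-- **infos of a tame type** = codes of the functions vanishing off the valid lists -/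
theorem info_eq (sg : Ty → Prop) {T : Ty} (hT : Tame K T) : Info K C T =
    {x | ∃ F : Args Tm C → C, (∀ l, ¬ Valid K sg T l → F l = default) ∧ x = codeF F} := by
  rw [info_unfold]
  ext x
  constructor
  · rintro ⟨F, h1, h2⟩
    exact ⟨F, fun l hl => h1 l fun h => hl ((valG_iff hT (.refl T) l).1 h), h2⟩
  · rintro ⟨F, h1, h2⟩
    exact ⟨F, fun l hl => h1 l fun h => hl ((valG_iff hT (.refl T) l).2 h), h2⟩

/-! ### lists with plus entries only -/

/-- no minus entries -/
def NoNeg (l : Args Tm C) : Prop := ∀ e ∈ l, ∃ x, e.2 = Sum.inl x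








theorem eq_of_agA {α : X} {l l' : Args Tm C} (h : AgA α l l') (hl : NoNeg l) : l = l' := by
  unfold AgA at h
  induction h with
  | nil => rfl
  | @cons e e' l l' hee _ ih =>
    obtain ⟨x, hx⟩ := hl e (List.mem_cons_self ..)
    obtain ⟨a, v⟩ := e
    obtain ⟨a', v'⟩ := e'
    obtain ⟨h1, h2⟩ := hee
    simp only at h1 h2 hx
    subst hx
    subst h1
    cases h2
    rw [ih fun d' hd' => hl d' (List.mem_cons_of_mem _ hd')]

/-! ### one global bound -/

theorem valid_tame_entries {T : Ty} (hT : Tame K T) {l : Args Tm C} (h : Valid K sg T l) :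
    ∀ e ∈ l, ∃ A, Dm K A T ∧ ∃ x ∈ Info K C A, e.2 = Sum.inl x := by
  suffices H : ∀ (l : Args Tm C) (T' : Ty), Cd K T T' → Valid K sg T' l →
      ∀ e ∈ l, ∃ A, Dm K A T ∧ ∃ x ∈ Info K C A, e.2 = Sum.inl x from H l T (.refl T) h
  intro l
  induction l with
  | nil => intro T' _ _ e he; exact absurd he List.not_mem_nil
  | cons d l ih =>
    intro T' hc hv e he
    obtain ⟨h1, h2, h3⟩ := hv
    rcases List.mem_cons.1 he with rfl | he
    · have hD : Dm K (K.dom T') T := (Dm.self h1).cd hc
      rw [rng_tame (hT.dm hD)] at h2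
      obtain ⟨x, hx, hx'⟩ := h2
      exact ⟨_, hD, x, hx, hx'.symm⟩
    · exact ih _ (hc.snoc h1) h3 e he

theorem exists_small_list {β : X} {l : Args Tm C}
    (h : ∀ e ∈ l, ∃ x, x < β ∧ e.2 = Sum.inl x) :
    ∃ s : List (Tm × β.ToType), l = s.map fun e => (e.1, (Sum.inl (up e.2) : Val Tm C)) := by
  induction l with
  | nil => exact ⟨[], rfl⟩
  | cons e l ih =>
    obtain ⟨s, hs⟩ := ih fun d hd => h d (List.mem_cons_of_mem _ hd)
    obtain ⟨x, hx, hx'⟩ := h e (List.mem_cons_self ..)
    refine ⟨(e.1, dn x hx) :: s, ?_⟩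
    rw [List.map_cons, ← hs]
    simp only [up_dn]
    rw [← hx']

theorem info_bounded {T : Ty} (hT : Tame K T) : ∃ b : X, ∀ x ∈ Info K C T, x < b := by
  induction hT with
  | intro T h ih =>
    have hT : Tame K T := Acc.intro _ h
    have hc : ∀ A : Ty, ∃ b : X, Dm K A T → ∀ x ∈ Info K C A, x < b := by
      intro A
      by_cases hA : Dm K A T
      · obtain ⟨b, hb⟩ := ih A hA
        exact ⟨b, fun _ => hb⟩
      · exact ⟨0, fun h => absurd h hA⟩
    choose bd hbd using hc
    obtain ⟨β, hβ⟩ := exists_bound bd
    let sg : Ty → Prop := fun _ => True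
    obtain ⟨b, hb⟩ := exists_bound_of_factor
      (A := {F : Args Tm C → C // ∀ l, ¬ Valid K sg T l → F l = default})
      (ι := List (Tm × β.ToType) → C)
      (fun F s => F.1 (s.map fun e => (e.1, Sum.inl (up e.2))))
      (fun F => codeF F.1) (by
        intro F F' hFF
        have : F.1 = F'.1 := by
          funext l
          by_cases hl : Valid K sg T l
          · obtain ⟨s, hs⟩ := exists_small_list (β := β) (l := l) (by
              intro e he
              obtain ⟨A, hA, x, hx, hx'⟩ := valid_tame_entries hT hl e he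
              exact ⟨x, (hbd A hA x hx).trans (hβ A), hx'⟩)
            rw [hs]
            exact congrFun hFF s
          · rw [F.2 l hl, F'.2 l hl]
        rw [this])
    refine ⟨b, fun x hx => ?_⟩
    rw [info_eq sg hT] at hx
    obtain ⟨F, hF, rfl⟩ := hx
    exact hb ⟨F, hF⟩

theorem exists_b0 (K : Skel Tm Ty) (C : Type) [Inhabited C] :
    ∃ b : X, ∀ T : Ty, Tame K T → ∀ x ∈ Info K C T, x < b := by
  have hc : ∀ T : Ty, ∃ b : X, Tame K T → ∀ x ∈ Info K C T, x < b := by
    intro T
    by_cases hT : Tame K T
    · obtain ⟨b, hb⟩ := info_bounded (C := C) hT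
      exact ⟨b, fun _ => hb⟩
    · exact ⟨0, fun h => absurd h hT⟩
  choose bd hbd using hc
  obtain ⟨β, hβ⟩ := exists_bound bd
  exact ⟨β, fun T hT x hx => (hbd T hT x hx).trans (hβ T)⟩

/-- one ordinal above all infos of all tame types -/
noncomputable def b0 (K : Skel Tm Ty) (C : Type) [Inhabited C] : X :=
  Classical.choose (exists_b0 K C)

theorem info_lt_b0 {T : Ty} (hT : Tame K T) {x : X} (hx : x ∈ Info K C T) : x < b0 K C :=
  Classical.choose_spec (exists_b0 K C) T hT x hx

/-! ### thin skeletons -/

/-- THIN: under a wild type the wild domains have the opposite sign -/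
def Thin (K : Skel Tm Ty) (sg : Ty → Prop) : Prop :=
  ∀ T T' a, ¬ Tame K T → Cd K T T' → K.live T' a → ¬ Tame K (K.dom T') →
    (sg (K.dom T') ↔ ¬ sg T)



theorem valid_congr {T : Ty} {α : X} {l l' : Args Tm C} (h : AgA α l l')
    (hl : Valid K sg T l) : Valid K sg T l' := by
  unfold AgA at h
  induction h generalizing T with
  | nil => exact hl
  | @cons e e' l l' hee _ ih =>
    obtain ⟨a, v⟩ := e
    obtain ⟨a', v'⟩ := e'
    obtain ⟨h1, h2⟩ := hee
    simp only at h1 h2
    subst h1
    obtain ⟨g1, g2, g3⟩ := hl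
    refine ⟨g1, ?_, ih g3⟩
    simp only at g2 ⊢
    cases h2 with
    | inl x => exact g2
    | @inr G H _ =>
      by_cases hD : Tame K (K.dom T)
      · rw [rng_tame hD] at g2
        obtain ⟨y, _, hy⟩ := g2
        exact absurd hy (by simp)
      · by_cases hs : sg (K.dom T)
        · rw [rng_neg ⟨hD, hs⟩]
          exact ⟨H, rfl⟩
        · rw [rng_pos hD hs] at g2
          obtain ⟨y, hy⟩ := g2
          exact absurd hy (by simp)

/-! ### evaluation of values and `pack` -/






















end skeleton

end Crest.Agent.R298.Inf786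
end

-- ▼ part R298/Vt_786

/-!
# R298: modes, valid paths, small infos for the frames of `Cod_893` (helper786)

Bridge from `Inf_786` (tame part, over `Dom_201`) to `Cod_893`: `SI`, `putS`, `getS`, `rngS`, `vt`
over an abstract skeleton of closed types (elements of `Q`), and the three laws
`entry_ok`, `entry_congr`, `look_entry`.
-/

set_option autoImplicit false
set_option linter.unusedSectionVars false

namespace Crest.Agent.R298.Vt786

open Crest.Agent.R298.Dom201 (X Val Args codeF app_codeF Supp ArgLt AgA up up_lt up_dn dn_up)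
open Crest.Agent.R298.Inf786
open Crest.Agent.R298.Cod893

variable {Q C : Type} [Inhabited C]

section tame

variable (K : Skel Q Q)

/-- one ordinal above all small infos -/
noncomputable def bnd (K : Skel Q Q) (C : Type) [Inhabited C] : X := max (b0 K C) 1

theorem bnd_pos : (0 : X) < bnd K C := lt_of_lt_of_le zero_lt_one (le_max_right _ _)

theorem info_lt_bnd {T : Q} (hT : Tame K T) {x : X} (hx : x ∈ Info K C T) : x < bnd K C :=
  (info_lt_b0 hT hx).trans_le (le_max_left _ _)

/-- small infos -/
abbrev SI (K : Skel Q Q) (C : Type) [Inhabited C] : Type := (bnd K C).ToType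

/-- small paths as argument lists -/
noncomputable def cnv (l : List (Q × SI K C)) : Args Q C :=
  l.map fun e => (e.1, Sum.inl (up e.2))

theorem up_inj {α : X} {s t : α.ToType} (h : up s = up t) : s = t := by
  rw [← dn_up s, ← dn_up t]
  congr 1

theorem cnv_inj {l l' : List (Q × SI K C)} (h : cnv K l = cnv K l') : l = l' := by
  induction l generalizing l' with
  | nil =>
    cases l' with
    | nil => rfl
    | cons e l' => simp [cnv] at h
  | cons e l ih =>
    cases l' with
    | nil => simp [cnv] at h
    | cons e' l' =>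
      simp only [cnv, List.map_cons, List.cons.injEq, Prod.mk.injEq, Sum.inl.injEq] at h
      obtain ⟨⟨h1, h2⟩, h3⟩ := h
      obtain ⟨a, s⟩ := e
      obtain ⟨a', s'⟩ := e'
      simp only at h1 h2
      rw [h1, up_inj h2, ih h3]

open Classical in
/-- a function on small paths as a function on argument lists, cut to the valid lists -/
noncomputable def ext (A : Q) (v : List (Q × SI K C) → C) : Args Q C → C := fun l =>
  if h : ∃ s, cnv K s = l ∧ Valid K (fun _ => True) A l then v (Classical.choose h) else default

theorem ext_off {A : Q} {v : List (Q × SI K C) → C} {l : Args Q C}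
    (h : ¬ Valid K (fun _ => True) A l) : ext K A v l = default := by
  unfold ext
  rw [dif_neg]
  rintro ⟨s, _, h2⟩
  exact h h2

theorem ext_cnv {A : Q} {v : List (Q × SI K C) → C} {s : List (Q × SI K C)}
    (h : Valid K (fun _ => True) A (cnv K s)) : ext K A v (cnv K s) = v s := by
  unfold ext
  have hex : ∃ s', cnv K s' = cnv K s ∧ Valid K (fun _ => True) A (cnv K s) := ⟨s, rfl, h⟩
  rw [dif_pos hex]
  rw [cnv_inj K (Classical.choose_spec hex).1]

open Classical in
/-- canonical small info of a function -/
noncomputable def putS (A : Q) (v : List (Q × SI K C) → C) : SI K C :=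
  if h : (codeF (ext K A v) : X) < bnd K C then Dom201.dn _ h else Dom201.dn 0 (bnd_pos K)

/-- function of a small info -/
noncomputable def getS (s : SI K C) (l : List (Q × SI K C)) : C :=
  (Dom201.app (up s) : Args Q C → C) (cnv K l)

variable {K}

theorem ext_mem {A : Q} (hA : Tame K A) (v : List (Q × SI K C) → C) :
    (codeF (ext K A v) : X) ∈ Info K C A := by
  rw [info_eq (fun _ => True) hA]
  exact ⟨_, fun l hl => ext_off K hl, rfl⟩

theorem up_putS {A : Q} (hA : Tame K A) (v : List (Q × SI K C) → C) :
    up (putS K A v) = codeF (ext K A v) := by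
  unfold putS
  rw [dif_pos (info_lt_bnd K hA (ext_mem hA v)), up_dn]

theorem putS_mem {A : Q} (hA : Tame K A) (v : List (Q × SI K C) → C) :
    up (putS K A v) ∈ Info K C A := by
  rw [up_putS hA]
  exact ext_mem hA v

theorem supp_tame {A : Q} (hA : Tame K A) {F : Args Q C → C}
    (hF : ∀ l, ¬ Valid K (fun _ => True) A l → F l = default) : ∃ α, Supp α F := by
  have hno : ∀ l : Args Q C, Valid K (fun _ => True) A l → NoNeg l := by
    intro l hl e he
    obtain ⟨_, _, x, _, hx⟩ := valid_tame_entries hA hl e he
    exact ⟨x, hx⟩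
  refine ⟨b0 K C, fun l hl => hF l fun hv => hl ?_, fun l l' hll => ?_⟩
  · intro e he x hx
    obtain ⟨B, hB, y, hy, hy'⟩ := valid_tame_entries hA hv e he
    rw [hx] at hy'
    rw [Sum.inl.inj hy']
    exact info_lt_b0 (hA.dm hB) hy
  · by_cases hv : Valid K (fun _ => True) A l
    · rw [eq_of_agA hll (hno l hv)]
    · have hv' : ¬ Valid K (fun _ => True) A l' := fun h => hv (valid_congr hll.symm h)
      rw [hF l hv, hF l' hv']

/-- **get after put** -/
theorem getS_putS {A : Q} (hA : Tame K A) (v : List (Q × SI K C) → C) {l : List (Q × SI K C)}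
    (hl : Valid K (fun _ => True) A (cnv K l)) : getS K (putS K A v) l = v l := by
  unfold getS
  rw [up_putS hA, app_codeF (supp_tame hA fun l hl => ext_off K hl)]
  exact ext_cnv K hl

end tame

section paths

variable (K : Skel Q Q) (sg : Q → Prop)

/-- entries admitted at a closed type -/
def rngS (B : Q) : ESh Q (SI K C) C → Prop
  | .sm s => Tame K B ∧ up s ∈ Info K C B
  | .co _ => ¬ Tame K B ∧ ¬ sg B
  | .hole => ¬ Tame K B ∧ sg B

/-- complete valid paths (shapes) of a closed type -/
def vt : Q → Sh Q (SI K C) C → Prop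
  | A, [] => K.leaf A
  | A, x :: s => K.live A x.1 ∧ rngS K sg (K.dom A) x.2 ∧ vt (K.cod A x.1) s

open Classical in
/-- modes of closed types -/
noncomputable def modeS (A : Q) : Mode :=
  if Tame K A then .small else if sg A then .minus else .plus

open Classical in
/-- clamp by a declared closed type -/
noncomputable def ntS (A : Q) (s : Sh Q (SI K C) C) (c : C) : C :=
  if vt K sg A s then c else default

variable {K sg}

@[simp] theorem vt_nil {A : Q} : vt K sg A ([] : Sh Q (SI K C) C) ↔ K.leaf A := Iff.rfl

@[simp] theorem vt_cons {A : Q} {x : Q × ESh Q (SI K C) C} {s : Sh Q (SI K C) C} :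
    vt K sg A (x :: s) ↔ K.live A x.1 ∧ rngS K sg (K.dom A) x.2 ∧ vt K sg (K.cod A x.1) s :=
  Iff.rfl

theorem modeS_tame {A : Q} (h : Tame K A) : modeS K sg A = .small := by
  unfold modeS
  rw [if_pos h]

theorem modeS_minus {A : Q} (h : ¬ Tame K A) (h' : sg A) : modeS K sg A = .minus := by
  unfold modeS
  rw [if_neg h, if_pos h']

theorem modeS_plus {A : Q} (h : ¬ Tame K A) (h' : ¬ sg A) : modeS K sg A = .plus := by
  unfold modeS
  rw [if_neg h, if_neg h']


/-- valid paths of tame types are small -/
theorem vt_tame {A A' : Q} (hA : Tame K A) (hc : Cd K A A') {p : UPath Q (SI K C) C}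
    (h : vt K sg A' (sh p)) :
    ∃ l, toS p = some l ∧ Valid K (fun _ => True) A' (cnv K l) := by
  induction p generalizing A' with
  | nil => exact ⟨[], rfl, h⟩
  | cons x p ih =>
    obtain ⟨q, e⟩ := x
    obtain ⟨h1, h2, h3⟩ := h
    have hD : Tame K (K.dom A') := (hA.cd hc).dom h1
    obtain ⟨l, hl, hv⟩ := ih (hc.snoc h1) h3
    cases e with
    | sm s =>
      refine ⟨(q, s) :: l, ?_, h1, ?_, hv⟩
      · show (toS p).map (fun l => (q, s) :: l) = some ((q, s) :: l)
        rw [hl]
        rfl
      · rw [rng_tame hD]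
        exact ⟨_, h2.2, rfl⟩
    | co c => exact absurd hD h2.1
    | mi f => exact absurd hD h2.1

/-- valid paths of wild minus types have no minus entries -/
theorem vt_minus (hth : Thin K sg) {A A' : Q} (hA : ¬ Tame K A) (hs : sg A) (hc : Cd K A A')
    {p : UPath Q (SI K C) C} (h : vt K sg A' (sh p)) : ∃ l, toM p = some l := by
  induction p generalizing A' with
  | nil => exact ⟨[], rfl⟩
  | cons x p ih =>
    obtain ⟨q, e⟩ := x
    obtain ⟨h1, h2, h3⟩ := h
    obtain ⟨l, hl⟩ := ih (hc.snoc h1) h3
    cases e with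
    | sm s =>
      refine ⟨(q, Sum.inl s) :: l, ?_⟩
      show (unE (Ent.sm s)).bind (fun e => (toM p).map fun l => (q, e) :: l) = _
      rw [hl]
      rfl
    | co c =>
      refine ⟨(q, Sum.inr c) :: l, ?_⟩
      show (unE (Ent.co c)).bind (fun e => (toM p).map fun l => (q, e) :: l) = _
      rw [hl]
      rfl
    | mi f =>
      obtain ⟨g1, g2⟩ := h2
      exact absurd hs ((hth A A' q hA hc h1 g1).1 g2)

/-- valid paths of wild plus types have no codes -/
theorem vt_plus (hth : Thin K sg) {A A' : Q} (hA : ¬ Tame K A) (hs : ¬ sg A) (hc : Cd K A A')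
    {p : UPath Q (SI K C) C} (h : vt K sg A' (sh p)) : IsP p := by
  induction p generalizing A' with
  | nil => intro x hx; exact absurd hx List.not_mem_nil
  | cons x p ih =>
    obtain ⟨q, e⟩ := x
    obtain ⟨h1, h2, h3⟩ := h
    have ih' := ih (hc.snoc h1) h3
    intro y hy c
    rcases List.mem_cons.1 hy with rfl | hy
    · intro hc'
      simp only at hc'
      subst hc'
      obtain ⟨g1, g2⟩ := h2
      exact g2 ((hth A A' q hA hc h1 g1).2 hs)
    · exact ih' y hy c

end paths

section frames

variable {S : Type} {K : Skel Q Q} {sg : Q → Prop}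

/-- frames with the standard modes, small infos and declared clamps -/
structure Std (K : Skel Q Q) (sg : Q → Prop) (F : Frame S Q (SI K C) C) : Prop where
  b : F.b = default
  nt : F.nt = ntS K sg
  mode : F.mode = modeS K sg
  put : F.put = putS K
  get : F.get = getS K

/-- a standard frame -/
noncomputable def stdFrame (K : Skel Q Q) (sg : Q → Prop) (cl : Crest.LogicCS.PTS.Term S → Q) (rep : Q → Crest.LogicCS.PTS.Term S)
    (nz : Q → Sh Q (SI K C) C → C → C) (dty : Q → Q) (sv : S → C)
    (op : Q → Q → C → (Q → PEnt Q (SI K C) C → C) → C) : Frame S Q (SI K C) C where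
  b := default
  cl := cl
  rep := rep
  nz := nz
  nt := ntS K sg
  dty := dty
  mode := modeS K sg
  put := putS K
  get := getS K
  sv := sv
  op := op

variable {F : Frame S Q (SI K C) C}

theorem Std.ntu_of (h : Std K sg F) {A : Q} {u : UF Q (SI K C) C} {p : UPath Q (SI K C) C}
    (hp : vt K sg A (sh p)) : ntu F A u p = u p := by
  unfold ntu
  rw [h.nt]
  unfold ntS
  rw [if_pos hp]

theorem Std.ntu_off (h : Std K sg F) {A : Q} {u : UF Q (SI K C) C} {p : UPath Q (SI K C) C}
    (hp : ¬ vt K sg A (sh p)) : ntu F A u p = default := by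
  unfold ntu
  rw [h.nt]
  unfold ntS
  rw [if_neg hp]

theorem Std.ntu_congr (h : Std K sg F) {A : Q} {u v : UF Q (SI K C) C}
    (huv : ∀ p, vt K sg A (sh p) → u p = v p) : ntu F A u = ntu F A v := by
  funext p
  by_cases hp : vt K sg A (sh p)
  · rw [h.ntu_of hp, h.ntu_of hp, huv p hp]
  · rw [h.ntu_off hp, h.ntu_off hp]

theorem Std.entry_tame (h : Std K sg F) {A : Q} (hA : Tame K A) (u : UF Q (SI K C) C) :
    entry F A u = .sm (putS K A (fun l => ntu F A u (embS l))) := by
  unfold entry
  rw [h.mode, modeS_tame hA, h.put]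

theorem Std.entry_minus (h : Std K sg F) {A : Q} (hA : ¬ Tame K A) (hs : sg A)
    (u : UF Q (SI K C) C) : entry F A u = .mi (fun l => ntu F A u (emb l)) := by
  unfold entry
  rw [h.mode, modeS_minus hA hs]

theorem Std.entry_plus (h : Std K sg F) {A : Q} (hA : ¬ Tame K A) (hs : ¬ sg A)
    (u : UF Q (SI K C) C) : entry F A u = .co (enc F.b (ntu F A u)) := by
  unfold entry
  rw [h.mode, modeS_plus hA hs]

/-- **(L1)** packed arguments are admitted -/
theorem Std.entry_ok (h : Std K sg F) (A : Q) (u : UF Q (SI K C) C) :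
    rngS K sg A (entry F A u).sh := by
  by_cases hA : Tame K A
  · rw [h.entry_tame hA]
    exact ⟨hA, putS_mem hA _⟩
  · by_cases hs : sg A
    · rw [h.entry_minus hA hs]
      exact ⟨hA, hs⟩
    · rw [h.entry_plus hA hs]
      exact ⟨hA, hs⟩

/-- **(L2)** packing only looks at the valid paths of the declared type -/
theorem Std.entry_congr (h : Std K sg F) {A : Q} {u v : UF Q (SI K C) C}
    (huv : ∀ p, vt K sg A (sh p) → u p = v p) : entry F A u = entry F A v := by
  have e := h.ntu_congr huv
  unfold entry
  rw [e]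

/-- **(L3)** packing is faithful on the valid paths of the declared type -/
theorem Std.look_entry (h : Std K sg F) (hth : Thin K sg) (A : Q) {u : UF Q (SI K C) C}
    (hu : Good u) {p : UPath Q (SI K C) C} (hp : vt K sg A (sh p)) :
    look F (entry F A u) p = u p := by
  by_cases hA : Tame K A
  · obtain ⟨l, hl, hv⟩ := vt_tame hA (.refl A) hp
    have e : embS l = p := embS_toS hl
    rw [h.entry_tame hA]
    have e2 : look F (.sm (putS K A (fun l => ntu F A u (embS l)))) p =
        F.get (putS K A (fun l => ntu F A u (embS l))) l := by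
      simp only [look, hl]
    rw [e2, h.get, getS_putS hA _ hv, e, h.ntu_of hp]
  · by_cases hs : sg A
    · obtain ⟨l, hl⟩ := vt_minus hth hA hs (.refl A) hp
      have e : emb l = p := emb_toM hl
      rw [h.entry_minus hA hs]
      have e2 : look F (.mi (fun l => ntu F A u (emb l))) p = ntu F A u (emb l) := by
        simp only [look, hl]
      rw [e2, e, h.ntu_of hp]
    · have hP := vt_plus hth hA hs (.refl A) hp
      rw [h.entry_plus hA hs]
      have e2 : look F (.co (enc F.b (ntu F A u))) p = dec F.b (enc F.b (ntu F A u)) p := rfl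
      rw [e2, dec_enc F.b ((ntu_good F A hu).coded F.b) hP, h.ntu_of hp]


/-- the default entry -/
noncomputable def dfl (F : Frame S Q (SI K C) C) (A : Q) : Ent Q (SI K C) C :=
  entry F A fun _ => F.b


end frames

end Crest.Agent.R298.Vt786
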