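import Crest.Agent.R298.Fl1_113
import Crest.Agent.R298.TyF_452
import Crest.Agent.R298.Uniq_452
import Crest.Agent.R298.Vt_786

-- ▼ part R298/Fl2_113
section

/-!
R298 (S0452), helper113: THEOREM F over function contexts (452's `TyF`).

World `W : ℕ → Term S` (`WfF P W`).  Closed types = types over `W`.
`Cs T T'`  : `T'` is a codomain instance of `T` (up to reduction).
`Rl T`     : some chain of codomain instances ends in a sort of `D` (relevant type).
`Tame T`   : accessibility over relevant domain steps of codomain-instance descendants.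
THEOREM F  : if there is no fat configuration, then a closed type with sorts `t`, `t'` of opposite
signs is tame.
-/

set_option autoImplicit false

namespace Crest.Agent.R298.Fl113

open Crest.LogicCS.PTS Crest.LogicCS.PTS.Term Relation
open Crest.Agent.R298.Sub452 Crest.Agent.R298.Par452 Crest.Agent.R298.Ty452
open Crest.Agent.R298.TyF452

universe u

variable {S : Type u} {P : Spec S} {D : Set S} {W : ℕ → Term S}

/-- codomain instance -/
def Cs (P : Spec S) (W : ℕ → Term S) (T T' : Term S) : Prop :=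
  ∃ A B N, Red T (pi A B) ∧ TyF P W N A ∧ T' = inst N B

/-- relevant closed types -/
inductive Rl (P : Spec S) (D : Set S) (W : ℕ → Term S) : Term S → Prop
  | leaf {T : Term S} {s : S} : Red T (sort s) → s ∈ D → Rl P D W T
  | step {T T' : Term S} : Cs P W T T' → Rl P D W T' → Rl P D W T

/-- tame closed types: accessibility over relevant domain steps -/
inductive Tame (P : Spec S) (D : Set S) (W : ℕ → Term S) : Term S → Prop
  | mk {T : Term S} : (∀ T' A B, ReflTransGen (Cs P W) T T' → Red T' (pi A B) →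
      Rl P D W (pi A B) → Rl P D W A → Tame P D W A) → Tame P D W T

theorem Tame.inv {T : Term S} (h : Tame P D W T) : ∀ T' A B, ReflTransGen (Cs P W) T T' →
    Red T' (pi A B) → Rl P D W (pi A B) → Rl P D W A → Tame P D W A := by
  cases h with
  | mk h => exact h

/-! ### reduction -/

theorem Cs.of_red {T T₁ T' : Term S} (r : Red T T₁) (h : Cs P W T₁ T') : Cs P W T T' := by
  obtain ⟨A, B, N, h1, h2, h3⟩ := h
  exact ⟨A, B, N, r.trans h1, h2, h3⟩

theorem Cs.red (w : WfF P W) {T T₁ T' : Term S} (r : Red T T₁) (h : Cs P W T T') :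
    ∃ T₁', Cs P W T₁ T₁' ∧ Red T' T₁' := by
  obtain ⟨A, B, N, h1, h2, rfl⟩ := h
  obtain ⟨Q, q1, q2⟩ := confluence h1 r
  obtain ⟨A', B', rfl, a, b⟩ := red_pi q1
  exact ⟨_, ⟨A', B', N, q2, tyf_red_type w h2 a, rfl⟩, red_inst .refl b⟩

theorem css_red (w : WfF P W) {T T' : Term S} (h : ReflTransGen (Cs P W) T T') :
    ∀ {T₁ : Term S}, Red T T₁ → ∃ T₁', ReflTransGen (Cs P W) T₁ T₁' ∧ Red T' T₁' := by
  induction h with
  | refl => intro T₁ r; exact ⟨T₁, .refl, r⟩
  | tail _ h ih =>
      intro T₁ r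
      obtain ⟨T₂, h1, h2⟩ := ih r
      obtain ⟨T₃, h3, h4⟩ := h.red w h2
      exact ⟨T₃, h1.tail h3, h4⟩

theorem Rl.of_red {T T₁ : Term S} (r : Red T T₁) (h : Rl P D W T₁) : Rl P D W T := by
  cases h with
  | leaf h hs => exact .leaf (r.trans h) hs
  | step h h' => exact .step (h.of_red r) h'

theorem Rl.red (w : WfF P W) {T : Term S} (h : Rl P D W T) :
    ∀ {T₁ : Term S}, Red T T₁ → Rl P D W T₁ := by
  induction h with
  | leaf h hs =>
      intro T₁ r
      obtain ⟨Q, q1, q2⟩ := confluence h r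
      rw [red_sort q1] at q2
      exact .leaf q2 hs
  | step h _ ih =>
      intro T₁ r
      obtain ⟨T₂, h1, h2⟩ := h.red w r
      exact .step h1 (ih h2)

theorem Rl.of_css {T T' : Term S} (h : ReflTransGen (Cs P W) T T') (h' : Rl P D W T') :
    Rl P D W T := by
  induction h with
  | refl => exact h'
  | tail _ h ih => exact ih (.step h h')

theorem Tame.red {T T₁ : Term S} (r : Red T T₁) (h : Tame P D W T) : Tame P D W T₁ := by
  refine .mk fun T' A B h1 h2 h3 h4 => ?_
  rcases ReflTransGen.cases_head h1 with rfl | ⟨T₂, h5, h6⟩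
  · exact h.inv T A B .refl (r.trans h2) h3 h4
  · exact h.inv T' A B (.head (h5.of_red r) h6) h2 h3 h4

theorem Tame.of_red (w : WfF P W) {T₁ : Term S} (h : Tame P D W T₁) :
    ∀ {T : Term S}, Red T T₁ → Tame P D W T := by
  induction h with
  | mk h ih =>
      intro T r
      refine .mk fun T' A B h1 h2 h3 h4 => ?_
      obtain ⟨T₁', h5, h6⟩ := css_red w h1 r
      obtain ⟨Q, q1, q2⟩ := confluence h2 h6
      obtain ⟨A', B', rfl, a, b⟩ := red_pi q1
      exact ih T₁' A' B' h5 q2 (h3.red w q1) (h4.red w a) a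

theorem Tame.of_not_rl {T : Term S} (h : ¬ Rl P D W T) : Tame P D W T :=
  .mk fun _ _ _ h1 h2 h3 _ => (h (Rl.of_css h1 (h3.of_red h2))).elim

theorem Tame.pi {A B : Term S} (hA : Rl P D W (pi A B) → Rl P D W A → Tame P D W A)
    (hB : ∀ N, TyF P W N A → Tame P D W (inst N B)) {s : S} (hs : TyF P W A (sort s)) :
    Tame P D W (Term.pi A B) := by
  refine .mk fun T' A' B' h1 h2 h3 h4 => ?_
  rcases ReflTransGen.cases_head h1 with rfl | ⟨T₂, h5, h6⟩
  · obtain ⟨A₁, B₁, e, a, b⟩ := red_pi h2
    injection e with e1 e2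
    subst e1; subst e2
    exact (hA (h3.of_red h2) (h4.of_red a)).red a
  · obtain ⟨A₁, B₁, N, h7, h8, rfl⟩ := h5
    obtain ⟨A₂, B₂, e, a, b⟩ := red_pi h7
    injection e with e1 e2
    subst e1; subst e2
    have hN : TyF P W N A := .conv h8 hs (BetaEq.symm a.eq)
    exact ((hB N hN).red (red_inst .refl b)).inv T' A' B' h6 h2 h3 h4

/-! ### typing -/

theorem cs_typed (w : WfF P W) {T T' : Term S} {t : S} (hT : TyF P W T (sort t))
    (h : Cs P W T T') : ∃ a b, P.rule a b t ∧ TyF P W T' (sort b) := by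
  obtain ⟨A, B, N, h1, h2, rfl⟩ := h
  obtain ⟨a, b, c, hA, hB, r, e⟩ := fgen_pi (FSR w hT h1) _ _ rfl
  rw [sort_inj e]
  exact ⟨a, b, r, tyf_inst w hB h2⟩

theorem Rl.relS (w : WfF P W) {T : Term S} (h : Rl P D W T) :
    ∀ {t : S}, TyF P W T (sort t) → RelS P D t := by
  induction h with
  | leaf h hs =>
      intro t hT
      obtain ⟨s', a, e⟩ := fgen_sort (FSR w hT h) _ rfl
      rw [sort_inj e]
      exact .base hs a
  | step h _ ih =>
      intro t hT
      obtain ⟨a, b, r, hT'⟩ := cs_typed w hT h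
      exact .up r (ih hT')

theorem Rl.relS_cod (w : WfF P W) {A B : Term S} (h : Rl P D W (pi A B)) {a b : S}
    (hA : TyF P W A (sort a)) (hB : TyF P (fcons A W) B (sort b)) : RelS P D b := by
  cases h with
  | leaf h hs =>
      obtain ⟨A', B', e, -⟩ := red_pi h
      cases e
  | step h h' =>
      obtain ⟨A₁, B₁, N, h1, h2, rfl⟩ := h
      obtain ⟨A₂, B₂, e, ra, rb⟩ := red_pi h1
      injection e with e1 e2
      subst e1; subst e2
      have hN : TyF P W N A := .conv h2 hA (BetaEq.symm ra.eq)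
      exact h'.relS w (FSR w (tyf_inst w hB hN) (red_inst .refl rb))

theorem css_sorts (w : WfF P W) {T T' : Term S} (h : ReflTransGen (Cs P W) T T') :
    Rl P D W T' → ∀ {t : S}, TyF P W T (sort t) → ∃ t', TyF P W T' (sort t') ∧ Rd P D t t' := by
  induction h using ReflTransGen.head_induction_on with
  | refl => intro _ t hT; exact ⟨t, hT, Rd.refl _ _ _⟩
  | head h1 h2 ih =>
      intro hr t hT
      obtain ⟨a, b, r, hT₁⟩ := cs_typed w hT h1
      obtain ⟨t', h3, h4⟩ := ih hr hT₁
      exact ⟨t', h3, (Rd.cod r ((Rl.of_css h2 hr).relS w hT₁)).trans h4⟩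

/-! ### neutral terms -/

/-- neutral terms with head variable `i` -/
inductive Ne (i : ℕ) : Term S → Prop
  | var : Ne i (var i)
  | app {M N : Term S} : Ne i M → Ne i (app M N)

theorem Ne.uniq {i : ℕ} {M : Term S} (h : Ne i M) :
    ∀ {G : ℕ → Term S} {C C' : Term S}, TyF P G M C → TyF P G M C' → BetaEq C C' := by
  induction h with
  | var =>
      intro G C C' h h'
      exact BetaEq.trans (fgen_var h _ rfl).2 (BetaEq.symm (fgen_var h' _ rfl).2)
  | app _ ih =>
      intro G C C' h h'
      obtain ⟨A, B, h1, h2, e⟩ := fgen_app h _ _ rfl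
      obtain ⟨A', B', h1', h2', e'⟩ := fgen_app h' _ _ rfl
      have := (pi_inj (ih h1 h1')).2
      exact BetaEq.trans e (BetaEq.trans (BetaEq.sub this _) (BetaEq.symm e'))

theorem Ne.red {i : ℕ} {M N : Term S} (h : Ne i M) (b : Beta M N) : Ne i N := by
  induction h generalizing N with
  | var => cases b
  | app h ih =>
      cases b with
      | redex A M N => cases h
      | appL _ b => exact .app (ih b)
      | appR _ b => exact .app h

theorem Ne.reds {i : ℕ} {M N : Term S} (h : Ne i M) (b : Red M N) : Ne i N := by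
  induction b with
  | refl => exact h
  | tail _ b ih => exact ih.red b

theorem Ne.sub {i j : ℕ} {σ : ℕ → Term S} (hσ : σ i = Term.var j) {M : Term S} (h : Ne i M) :
    Ne j (Sub452.sub σ M) := by
  induction h with
  | var => rw [sub_var, hσ]; exact .var
  | app _ ih => exact .app ih

theorem Ne.tame {i : ℕ} {M : Term S} (h : Ne i M) : Tame P D W M := by
  refine .mk fun T' A B h1 h2 h3 _ => ?_
  rcases ReflTransGen.cases_head h1 with rfl | ⟨T₂, h5, h6⟩
  · cases h.reds h2
  · obtain ⟨A₁, B₁, N, h7, h8, rfl⟩ := h5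
    cases h.reds h7

/-- the leaf sort of a neutral term is the leaf of the sort of the type of its head -/
theorem Ne.hs_aux {i : ℕ} {M : Term S} (h : Ne i M) : ∀ {G : ℕ → Term S} {C : Term S} {a : S},
    WfF P G → TyF P G M C → TyF P G (G i) (sort a) →
    ∃ C' c', BetaEq C C' ∧ TyF P G C' (sort c') ∧ ∀ u, HS P u c' → HS P u a := by
  induction h with
  | var =>
      intro G C a _ h ha
      exact ⟨_, a, (fgen_var h _ rfl).2, ha, fun _ h => h⟩
  | app _ ih =>
      intro G C a w h ha
      obtain ⟨A, B, h1, h2, e⟩ := fgen_app h _ _ rfl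
      obtain ⟨C₁, c₁, e1, h3, h4⟩ := ih w h1 ha
      obtain ⟨A', B', r, rA, rB⟩ := red_of_eq_pi (BetaEq.symm e1)
      obtain ⟨x, y, z, hA, hB, rl, e2⟩ := fgen_pi (FSR w h3 r) _ _ rfl
      have hz : c₁ = z := sort_inj e2
      subst hz
      have hN : TyF P G _ A' := .conv h2 hA rA.eq
      refine ⟨_, y, BetaEq.trans e ?_, tyf_inst w hB hN, fun u hu => h4 u (.up rl hu)⟩
      exact BetaEq.sub rB.eq _

theorem Ne.hs {i : ℕ} {M : Term S} (h : Ne i M) {G : ℕ → Term S} {u a : S}
    (w : WfF P G) (hM : TyF P G M (sort u)) (ha : TyF P G (G i) (sort a)) : HS P u a := by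
  obtain ⟨C', c', e, h1, h2⟩ := h.hs_aux w hM ha
  obtain ⟨s', hax, e'⟩ := fgen_sort (FSR w h1 (red_of_eq_sort (BetaEq.symm e))) _ rfl
  rw [sort_inj e'] at h2
  exact h2 u (.base hax)

/-- shape of normal types -/
theorem normal_type {G : ℕ → Term S} {T : Term S} (hn : Normal T) {C : Term S}
    (h : TyF P G T C) : (∃ s, T = sort s) ∨ (∃ A B, T = pi A B) ∨ (∃ A B, T = lam A B) ∨
      ∃ i, Ne i T := by
  induction T generalizing C with
  | var i => exact .inr (.inr (.inr ⟨i, .var⟩))
  | sort s => exact .inl ⟨s, rfl⟩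
  | pi A B _ _ => exact .inr (.inl ⟨A, B, rfl⟩)
  | lam A B _ _ => exact .inr (.inr (.inl ⟨A, B, rfl⟩))
  | app M N ih _ =>
      obtain ⟨A, B, h1, h2, e⟩ := fgen_app h _ _ rfl
      have hM : Normal M := fun M' b => hn _ (.appL _ b)
      rcases ih hM h1 with ⟨s, rfl⟩ | ⟨A', B', rfl⟩ | ⟨A', B', rfl⟩ | ⟨i, hi⟩
      · obtain ⟨s', _, e'⟩ := fgen_sort h1 _ rfl
        exact (not_sort_pi (BetaEq.symm e')).elim
      · obtain ⟨x, y, z, _, _, _, e'⟩ := fgen_pi h1 _ _ rfl
        exact (not_sort_pi (BetaEq.symm e')).elim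
      · exact (hn _ (.redex _ _ _)).elim
      · exact .inr (.inr (.inr ⟨i, .app hi⟩))

theorem not_lam_sort {G : ℕ → Term S} {A B : Term S} {t : S} (h : TyF P G (lam A B) (sort t)) :
    False := by
  obtain ⟨B', s, _, _, e⟩ := fgen_lam h _ _ rfl
  exact not_sort_pi e

theorem tame_sort {s : S} : Tame P D W (sort s) := by
  refine .mk fun T' A B h1 h2 h3 _ => ?_
  rcases ReflTransGen.cases_head h1 with rfl | ⟨T₂, h5, h6⟩
  · cases red_sort h2
  · obtain ⟨A₁, B₁, N, h7, h8, rfl⟩ := h5
    cases red_sort h7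

/-- both signs propagate downwards -/
theorem Both.rd {c x : S} (h : Both P D c) (h' : Rd P D c x) : Both P D x := by
  induction h' with
  | refl => exact h
  | tail _ h' ih =>
      rcases h' with ⟨a, r, hb⟩ | ⟨b, r, ha, hb⟩
      · exact ih.cod r hb
      · exact ih.dom r ha hb

/-! ### Lemma 1: sorts with both signs -/

/-- the case of a strongly connected piece without reset binder -/
theorem tame_open (w : WfF P W) {z₀ : S}
    (ihO : ∀ x, Lo P D x z₀ → Both P D x → ∀ T, TyF P W T (sort x) → Tame P D W T)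
    (hb : Both P D z₀)
    (hR : ¬ ∃ u a b c, P.rule a b c ∧ HS P u a ∧ RelS P D b ∧
      (Rd P D z₀ u ∧ Rd P D u z₀) ∧ (Rd P D z₀ b ∧ Rd P D b z₀) ∧ (Rd P D z₀ c ∧ Rd P D c z₀)) :
    ∀ (T : Term S) (n : ℕ) (G : ℕ → Term S) (σ : ℕ → Term S) (z : S), Normal T → WfF P G →
      TyF P G T (sort z) → Rd P D z₀ z → Rd P D z z₀ → SubF P σ G W →
      (∀ i, n ≤ i → ∃ j, σ i = var j) →
      (∀ i, i < n → ∃ a, TyF P G (G i) (sort a) ∧
        ∀ u, Rd P D z₀ u → Rd P D u z₀ → ¬ HS P u a) →
      Tame P D W (sub σ T) := by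
  intro T
  induction T with
  | var i =>
      intro n G σ z _ wG hT h1 h2 hσ hv hl
      by_cases hi : i < n
      · obtain ⟨a, ha, hn⟩ := hl i hi
        exact (hn z h1 h2 (Ne.var.hs wG hT ha)).elim
      · obtain ⟨j, hj⟩ := hv i (not_lt.1 hi)
        exact (Ne.var.sub hj).tame
  | sort s => intro n G σ z _ _ _ _ _ _ _ _; exact tame_sort
  | lam A B _ _ => intro n G σ z _ _ hT _ _ _ _ _; exact (not_lam_sort hT).elim
  | app M N _ _ =>
      intro n G σ z hN wG hT h1 h2 hσ hv hl
      rcases normal_type hN hT with ⟨s, e⟩ | ⟨A, B, e⟩ | ⟨A, B, e⟩ | ⟨i, hi⟩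
      · cases e
      · cases e
      · cases e
      · by_cases hin : i < n
        · obtain ⟨a, ha, hn⟩ := hl i hin
          exact (hn z h1 h2 (hi.hs wG hT ha)).elim
        · obtain ⟨j, hj⟩ := hv i (not_lt.1 hin)
          exact (hi.sub hj).tame
  | pi A B ihA ihB =>
      intro n G σ z hN wG hT h1 h2 hσ hv hl
      have nA : Normal A := fun M' b => hN _ (.piA _ b)
      have nB : Normal B := fun M' b => hN _ (.piB _ b)
      obtain ⟨a, b, c, hA, hB, r, e⟩ := fgen_pi hT _ _ rfl
      have hz : z = c := sort_inj e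
      subst hz
      have cA : TyF P W (sub σ A) (sort a) := tyf_sub hA hσ
      have cB : TyF P (fcons (sub σ A) W) (sub (ups σ) B) (sort b) := tyf_sub hB (hσ.ups cA)
      rw [sub_pi]
      refine Tame.pi (fun hp hr => ?_) (fun N hN => ?_) cA
      · have ra : RelS P D a := hr.relS w cA
        have rb : RelS P D b := hp.relS_cod w cA cB
        have h3 : Rd P D z₀ a := h1.trans (Rd.dom r ra rb)
        by_cases h4 : Rd P D a z₀
        · exact ihA n G σ a nA wG hA h3 h4 hσ hv hl
        · exact ihO a ⟨h3, h4⟩ (hb.rd h3) _ cA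
      · by_cases hr : Rl P D W (inst N (sub (ups σ) B))
        swap
        · exact Tame.of_not_rl hr
        have cN : TyF P W (inst N (sub (ups σ) B)) (sort b) := tyf_inst w cB hN
        have rb : RelS P D b := hr.relS w cN
        have h3 : Rd P D z₀ b := h1.trans (Rd.cod r rb)
        by_cases h4 : Rd P D b z₀
        · rw [← sub_scons]
          refine ihB (n + 1) (fcons A G) (scons N σ) b nB (wG.cons hA) hB h3 h4 (hσ.scons hN)
            ?_ ?_
          · intro i hi
            cases i with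
            | zero => exact absurd hi (by omega)
            | succ i => exact hv i (by omega)
          · intro i hi
            cases i with
            | zero =>
                refine ⟨a, tyf_wk hA A, fun u hu hu' hs => hR ⟨u, a, b, z, r, hs, rb,
                  ⟨hu, hu'⟩, ⟨h3, h4⟩, ⟨h1, h2⟩⟩⟩
            | succ i =>
                obtain ⟨a', ha', hn⟩ := hl i (by omega)
                exact ⟨a', tyf_wk ha' A, hn⟩
        · exact ihO b ⟨h3, h4⟩ (hb.rd h3) _ cN

/-- **Lemma 1**: closed types whose sort carries both signs are tame -/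
theorem tame_both [_root_.Finite S] (w : WfF P W)
    (hwn : ∀ T t, TyF P W T (sort t) → ∃ T₀, Red T T₀ ∧ Normal T₀) (hF : ¬ Fat P D) :
    ∀ z, Both P D z → ∀ T, TyF P W T (sort z) → Tame P D W T := by
  intro z
  induction z using (lo_wf P D).induction with
  | _ z ihO =>
      intro hb T hT
      by_cases hR : ∃ u a b c, P.rule a b c ∧ HS P u a ∧ RelS P D b ∧
        (Rd P D z u ∧ Rd P D u z) ∧ (Rd P D z b ∧ Rd P D b z) ∧ (Rd P D z c ∧ Rd P D c z)
      · -- no domain step inside the piece
        obtain ⟨u, a, b, c, r, hs, hrb, hu, hbz, hc⟩ := hR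
        refine .mk fun T' A B h1 h2 h3 h4 => ?_
        obtain ⟨t', hT', h5⟩ := css_sorts w h1 (h3.of_red h2) hT
        obtain ⟨a', b', c', hA, hB, r', e⟩ := fgen_pi (FSR w hT' h2) _ _ rfl
        have hz : t' = c' := sort_inj e
        subst hz
        have ra : RelS P D a' := h4.relS w hA
        have rb : RelS P D b' := h3.relS_cod w hA hB
        have h6 : Rd P D t' a' := Rd.dom r' ra rb
        have h7 : Rd P D z a' := h5.trans h6
        by_cases h8 : Rd P D a' z
        · exfalso
          have bu := hb.rd hu.1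
          have hru : RelS P D u := by
            -- `u` is the target of a downward path of positive length
            have : Rd P D a' u := h8.trans hu.1
            rcases ReflTransGen.cases_tail this with h | ⟨y, _, h⟩
            · rw [h]; exact ra
            · rcases h with ⟨_, _, h⟩ | ⟨_, _, h, _⟩
              · exact h
              · exact h
          exact hF ⟨u, a, b, c, a', b', t', bu.1, bu.2, hru, r, hs, hrb, hu.2.trans hc.1,
            hbz.2.trans hu.1, r', ra, rb, hu.2.trans h5, h8.trans hu.1⟩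
        · exact ihO a' ⟨h7, h8⟩ (hb.rd h7) A hA
      · obtain ⟨T₀, r0, n0⟩ := hwn T z hT
        have hT₀ : TyF P W T₀ (sort z) := FSR w hT r0
        have := tame_open w ihO hb hR T₀ 0 W var z n0 w hT₀ (Rd.refl _ _ _) (Rd.refl _ _ _)
          (SubF.var w)
          (fun i _ => ⟨i, rfl⟩) (fun i hi => absurd hi (by omega))
        rw [sub_id] at this
        exact this.of_red w r0

/-! ### Theorem F: two readings of opposite signs -/

theorem tame_two_open (w : WfF P W)
    (h1 : ∀ z, Both P D z → ∀ T, TyF P W T (sort z) → Tame P D W T) :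
    ∀ (T : Term S) (G : ℕ → Term S) (σ : ℕ → Term S) (t t' : S) (e : Bool), Normal T →
      WfF P G → TyF P G T (sort t) → TyF P G T (sort t') → Sg P D t e → Sg P D t' (!e) →
      SubF P σ G W → Tame P D W (sub σ T) := by
  intro T
  have key : ∀ (T : Term S) (i : ℕ), Ne i T → ∀ (G : ℕ → Term S) (σ : ℕ → Term S) (t t' : S)
      (e : Bool), TyF P G T (sort t) → TyF P G T (sort t') → Sg P D t e → Sg P D t' (!e) →
      SubF P σ G W → Tame P D W (sub σ T) := by
    intro T i hi G σ t t' e hT hT' s1 s2 hσ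
    have : t = t' := sort_inj (hi.uniq hT hT')
    subst this
    refine h1 t ?_ _ (tyf_sub hT hσ)
    cases e
    · exact ⟨s2, s1⟩
    · exact ⟨s1, s2⟩
  induction T with
  | var i => intro G σ t t' e _ _ hT hT' s1 s2 hσ; exact key _ i .var G σ t t' e hT hT' s1 s2 hσ
  | sort s => intro G σ t t' e _ _ _ _ _ _ _; exact tame_sort
  | lam A B _ _ => intro G σ t t' e _ _ hT _ _ _ _; exact (not_lam_sort hT).elim
  | app M N _ _ =>
      intro G σ t t' e hN wG hT hT' s1 s2 hσ
      rcases normal_type hN hT with ⟨s, e'⟩ | ⟨A, B, e'⟩ | ⟨A, B, e'⟩ | ⟨i, hi⟩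
      · cases e'
      · cases e'
      · cases e'
      · exact key _ i hi G σ t t' e hT hT' s1 s2 hσ
  | pi A B ihA ihB =>
      intro G σ t t' e hN wG hT hT' s1 s2 hσ
      have nA : Normal A := fun M' b => hN _ (.piA _ b)
      have nB : Normal B := fun M' b => hN _ (.piB _ b)
      obtain ⟨a, b, c, hA, hB, r, e1⟩ := fgen_pi hT _ _ rfl
      have hz : t = c := sort_inj e1
      subst hz
      obtain ⟨a', b', c', hA', hB', r', e1'⟩ := fgen_pi hT' _ _ rfl
      have hz : t' = c' := sort_inj e1'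
      subst hz
      have cA : TyF P W (sub σ A) (sort a) := tyf_sub hA hσ
      have cA' : TyF P W (sub σ A) (sort a') := tyf_sub hA' hσ
      have cB : TyF P (fcons (sub σ A) W) (sub (ups σ) B) (sort b) := tyf_sub hB (hσ.ups cA)
      have cB' : TyF P (fcons (sub σ A) W) (sub (ups σ) B) (sort b') :=
        tyf_sub hB' (hσ.ups cA)
      rw [sub_pi]
      refine Tame.pi (fun hp hr => ?_) (fun N hN => ?_) cA
      · exact ihA G σ a a' (!e) nA wG hA hA'
          (.dom r (hr.relS w cA) (hp.relS_cod w cA cB) s1)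
          (.dom r' (hr.relS w cA') (hp.relS_cod w cA' cB') s2) hσ
      · by_cases hr : Rl P D W (inst N (sub (ups σ) B))
        swap
        · exact Tame.of_not_rl hr
        have cN : TyF P W (inst N (sub (ups σ) B)) (sort b) := tyf_inst w cB hN
        have cN' : TyF P W (inst N (sub (ups σ) B)) (sort b') := tyf_inst w cB' hN
        rw [← sub_scons]
        exact ihB (fcons A G) (scons N σ) b b' e nB (wG.cons hA) hB hB'
          (.cod r (hr.relS w cN) s1) (.cod r' (hr.relS w cN') s2) (hσ.scons hN)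

/-- **THEOREM F**: without fat configuration, closed types with two readings of opposite signs
are tame. -/
theorem theoremF [_root_.Finite S] (w : WfF P W)
    (hwn : ∀ T t, TyF P W T (sort t) → ∃ T₀, Red T T₀ ∧ Normal T₀) (hF : ¬ Fat P D)
    {T : Term S} {t t' : S} (hT : TyF P W T (sort t)) (hT' : TyF P W T (sort t'))
    (h1 : Sg P D t true) (h2 : Sg P D t' false) : Tame P D W T := by
  obtain ⟨T₀, r0, n0⟩ := hwn T t hT
  have := tame_two_open w (tame_both w hwn hF) T₀ W var t t' true n0 w (FSR w hT r0)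
    (FSR w hT' r0) h1 h2 (SubF.var w)
  rw [sub_id] at this
  exact this.of_red w r0

end Crest.Agent.R298.Fl113
end

-- ▼ part R298/Md1_254
section

/-!
R298 (S0452), helper254: MODES of closed types over a world `W` (function context), the
conversion-invariant layer between Theorem F (`Fl2_113`) and the evaluation.

`Rl P D W T`   (113): some codomain-instance chain of `T` ends in a sort of `D` (relevance).
`Tame P D W T` (113): every relevant domain of every codomain-instance descendant is tame.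
`CT P W T`     : `T` has a sort (up to conversion), i.e. `T` is a closed type.
`SgT P D W T e`: `T` has a sort reading `t` with sign `Fl113.Sg P D t e`.
`mode`         : dead / small / neg / pos, conversion invariant, with its closure laws.
-/

set_option autoImplicit false

namespace Crest.Agent.R298.Md254

open Crest.LogicCS.PTS Crest.LogicCS.PTS.Term Relation
open Crest.Agent.R298.Sub452 Crest.Agent.R298.Par452 Crest.Agent.R298.Ty452
open Crest.Agent.R298.TyF452
open Crest.Agent.R298.Fl113 (RelS Fat Cs Rl Tame css_red)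

universe u
variable {S : Type u} {P : Spec S} {D : Set S} {W : ℕ → Term S}

/-! ### conversion invariance -/

theorem rl_conv (w : WfF P W) {T T' : Term S} (h : Rl P D W T) (e : BetaEq T T') :
    Rl P D W T' := by
  obtain ⟨Q, q1, q2⟩ := betaEq_iff.1 e
  exact (h.red w q1).of_red q2

theorem rl_iff (w : WfF P W) {T T' : Term S} (e : BetaEq T T') : Rl P D W T ↔ Rl P D W T' :=
  ⟨fun h => rl_conv w h e, fun h => rl_conv w h (BetaEq.symm e)⟩

theorem tame_conv (w : WfF P W) {T T' : Term S} (h : Tame P D W T) (e : BetaEq T T') :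
    Tame P D W T' := by
  obtain ⟨Q, q1, q2⟩ := betaEq_iff.1 e
  exact (h.red q1).of_red w q2


/-- closed types: terms with a sort, up to conversion -/
def CT (P : Spec S) (W : ℕ → Term S) (T : Term S) : Prop := ∃ t, Uniq452.Sg P W T t

/-- `T` has a sort reading with sign `e` (`true` = the `D`-bound colour) -/
def SgT (P : Spec S) (D : Set S) (W : ℕ → Term S) (T : Term S) (e : Bool) : Prop :=
  ∃ t, Uniq452.Sg P W T t ∧ Fl113.Sg P D t e

theorem CT.of {T : Term S} {t : S} (h : TyF P W T (sort t)) : CT P W T := ⟨t, .of h⟩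

theorem CT.conv {T T' : Term S} (h : CT P W T) (e : BetaEq T T') : CT P W T' := by
  obtain ⟨t, h⟩ := h
  exact ⟨t, h.conv (BetaEq.symm e)⟩


theorem SgT.conv {T T' : Term S} {e : Bool} (h : SgT P D W T e) (e' : BetaEq T T') :
    SgT P D W T' e := by
  obtain ⟨t, h1, h2⟩ := h
  exact ⟨t, h1.conv (BetaEq.symm e'), h2⟩

theorem sgT_iff {T T' : Term S} {e : Bool} (h : BetaEq T T') :
    SgT P D W T e ↔ SgT P D W T' e :=
  ⟨fun k => k.conv h, fun k => k.conv (BetaEq.symm h)⟩


/-- sort readings of the parts of a closed product (literal parts) -/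
theorem sg_pi (w : WfF P W) {T A B : Term S} {t : S} (h : Uniq452.Sg P W T t)
    (e : BetaEq T (pi A B)) :
    ∃ a b, P.rule a b t ∧ Uniq452.Sg P W A a ∧
      ∀ N, TyF P W N A → Uniq452.Sg P W (inst N B) b := by
  obtain ⟨a, b, r, h1, A', rA, hA', hB⟩ := (h.conv (BetaEq.symm e)).pi_inv w
  exact ⟨a, b, r, h1, fun N hN => hB.inst w (.conv hN hA' rA.eq)⟩

theorem CT.dom (w : WfF P W) {T A B : Term S} (h : CT P W T) (e : BetaEq T (pi A B)) :
    CT P W A := by
  obtain ⟨t, h⟩ := h
  obtain ⟨a, b, r, h1, _⟩ := sg_pi w h e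
  exact ⟨a, h1⟩

theorem CT.cod (w : WfF P W) {T A B N : Term S} (h : CT P W T) (e : BetaEq T (pi A B))
    (hN : TyF P W N A) : CT P W (inst N B) := by
  obtain ⟨t, h⟩ := h
  obtain ⟨a, b, r, _, h1⟩ := sg_pi w h e
  exact ⟨b, h1 N hN⟩

/-- the sort of a relevant type is a relevant sort -/
theorem rl_relS (w : WfF P W) {T : Term S} (h : Rl P D W T) {t : S}
    (ht : Uniq452.Sg P W T t) : RelS P D t := by
  obtain ⟨T', r, h'⟩ := ht.red w
  exact (h.red w r).relS w h'

/-- a relevant product has a relevant instance at the literal parts, up to reduction of `B` -/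
theorem rl_pi (w : WfF P W) {T A B : Term S} (h : Rl P D W T) (e : BetaEq T (.pi A B)) :
    ∃ A' N, Red A A' ∧ TyF P W N A' ∧ Rl P D W (inst N B) := by
  cases h with
  | leaf h hs => exact (not_sort_pi (BetaEq.trans (BetaEq.symm h.eq) e)).elim
  | step h hr =>
    obtain ⟨A₁, B₁, N, h1, h2, rfl⟩ := h
    obtain ⟨Q, q1, q2⟩ := betaEq_iff.1 (BetaEq.trans (BetaEq.symm h1.eq) e)
    obtain ⟨A₂, B₂, rfl, rA, rB⟩ := red_pi q1
    obtain ⟨A₃, B₃, e', rA', rB'⟩ := red_pi q2
    injection e' with e1 e2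
    subst e1; subst e2
    exact ⟨A₂, N, rA', tyf_red_type w h2 rA, rl_conv w hr
      (BetaEq.trans (BetaEq.sub rB.eq _) (BetaEq.symm (BetaEq.sub rB'.eq _)))⟩

/-- relevant instance ⊢ relevant product -/
theorem rl_of_inst {T A B N : Term S} (w : WfF P W) (e : BetaEq T (pi A B)) (hN : TyF P W N A)
    (h : Rl P D W (inst N B)) : Rl P D W T := by
  obtain ⟨Q, q1, q2⟩ := betaEq_iff.1 e
  obtain ⟨A₂, B₂, rfl, rA, rB⟩ := red_pi q2
  exact .step ⟨A₂, B₂, N, q1, tyf_red_type w hN rA, rfl⟩ (h.red w (red_inst .refl rB))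

/-! ### signs along products -/

/-- codomain instances keep the sign -/
theorem SgT.cod (w : WfF P W) {T A B N : Term S} {e : Bool} (h : SgT P D W T e)
    (h' : BetaEq T (pi A B)) (hN : TyF P W N A) (hr : Rl P D W (inst N B)) :
    SgT P D W (inst N B) e := by
  obtain ⟨t, h1, h2⟩ := h
  obtain ⟨x, y, r, _, h3⟩ := sg_pi w h1 h'
  exact ⟨y, h3 N hN, .cod r (rl_relS w hr (h3 N hN)) h2⟩

/-- relevant domains of relevant products flip the sign -/
theorem SgT.dom (w : WfF P W) {T A B : Term S} {e : Bool} (h : SgT P D W T e)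
    (h' : BetaEq T (pi A B)) (hT : Rl P D W T) (hA : Rl P D W A) :
    SgT P D W A (!e) := by
  obtain ⟨t, h1, h2⟩ := h
  obtain ⟨A', N, rA, hN, hr⟩ := rl_pi w hT h'
  obtain ⟨x, y, r, h3, h4⟩ := sg_pi w h1 (BetaEq.trans h' (BetaEq.pi rA.eq (.refl B)))
  exact ⟨x, h3.conv rA.eq, .dom r (rl_relS w hA (h3.conv rA.eq)) (rl_relS w hr (h4 N hN)) h2⟩

/-- relevant `D`-bound types have sign `true` -/
theorem SgT.base (w : WfF P W) {A : Term S} {a b c : S} (r : P.rule a b c) (hb : b ∈ D)
    (hc : c ∈ D) (h : Uniq452.Sg P W A a) (hA : Rl P D W A) : SgT P D W A true :=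
  ⟨a, h, .base r hb hc (rl_relS w hA h)⟩

/-! ### tameness along products -/

theorem tame_cod {T A B N : Term S} (w : WfF P W) (h : Tame P D W T) (e : BetaEq T (pi A B))
    (hN : TyF P W N A) : Tame P D W (inst N B) := by
  obtain ⟨Q, q1, q2⟩ := betaEq_iff.1 e
  obtain ⟨A₂, B₂, rfl, rA, rB⟩ := red_pi q2
  have h1 : Cs P W T (inst N B₂) := ⟨A₂, B₂, N, q1, tyf_red_type w hN rA, rfl⟩
  refine tame_conv w (T := inst N B₂) ?_ (BetaEq.symm (BetaEq.sub rB.eq _))
  exact .mk fun T' A' B' h2 h3 h4 h5 => h.inv T' A' B' (.head h1 h2) h3 h4 h5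

theorem tame_dom {T A B : Term S} (w : WfF P W) (h : Tame P D W T) (e : BetaEq T (pi A B))
    (hT : Rl P D W T) (hA : Rl P D W A) : Tame P D W A := by
  obtain ⟨Q, q1, q2⟩ := betaEq_iff.1 e
  obtain ⟨A₂, B₂, rfl, rA, rB⟩ := red_pi q2
  exact tame_conv w (h.inv T A₂ B₂ .refl q1 (hT.red w q1) (hA.red w rA)) (BetaEq.symm rA.eq)


/-! ### modes -/

/-- the conclusion of Theorem F -/
def TF (P : Spec S) (D : Set S) (W : ℕ → Term S) : Prop :=
  ∀ T, SgT P D W T true → SgT P D W T false → Tame P D W T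

theorem tf_of_not_fat [_root_.Finite S] (w : WfF P W)
    (hwn : ∀ T t, TyF P W T (sort t) → ∃ T₀, Red T T₀ ∧ Normal T₀) (hF : ¬ Fat P D) :
    TF P D W := by
  rintro T ⟨t, h1, h2⟩ ⟨t', h3, h4⟩
  obtain ⟨T₁, r1, k1⟩ := h1.red w
  obtain ⟨T₂, r2, k2⟩ := h3.red w
  obtain ⟨Q, q1, q2⟩ := confluence r1 r2
  exact (Fl113.theoremF w hwn hF (FSR w k1 q1) (FSR w k2 q2) h2 h4).of_red w (r1.trans q1)

/-- signed relevant types -/
def Live (P : Spec S) (D : Set S) (W : ℕ → Term S) (T : Term S) : Prop :=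
  Rl P D W T ∧ ∃ e, SgT P D W T e

def Small (P : Spec S) (D : Set S) (W : ℕ → Term S) (T : Term S) : Prop :=
  Live P D W T ∧ Tame P D W T

/-- wild types of the `D`-bound colour -/
def NegT (P : Spec S) (D : Set S) (W : ℕ → Term S) (T : Term S) : Prop :=
  Rl P D W T ∧ ¬ Tame P D W T ∧ SgT P D W T true

/-- wild types of the other colour -/
def PosT (P : Spec S) (D : Set S) (W : ℕ → Term S) (T : Term S) : Prop :=
  Rl P D W T ∧ ¬ Tame P D W T ∧ SgT P D W T false

theorem live_iff (w : WfF P W) {T T' : Term S} (h : BetaEq T T') :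
    Live P D W T ↔ Live P D W T' :=
  and_congr (rl_iff w h) (exists_congr fun _ => sgT_iff h)








theorem NegT.live {T : Term S} (h : NegT P D W T) : Live P D W T := ⟨h.1, _, h.2.2⟩
theorem PosT.live {T : Term S} (h : PosT P D W T) : Live P D W T := ⟨h.1, _, h.2.2⟩

/-! ### closure laws along `T ~ pi A B` -/

theorem Live.cod (w : WfF P W) {T A B N : Term S} (h : Live P D W T) (e : BetaEq T (.pi A B))
    (hN : TyF P W N A) (hr : Rl P D W (inst N B)) : Live P D W (inst N B) := by
  obtain ⟨_, s, hs⟩ := h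
  exact ⟨hr, s, hs.cod w e hN hr⟩

theorem Live.dom (w : WfF P W) {T A B : Term S} (h : Live P D W T) (e : BetaEq T (.pi A B))
    (hA : Rl P D W A) : Live P D W A := by
  obtain ⟨hT, s, hs⟩ := h
  exact ⟨hA, !s, hs.dom w e hT hA⟩

theorem Small.dom (w : WfF P W) {T A B : Term S} (h : Small P D W T) (e : BetaEq T (.pi A B))
    (hA : Rl P D W A) : Small P D W A :=
  ⟨h.1.dom w e hA, tame_dom w h.2 e h.1.1 hA⟩

theorem Small.cod (w : WfF P W) {T A B N : Term S} (h : Small P D W T)
    (e : BetaEq T (.pi A B)) (hN : TyF P W N A) (hr : Rl P D W (inst N B)) :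
    Small P D W (inst N B) :=
  ⟨h.1.cod w e hN hr, tame_cod w h.2 e hN⟩

/-- the relevant domain of a `neg` type is `small` or `pos` -/
theorem NegT.dom (w : WfF P W) {T A B : Term S} (h : NegT P D W T)
    (e : BetaEq T (.pi A B)) (hA : Rl P D W A) : Small P D W A ∨ PosT P D W A := by
  have h1 := h.2.2.dom w e h.1 hA
  by_cases hT : Tame P D W A
  · exact .inl ⟨⟨hA, _, h1⟩, hT⟩
  · exact .inr ⟨hA, hT, h1⟩

theorem PosT.dom (w : WfF P W) {T A B : Term S} (h : PosT P D W T)
    (e : BetaEq T (.pi A B)) (hA : Rl P D W A) : Small P D W A ∨ NegT P D W A := by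
  have h1 := h.2.2.dom w e h.1 hA
  by_cases hT : Tame P D W A
  · exact .inl ⟨⟨hA, _, h1⟩, hT⟩
  · exact .inr ⟨hA, hT, h1⟩

theorem NegT.cod (w : WfF P W) {T A B N : Term S} (h : NegT P D W T)
    (e : BetaEq T (.pi A B)) (hN : TyF P W N A) (hr : Rl P D W (inst N B)) :
    Small P D W (inst N B) ∨ NegT P D W (inst N B) := by
  have h1 := h.2.2.cod w e hN hr
  by_cases hT : Tame P D W (inst N B)
  · exact .inl ⟨⟨hr, _, h1⟩, hT⟩
  · exact .inr ⟨hr, hT, h1⟩

theorem PosT.cod (w : WfF P W) {T A B N : Term S} (h : PosT P D W T)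
    (e : BetaEq T (.pi A B)) (hN : TyF P W N A) (hr : Rl P D W (inst N B)) :
    Small P D W (inst N B) ∨ PosT P D W (inst N B) := by
  have h1 := h.2.2.cod w e hN hr
  by_cases hT : Tame P D W (inst N B)
  · exact .inl ⟨⟨hr, _, h1⟩, hT⟩
  · exact .inr ⟨hr, hT, h1⟩


/-! ### the mode function -/

inductive Mode | dead | small | neg | pos
  deriving DecidableEq









end Crest.Agent.R298.Md254
end

-- ▼ part R298/Md2_254

/-!
R298 (S0452), helper254: the SKELETON of closed types of a world and its laws.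

Closed types are elements of `Q := Term S`, represented by `cl M` (the normal form of `M` if there
is one, a chosen member of the conversion class otherwise).  `skel P D W` is the `Inf786.Skel` of
the world: `dom`, `cod` at products, `leaf T := T ~ sort s, s ∈ D`, and
`live T a := T relevant and signed, T ~ pi A B, a : A, inst a B relevant`.
Results: `thin` (`Inf786.Thin` from Theorem F), `tame_of` (113 tame ⇒ 786 tame), the WIDE validity
`vtW` (no live, no sign) and its relation with `Vt786.vt`, `NotO`.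
-/

set_option autoImplicit false

namespace Crest.Agent.R298.Md254

open Crest.LogicCS.PTS Crest.LogicCS.PTS.Term Relation
open Crest.Agent.R298.Sub452 Crest.Agent.R298.Par452 Crest.Agent.R298.Ty452
open Crest.Agent.R298.TyF452
open Crest.Agent.R298.Fl113 (RelS Fat Cs Rl Tame css_red)
open Crest.Agent.R298.Inf786 (Skel Cd Dm tame_of_dead)

universe u

/-! ### canonical representatives of conversion classes -/

section cl
variable {S : Type u}

/-- conversion as a setoid -/
def betaSetoid (S : Type u) : Setoid (Term S) :=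
  ⟨BetaEq, ⟨fun M => .refl M, fun h => BetaEq.symm h, fun h h' => BetaEq.trans h h'⟩⟩

open Classical in
/-- canonical representative: the normal form if there is one -/
noncomputable def cl (M : Term S) : Term S :=
  if h : ∃ N, BetaEq M N ∧ Normal N then Classical.choose h
  else (Quotient.mk (betaSetoid S) M).out

theorem cl_eq (M : Term S) : BetaEq (cl M) M := by
  unfold cl
  split_ifs with h
  · exact BetaEq.symm (Classical.choose_spec h).1
  · exact Quotient.mk_out (s := betaSetoid S) M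

theorem cl_congr {M N : Term S} (h : BetaEq M N) : cl M = cl N := by
  unfold cl
  by_cases h1 : ∃ K, BetaEq M K ∧ Normal K
  · have h2 : ∃ K, BetaEq N K ∧ Normal K := by
      obtain ⟨K, k1, k2⟩ := h1
      exact ⟨K, BetaEq.trans (BetaEq.symm h) k1, k2⟩
    rw [dif_pos h1, dif_pos h2]
    have a := Classical.choose_spec h1
    have b := Classical.choose_spec h2
    exact normal_unique (BetaEq.trans (BetaEq.symm a.1) (BetaEq.trans h b.1)) a.2 b.2
  · have h2 : ¬ ∃ K, BetaEq N K ∧ Normal K := by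
      rintro ⟨K, k1, k2⟩
      exact h1 ⟨K, BetaEq.trans h k1, k2⟩
    rw [dif_neg h1, dif_neg h2]
    have h3 : Quotient.mk (betaSetoid S) M = Quotient.mk (betaSetoid S) N := Quotient.sound h
    rw [h3]


@[simp] theorem cl_cl (M : Term S) : cl (cl M) = cl M := cl_congr (cl_eq M)

theorem cl_normal {M : Term S} (h : WN M) : Normal (cl M) := by
  obtain ⟨N, h1, h2⟩ := h
  have h3 : ∃ N, BetaEq M N ∧ Normal N := ⟨N, Red.eq h1, h2⟩
  unfold cl
  rw [dif_pos h3]
  exact (Classical.choose_spec h3).2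

theorem cl_red {M : Term S} (h : WN M) : Red M (cl M) :=
  red_of_eq_normal (BetaEq.symm (cl_eq M)) (cl_normal h)



variable {P : Spec S} {W : ℕ → Term S}

/-- typed terms have typed representatives -/
theorem cl_typed (w : WfF P W) (hwn : ∀ M A, TyF P W M A → WN M) {M A : Term S}
    (h : TyF P W M A) : TyF P W (cl M) A := FSR w h (cl_red (hwn M A h))


end cl

/-! ### the skeleton -/

section skel
variable {S : Type}

open Classical in
/-- domain of a closed product -/
noncomputable def kdom (T : Term S) : Term S :=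
  if h : ∃ A B, BetaEq T (pi A B) then cl (Classical.choose h) else T

open Classical in
/-- instance of the codomain of a closed product -/
noncomputable def kcod (T a : Term S) : Term S :=
  if h : ∃ A B, BetaEq T (pi A B) then
    cl (inst a (Classical.choose (Classical.choose_spec h))) else T

theorem kdom_pi {T A B : Term S} (h : BetaEq T (pi A B)) : kdom T = cl A := by
  have h1 : ∃ A B, BetaEq T (pi A B) := ⟨A, B, h⟩
  unfold kdom
  rw [dif_pos h1]
  have h2 := Classical.choose_spec (Classical.choose_spec h1)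
  exact cl_congr (pi_inj (BetaEq.trans (BetaEq.symm h2) h)).1

theorem kcod_pi {T A B : Term S} (h : BetaEq T (pi A B)) (a : Term S) :
    kcod T a = cl (inst a B) := by
  have h1 : ∃ A B, BetaEq T (pi A B) := ⟨A, B, h⟩
  unfold kcod
  rw [dif_pos h1]
  have h2 := Classical.choose_spec (Classical.choose_spec h1)
  exact cl_congr (BetaEq.sub (pi_inj (BetaEq.trans (BetaEq.symm h2) h)).2 _)

/-- leaves: the sorts of `D` -/
def kleaf (D : Set S) (T : Term S) : Prop := ∃ s ∈ D, BetaEq T (sort s)

/-- live steps -/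
def klive (P : Spec S) (D : Set S) (W : ℕ → Term S) (T a : Term S) : Prop :=
  Live P D W T ∧ ∃ A B, BetaEq T (pi A B) ∧ TyF P W a A ∧ Rl P D W (inst a B)

/-- the skeleton of closed types of the world `W` -/
noncomputable def skel (P : Spec S) (D : Set S) (W : ℕ → Term S) : Skel (Term S) (Term S) where
  dom := kdom
  cod := kcod
  live := klive P D W
  leaf := kleaf D

/-- the `D`-bound colour -/
def sgQ (P : Spec S) (D : Set S) (W : ℕ → Term S) (A : Term S) : Prop := SgT P D W A true

variable {P : Spec S} {D : Set S} {W : ℕ → Term S}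

theorem kleaf_conv {T T' : Term S} (e : BetaEq T T') : kleaf D T ↔ kleaf D T' :=
  ⟨fun ⟨s, h, h'⟩ => ⟨s, h, BetaEq.trans (BetaEq.symm e) h'⟩,
   fun ⟨s, h, h'⟩ => ⟨s, h, BetaEq.trans e h'⟩⟩

theorem not_kleaf_pi {T A B : Term S} (e : BetaEq T (pi A B)) : ¬ kleaf D T := by
  rintro ⟨s, _, h⟩
  exact not_sort_pi (BetaEq.trans (BetaEq.symm h) e)

theorem rl_leaf {T : Term S} (h : kleaf D T) : Rl P D W T := by
  obtain ⟨s, h1, h2⟩ := h
  exact .leaf (red_of_eq_sort h2) h1


/-- live steps at a product with typed domain -/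
theorem klive_pi (w : WfF P W) {T A B a : Term S} {s : S} (e : BetaEq T (pi A B))
    (hA : TyF P W A (sort s)) :
    klive P D W T a ↔ Live P D W T ∧ TyF P W a A ∧ Rl P D W (inst a B) := by
  constructor
  · rintro ⟨h1, A', B', e', ha, hr⟩
    obtain ⟨e1, e2⟩ := pi_inj (BetaEq.trans (BetaEq.symm e') e)
    exact ⟨h1, .conv ha hA e1, rl_conv w hr (BetaEq.sub e2 _)⟩
  · rintro ⟨h1, ha, hr⟩
    exact ⟨h1, A, B, e, ha, hr⟩

theorem tame_of_notRl (_w : WfF P W) {T : Term S} (h : ¬ Rl P D W T) :
    Inf786.Tame (skel P D W) T := tame_of_dead fun _ h' => h h'.1.1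


/-- live chains are codomain-instance chains -/
theorem cd_css (w : WfF P W) {T T₁ : Term S} (h : Cd (skel P D W) T T₁) :
    ∀ {T₀ : Term S}, BetaEq T T₀ → ∃ T₂, ReflTransGen (Cs P W) T₀ T₂ ∧ BetaEq T₁ T₂ := by
  induction h with
  | refl T => intro T₀ e; exact ⟨T₀, .refl, e⟩
  | @step T T' a hl _ ih =>
    intro T₀ e
    obtain ⟨_, A, B, e', ha, _⟩ := hl
    obtain ⟨Q, q1, q2⟩ := betaEq_iff.1 (BetaEq.trans (BetaEq.symm e) e')
    obtain ⟨A₂, B₂, rfl, rA, rB⟩ := red_pi q2
    have e1 : BetaEq ((skel P D W).cod T a) (inst a B₂) := by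
      show BetaEq (kcod T a) _
      rw [kcod_pi e']
      exact BetaEq.trans (cl_eq _) (BetaEq.sub rB.eq _)
    obtain ⟨T₂, h1, h2⟩ := ih e1
    exact ⟨T₂, .head ⟨A₂, B₂, a, q1, tyf_red_type w ha rA, rfl⟩ h1, h2⟩

/-- signs along live chains -/
theorem cd_sgT (w : WfF P W) {T T' : Term S} {e : Bool} (h : Cd (skel P D W) T T')
    (hs : SgT P D W T e) : SgT P D W T' e := by
  induction h with
  | refl T => exact hs
  | @step T T' a hl _ ih =>
    obtain ⟨_, A, B, e', ha, hr⟩ := hl
    refine ih ?_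
    show SgT P D W (kcod T a) e
    rw [kcod_pi e']
    exact (hs.cod w e' ha hr).conv (BetaEq.symm (cl_eq _))

theorem cd_live {T T' : Term S} {a : Term S} (h : Cd (skel P D W) T T')
    (hl : klive P D W T' a) : Live P D W T := by
  cases h with
  | refl T => exact hl.1
  | step b hb _ => exact hb.1

/-- 113-tame types are 786-tame -/
theorem tame_of (w : WfF P W) {T : Term S} (h : Tame P D W T) :
    ∀ {T' : Term S}, BetaEq T T' → Inf786.Tame (skel P D W) T' := by
  induction h with
  | @mk T _ ih =>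
    intro T' e
    refine Acc.intro _ fun A₀ hA₀ => ?_
    obtain ⟨T₁, a, hcd, hl, rfl⟩ := hA₀
    obtain ⟨hlive, A, B, e', ha, hr⟩ := hl
    obtain ⟨T₂, h1, h2⟩ := cd_css w hcd (BetaEq.symm e)
    show Inf786.Tame (skel P D W) (kdom T₁)
    rw [kdom_pi e']
    by_cases hRA : Rl P D W A
    · obtain ⟨Q, q1, q2⟩ := betaEq_iff.1 (BetaEq.trans (BetaEq.symm h2) e')
      obtain ⟨A₂, B₂, rfl, rA, rB⟩ := red_pi q2
      refine ih T₂ A₂ B₂ h1 q1 ?_ (hRA.red w rA) ?_
      · exact (rl_conv w hlive.1 h2).red w q1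
      · exact BetaEq.trans (BetaEq.symm rA.eq) (BetaEq.symm (cl_eq A))
    · exact tame_of_notRl w fun h => hRA (rl_conv w h (cl_eq A))

/-- **THIN** -/
theorem thin (w : WfF P W) (hF : TF P D W) :
    Inf786.Thin (skel P D W) (sgQ P D W) := by
  intro T T' a hT hcd hl hd
  have hLT : Live P D W T := cd_live hcd hl
  obtain ⟨hlive, A, B, e, ha, hr⟩ := hl
  have hdom : (skel P D W).dom T' = cl A := kdom_pi e
  rw [hdom] at hd ⊢
  have hRA : Rl P D W A := by
    by_contra hn
    exact hd (tame_of_notRl w fun h => hn (rl_conv w h (cl_eq A)))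
  have hnt : ¬ Tame P D W A := fun h => hd (tame_of w h (BetaEq.symm (cl_eq A)))
  unfold sgQ
  rw [sgT_iff (cl_eq A)]
  constructor
  · intro h1 h2
    exact hnt (hF A h1 ((cd_sgT w hcd h2).dom w e hlive.1 hRA))
  · intro h1
    obtain ⟨_, s, hs⟩ := hLT
    cases s with
    | true => exact (h1 hs).elim
    | false => exact (cd_sgT w hcd hs).dom w e hlive.1 hRA


/-! ### types which are not of mode O -/

/-- irrelevant, or signed -/
def NotO (P : Spec S) (D : Set S) (W : ℕ → Term S) (T : Term S) : Prop :=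
  Rl P D W T → Live P D W T

theorem NotO.conv (w : WfF P W) {T T' : Term S} (h : NotO P D W T) (e : BetaEq T T') :
    NotO P D W T' := fun h' => (live_iff w e).1 (h ((rl_iff w e).2 h'))





theorem NotO.dom (w : WfF P W) {T A B : Term S} (h : Live P D W T) (e : BetaEq T (pi A B)) :
    NotO P D W A := fun hA => h.dom w e hA


theorem NotO.cod (w : WfF P W) {T A B a : Term S} (h : NotO P D W T)
    (e : BetaEq T (pi A B)) (ha : TyF P W a A) : NotO P D W (inst a B) :=
  fun hr => (h (rl_of_inst w e ha hr)).cod w e ha hr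

/-- `D`-bound types are never of mode O -/
theorem notO_bound (w : WfF P W) {A : Term S} {a b c : S} (r : P.rule a b c) (hb : b ∈ D)
    (hc : c ∈ D) (h : Uniq452.Sg P W A a) : NotO P D W A :=
  fun hA => ⟨hA, true, SgT.base w r hb hc h hA⟩

/-- `D`-bound types are never of mode plus -/
theorem bound_sg (w : WfF P W) {A : Term S} {a b c : S} (r : P.rule a b c) (hb : b ∈ D)
    (hc : c ∈ D) (h : Uniq452.Sg P W A a) (hA : ¬ Inf786.Tame (skel P D W) A) :
    sgQ P D W A := by
  have hRA : Rl P D W A := by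
    by_contra hn
    exact hA (tame_of_notRl w hn)
  exact SgT.base w r hb hc h hRA

end skel

/-! ### valid paths -/

section valid

open Crest.Agent.R298.Cod893 Crest.Agent.R298.Vt786

variable {S : Type} {P : Spec S} {D : Set S} {W : ℕ → Term S} {C : Type} [Inhabited C]

/-- shapes over the world -/
abbrev ShW (P : Spec S) (D : Set S) (W : ℕ → Term S) (C : Type) [Inhabited C] :=
  Sh (Term S) (Vt786.SI (skel P D W) C) C

variable (P D W C) in
/-- WIDE validity of a shape at a closed type (no liveness, no sign) -/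
def vtW : Term S → ShW P D W C → Prop
  | T, [] => kleaf D T
  | T, x :: s => ∃ A B, BetaEq T (pi A B) ∧ TyF P W x.1 A ∧
      rngS (skel P D W) (sgQ P D W) (cl A) x.2 ∧ vtW (inst x.1 B) s


theorem vtW_conv {T T' : Term S} (e : BetaEq T T') {s : ShW P D W C} :
    vtW P D W C T s ↔ vtW P D W C T' s := by
  cases s with
  | nil => exact kleaf_conv e
  | cons x s =>
    exact ⟨fun ⟨A, B, h, h'⟩ => ⟨A, B, BetaEq.trans (BetaEq.symm e) h, h'⟩,
      fun ⟨A, B, h, h'⟩ => ⟨A, B, BetaEq.trans e h, h'⟩⟩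

theorem vtW_cl {T : Term S} {s : ShW P D W C} : vtW P D W C (cl T) s ↔ vtW P D W C T s :=
  vtW_conv (cl_eq T)



/-- a type with a valid path is relevant -/
theorem rl_of_vtW (w : WfF P W) : ∀ {s : ShW P D W C} {T : Term S}, vtW P D W C T s →
    Rl P D W T
  | [], _, h => rl_leaf h
  | _ :: _, _, ⟨_, _, e, h1, _, h3⟩ => rl_of_inst w e h1 (rl_of_vtW w h3)

/-- valid ⇒ widely valid -/
theorem vtW_of_vt : ∀ {s : ShW P D W C} {T : Term S}, vt (skel P D W) (sgQ P D W) T s →
    vtW P D W C T s
  | [], _, h => h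
  | x :: s, T, ⟨hl, hr, hs⟩ => by
    obtain ⟨_, A, B, e, ha, _⟩ := hl
    have h1 : (skel P D W).dom T = cl A := kdom_pi e
    have h2 : (skel P D W).cod T x.1 = cl (inst x.1 B) := kcod_pi e x.1
    rw [h1] at hr
    rw [h2] at hs
    exact ⟨A, B, e, ha, hr, vtW_cl.1 (vtW_of_vt hs)⟩



theorem rl_of_vt (w : WfF P W) {s : ShW P D W C} {T : Term S}
    (h : vt (skel P D W) (sgQ P D W) T s) : Rl P D W T := rl_of_vtW w (vtW_of_vt h)




variable {F : Frame S (Term S) (Vt786.SI (skel P D W) C) C}





end valid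

end Crest.Agent.R298.Md254
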