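import Crest.Agent.R298.Par_452
import Crest.Agent.R298.Cod_893

/-!
R298 (S0452), helper893: renaming lemma, LITERAL substitution lemma (all raw terms), faithfulness
of packed arguments and the beta rule for the interpretation `den` of `Cod_893`.
-/

set_option autoImplicit false

namespace Crest.Agent.R298.Cod893

open Crest.LogicCS.PTS Crest.LogicCS.PTS.Term Crest.Agent.R298.Sub452 Crest.Agent.R298.Par452

variable {S Q SI C : Type}

/-- the interpretation is insensitive to renamings -/
theorem den_ren (F : Frame S Q SI C) (t : Term S) :
    ∀ (ρ : ℕ → ℕ) (θ θ' : ℕ → Term S) (ν ν' : ℕ → UF Q SI C),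
      (∀ x, θ' (ρ x) = θ x) → (∀ x, ν' (ρ x) = ν x) →
      den F (ren ρ t) θ' ν' = den F t θ ν := by
  induction t with
  | var x =>
      intro ρ θ θ' ν ν' h1 h2
      simp only [ren, den, h1, h2]
  | sort s => intro ρ θ θ' ν ν' h1 h2; rfl
  | app M N ihM ihN =>
      intro ρ θ θ' ν ν' h1 h2
      have e : ∀ t : Term S, sub θ' (ren ρ t) = sub θ t := fun t => by
        rw [sub_ren]; congr 1; funext x; exact h1 x
      have e' : sub θ' (app (ren ρ M) (ren ρ N)) = sub θ (app M N) := e (app M N)
      simp only [ren, den, e, e', ihM ρ θ θ' ν ν' h1 h2, ihN ρ θ θ' ν ν' h1 h2]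
  | lam A M ihA ihM =>
      intro ρ θ θ' ν ν' h1 h2
      have e : ∀ t : Term S, sub θ' (ren ρ t) = sub θ t := fun t => by
        rw [sub_ren]; congr 1; funext x; exact h1 x
      have e' : sub θ' (lam (ren ρ A) (ren (up ρ) M)) = sub θ (lam A M) := e (lam A M)
      have h : ∀ (a : Term S) (u : UF Q SI C),
          den F (ren (up ρ) M) (scons a θ') (icons u ν') = den F M (scons a θ) (icons u ν) := by
        intro a u
        refine ihM (up ρ) _ _ _ _ (fun x => ?_) (fun x => ?_)
        · cases x with
          | zero => rfl
          | succ x => exact h1 x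
        · cases x with
          | zero => rfl
          | succ x => exact h2 x
      funext p
      cases p with
      | nil => simp only [ren, den, e']
      | cons x p => simp only [ren, den, e', h]
  | pi A B ihA ihB =>
      intro ρ θ θ' ν ν' h1 h2
      have e : ∀ t : Term S, sub θ' (ren ρ t) = sub θ t := fun t => by
        rw [sub_ren]; congr 1; funext x; exact h1 x
      have e' : sub θ' (pi (ren ρ A) (ren (up ρ) B)) = sub θ (pi A B) := e (pi A B)
      have h : ∀ (a : Term S) (u : UF Q SI C),
          den F (ren (up ρ) B) (scons a θ') (icons u ν') = den F B (scons a θ) (icons u ν) := by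
        intro a u
        refine ihB (up ρ) _ _ _ _ (fun x => ?_) (fun x => ?_)
        · cases x with
          | zero => rfl
          | succ x => exact h1 x
        · cases x with
          | zero => rfl
          | succ x => exact h2 x
      simp only [ren, den, e, e', ihA ρ θ θ' ν ν' h1 h2, h]

theorem den_wk (F : Frame S Q SI C) (t : Term S) (a : Term S) (u : UF Q SI C)
    (θ : ℕ → Term S) (ν : ℕ → UF Q SI C) :
    den F (wk t) (scons a θ) (icons u ν) = den F t θ ν :=
  den_ren F t Nat.succ θ (scons a θ) ν (icons u ν) (fun _ => rfl) (fun _ => rfl)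


theorem betaEq_subs (t : Term S) : ∀ {θ θ' : ℕ → Term S}, (∀ x, BetaEq (θ x) (θ' x)) →
    BetaEq (sub θ t) (sub θ' t) := by
  induction t with
  | var x => intro θ θ' h; exact h x
  | sort s => intro θ θ' h; exact BetaEq.refl _
  | app M N ihM ihN => intro θ θ' h; exact BetaEq.app (ihM h) (ihN h)
  | lam A M ihA ihM =>
      intro θ θ' h
      refine BetaEq.lam (ihA h) (ihM (fun x => ?_))
      cases x with
      | zero => exact BetaEq.refl _
      | succ x => exact BetaEq.ren (h x) _
  | pi A B ihA ihB =>
      intro θ θ' h
      refine BetaEq.pi (ihA h) (ihB (fun x => ?_))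
      cases x with
      | zero => exact BetaEq.refl _
      | succ x => exact BetaEq.ren (h x) _

/-- closed terms only matter up to conversion, infos only through the values of the variables -/
theorem den_congr (F : Frame S Q SI C) (hcl : ∀ M N : Term S, BetaEq M N → F.cl M = F.cl N)
    (t : Term S) : ∀ {θ θ' : ℕ → Term S} {ν ν' : ℕ → UF Q SI C},
      (∀ x, BetaEq (θ x) (θ' x)) → (∀ x, den F (var x) θ ν = den F (var x) θ' ν') →
      den F t θ ν = den F t θ' ν' := by
  induction t with
  | var x => intro θ θ' ν ν' h h2; exact h2 x
  | sort s => intro θ θ' ν ν' h h2; rfl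
  | app M N ihM ihN =>
      intro θ θ' ν ν' h h2
      have e : ∀ t : Term S, F.cl (sub θ t) = F.cl (sub θ' t) := fun t =>
        hcl _ _ (betaEq_subs t h)
      funext p
      simp only [den, e, ihM h h2, ihN h h2]
  | lam A M ihA ihM =>
      intro θ θ' ν ν' h h2
      have e : ∀ t : Term S, F.cl (sub θ t) = F.cl (sub θ' t) := fun t =>
        hcl _ _ (betaEq_subs t h)
      have h' : ∀ (a : Term S) (u : UF Q SI C),
          den F M (scons a θ) (icons u ν) = den F M (scons a θ') (icons u ν') := by
        intro a u
        refine ihM (fun x => ?_) (fun x => ?_)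
        · cases x with
          | zero => exact BetaEq.refl _
          | succ x => exact h x
        · cases x with
          | zero => rfl
          | succ x => exact h2 x
      funext p
      cases p with
      | nil => simp only [den, e]
      | cons x p => simp only [den, e, h']
  | pi A B ihA ihB =>
      intro θ θ' ν ν' h h2
      have e : ∀ t : Term S, F.cl (sub θ t) = F.cl (sub θ' t) := fun t =>
        hcl _ _ (betaEq_subs t h)
      have h' : ∀ (a : Term S) (u : UF Q SI C),
          den F B (scons a θ) (icons u ν) = den F B (scons a θ') (icons u ν') := by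
        intro a u
        refine ihB (fun x => ?_) (fun x => ?_)
        · cases x with
          | zero => exact BetaEq.refl _
          | succ x => exact h x
        · cases x with
          | zero => rfl
          | succ x => exact h2 x
      funext p
      simp only [den, e, ihA h h2, h']

/-! ### laws of a frame -/

/-- entry shapes admitted at a closed type -/
def okE (F : Frame S Q SI C) (A : Q) : ESh Q SI C → Prop
  | .sm s => F.mode A = Mode.small ∧ ∃ v, s = F.put A v
  | .co _ => F.mode A = Mode.plus
  | .hole => F.mode A = Mode.minus


/-- abstract laws: `has q A` = the closed term `q` has the closed ALLOWED type `A` -/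
structure Laws (F : Frame S Q SI C) (has : Q → Q → Prop) : Prop where
  cl_eq : ∀ M N : Term S, BetaEq M N → F.cl M = F.cl N
  rep_cl : ∀ M : Term S, BetaEq (F.rep (F.cl M)) M
  idem : ∀ q s c, F.nz q s (F.nz q s c) = F.nz q s c
  /-- the clamp by the closed term is finer than the clamp by its type -/
  nznt : ∀ q A, has q A → ∀ s c, F.nz q s (F.nt A s c) = F.nz q s c
  /-- off-mode paths carry no information -/
  minus : ∀ q A, has q A → F.mode A = Mode.minus → ∀ p : UPath Q SI C, toM p = none →
    ∀ c c', F.nz q (sh p) c = F.nz q (sh p) c'
  plus : ∀ q A, has q A → F.mode A = Mode.plus → ∀ p : UPath Q SI C, ¬ IsP p →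
    ∀ c c', F.nz q (sh p) c = F.nz q (sh p) c'
  small : ∀ q A, has q A → F.mode A = Mode.small → ∀ p : UPath Q SI C, toS p = none →
    ∀ c c', F.nz q (sh p) c = F.nz q (sh p) c'
  /-- small infos -/
  get_put : ∀ q A, has q A → F.mode A = Mode.small → ∀ (v : List (Q × SI) → C) l,
    F.nz q (sh (embS l : UPath Q SI C)) (F.get (F.put A v) l) =
      F.nz q (sh (embS l : UPath Q SI C)) (v l)
  /-- clamps under a legal application -/
  app : ∀ M N : Term S, has (F.cl N) (F.dty (F.cl M)) → ∀ e, okE F (F.dty (F.cl M)) e →
    ∀ s c, F.nz (F.cl M) ((F.cl N, e) :: s) c = F.nz (F.cl (Term.app M N)) s c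

section
variable {F : Frame S Q SI C} {has : Q → Q → Prop}


/-- **faithfulness of packed arguments** -/
theorem look_entry (L : Laws F has) {q A : Q} (hq : has q A) {u : UF Q SI C}
    (hu : Good u) (p : UPath Q SI C) :
    F.nz q (sh p) (look F (entry F A u) p) = F.nz q (sh p) (u p) := by
  classical
  cases h : F.mode A with
  | small =>
      cases hp : toS p with
      | none => exact L.small q A hq h p hp _ _
      | some l =>
          have e : embS l = p := embS_toS hp
          have e2 : look F (entry F A u) p =
              F.get (F.put A (fun l => ntu F A u (embS l))) l := by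
            simp only [entry, h, look, hp]
          rw [e2, ← e, L.get_put q A hq h _ l]
          exact L.nznt q A hq _ _
  | minus =>
      cases hp : toM p with
      | none => exact L.minus q A hq h p hp _ _
      | some l =>
          have e : emb l = p := emb_toM hp
          have e2 : look F (entry F A u) p = ntu F A u (emb l) := by
            simp only [entry, h, look, hp]
          rw [e2, e]
          exact L.nznt q A hq _ _
  | plus =>
      by_cases hp : IsP p
      · have e2 : look F (entry F A u) p = dec F.b (enc F.b (ntu F A u)) p := by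
          simp only [entry, h, look]
        rw [e2, dec_enc F.b ((ntu_good F A hu).coded F.b) hp]
        exact L.nznt q A hq _ _
      · exact L.plus q A hq h p hp _ _


end

end Crest.Agent.R298.Cod893
private theorem rz_fa6b828299 : type_of% @_root_.Crest.Agent.R298.Cod893.okE.eq_1 := @_root_.Crest.Agent.R298.Cod893.okE.eq_1 -- L218
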