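import Crest.Agent.R298.Hen3_795_Mg
import Crest.Agent.R298.Ty_452
import Crest.Agent.R298.Fin_595
import Crest.Agent.R298.Real_582
import Crest.Agent.R298.Scc_795
import Crest.Agent.R298.TyP_795
import Crest.Agent.R298.Fl1_113
import Crest.Agent.R298.Main_865
import Crest.Agent.R298.Hen2_795
import Crest.Agent.R298.Tw1_987
import Crest.Agent.R298.MainW_865
import Crest.Agent.R298.HPar_705

-- ▼ part R298/HenB_705
section

/-!
R298 (S0452), part P, helper705: the maximal context of `Hen3_795` satisfies the truth laws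
`LInst705.HenT`.
-/

set_option autoImplicit false

namespace Crest.Agent.R298.HenB705

open Crest.LogicCS.PTS Crest.LogicCS.PTS.Term
open Crest.Agent.R298.Sub452 Crest.Agent.R298.TyF452 Crest.Agent.R298.Scc795

universe u
variable {S : Type u} {P : Spec S} {Dd : Set S}

/-- translation of steps -/
def st : LInst705.St S → Hen795.St S
  | .dom b => .dom b
  | .cod a => .cod a

theorem wform_eq (B : Hen795.Base P Dd) (k : ℕ) (w : List (LInst705.St S)) : ∀ X : Term S,
    LInst705.wform B.R B.E k w X = Hen795.wform B k (w.map st) X := by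
  induction w with
  | nil => intro X; rfl
  | cons s w ih =>
      intro X
      cases s with
      | dom b => exact ih _
      | cod a => exact ih _

theorem wl {w : List (LInst705.St S)} {s : Bool} {x y : S} (h : LInst705.WL P Dd w s x y) :
    Hen795.WL P Dd (w.map st) s x y := by
  induction h with
  | nil h => exact .nil h
  | dom r ha _ ih => exact .dom r ha ih
  | cod r hb _ ih => exact .cod r hb ih

theorem stab (B : Hen795.Base P Dd) {k : ℕ} {X : Term S}
    (h : LInst705.Stab B.R (LInst705.Bs P Dd) k X) : Hen795.Stab B k X := by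
  induction h with
  | base k b hb => exact ⟨0, .base hb⟩
  | pi k A C _ ih =>
      obtain ⟨n, hn⟩ := ih
      exact ⟨n + 1, .pi hn⟩


/-- **the truth laws** -/
theorem henT {B : Hen795.Base P Dd} {D : ℕ → Term S} (h : Hen795.Hen B D) :
    LInst705.HenT P Dd B.R B.E B.e D where
  hR b hb := by
    have := h.over.typed (B.hR b hb)
    simpa only [Hen795.lift_zero] using this
  hE a ha := by
    have := h.over.typed (B.hE a ha)
    simpa only [Hen795.lift_zero] using this
  he a ha := by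
    have := h.over.typed (B.he a ha)
    simpa only [Hen795.lift_zero] using this
  tr_w := by
    intro w s x y X hw hX
    have := Hen795.tr_w h (wl hw) hX
    rw [← wform_eq] at this
    exact this
  tr_imp := by
    intro a b c A X r _ _ _ hA hX hs
    exact Hen795.tr_imp h r hA hX (stab B hs)
  tr_all := by
    intro a b c A X r _ _ hA hX hs
    exact Hen795.tr_all h r hA hX (stab B hs)

end Crest.Agent.R298.HenB705
end

-- ▼ part R298/NoNf_525
section

/-!
R298 (S0452), helper525: no normal inhabitant of a "false" simple type in a context all of whose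
declarations are sorts (type atoms) or "true" simple types.  Truth-table form, for ANY spec.

* `Tv v T b`: `T` is a simple type over the variables (atoms) `var i` (built with `pi A (wk B)`)
  whose truth value under the valuation `v : ℕ → Bool` is `b`.
* `Good v Γ`: every declared type of `Γ` is (convertible to) a sort or to a simple type of value
  `true`.
* `no_nf`: a normal term typed in a `Good` context never has (up to conversion) a simple type of
  value `false`; `no_wn`: the same for weakly normalizing terms.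
-/

set_option autoImplicit false

namespace Crest.Agent.R298.NoNf525

open Crest.LogicCS.PTS Crest.LogicCS.PTS.Term Relation
open Crest.Agent.R298.Sub452 Crest.Agent.R298.Par452 Crest.Agent.R298.Ty452

universe u
variable {S : Type u} {P : Spec S}

/-- simple types over the type variables, with their truth value -/
inductive Tv (v : ℕ → Bool) : Term S → Bool → Prop
  | atom (i : ℕ) : Tv v (var i) (v i)
  | arrow {A B : Term S} {a b : Bool} : Tv v A a → Tv v B b → Tv v (pi A (wk B)) (!a || b)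

theorem wk_inj {M N : Term S} (h : wk M = wk N) : M = N := by
  have := congrArg (inst (var 0)) h
  rwa [inst_wk, inst_wk] at this

theorem Tv.ren {v w : ℕ → Bool} {ρ : ℕ → ℕ} (hv : ∀ i, w (ρ i) = v i) {A : Term S} {a : Bool}
    (h : Tv v A a) : Tv w (Sub452.ren ρ A) a := by
  induction h with
  | atom i =>
      have := Tv.atom (S := S) (v := w) (ρ i)
      rw [hv i] at this
      exact this
  | arrow _ _ ih1 ih2 =>
      rw [ren_pi, ren_up_wk]
      exact .arrow ih1 ih2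

/-- extension of a valuation -/
def vcons (b : Bool) (v : ℕ → Bool) : ℕ → Bool
  | 0 => b
  | i + 1 => v i

theorem Tv.wk {v : ℕ → Bool} (b : Bool) {A : Term S} {a : Bool} (h : Tv v A a) :
    Tv (vcons b v) (Sub452.wk A) a :=
  Tv.ren (ρ := Nat.succ) (fun _ => rfl) h

theorem Tv.det {v : ℕ → Bool} {A : Term S} {a b : Bool} (h : Tv v A a) (h' : Tv v A b) :
    a = b := by
  induction h generalizing b with
  | atom i => cases h'; rfl
  | @arrow A B a1 b1 _ _ ih1 ih2 =>
      generalize hB : Sub452.wk B = B' at h'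
      cases h' with
      | @arrow _ B2 a2 b2 h3 h4 =>
          have := wk_inj hB
          subst this
          rw [ih1 h3, ih2 h4]

theorem Tv.normal {v : ℕ → Bool} {A : Term S} {a : Bool} (h : Tv v A a) : Normal A := by
  induction h with
  | atom i => intro N hN; cases hN
  | @arrow A B a1 b1 _ _ ih1 ih2 =>
      intro N hN
      cases hN with
      | piA _ h => exact ih1 _ h
      | piB _ h =>
          obtain ⟨B', hB', -⟩ := beta_ren_inv h
          exact ih2 _ hB'

theorem Tv.not_sort {v : ℕ → Bool} {A : Term S} {a : Bool} (h : Tv v A a) {s : S} :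
    ¬ BetaEq A (sort s) := by
  intro e
  cases h with
  | atom i =>
      have := red_of_eq_sort e
      have := red_var this
      cases this
  | arrow _ _ => exact not_sort_pi (BetaEq.symm e)

theorem Tv.eq {v : ℕ → Bool} {A B : Term S} {a b : Bool} (h : Tv v A a) (h' : Tv v B b)
    (e : BetaEq A B) : a = b := by
  have := normal_unique e h.normal h'.normal
  subst this
  exact h.det h'

/-- every declared type is a sort or a simple type of value `true` (up to conversion) -/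
def Good (v : ℕ → Bool) (Γ : List (Term S)) : Prop :=
  ∀ i A, Lk Γ i A → (∃ s, BetaEq A (sort s)) ∨ ∃ T, Tv v T true ∧ BetaEq A T

theorem Good.nil (v : ℕ → Bool) : Good (S := S) v [] := by
  intro i A h; cases h

theorem Good.consSort {v : ℕ → Bool} {Γ : List (Term S)} (h : Good v Γ) (b : Bool) (s : S) :
    Good (vcons b v) (sort s :: Γ) := by
  intro i A hl
  cases hl with
  | zero _ _ => exact .inl ⟨s, .refl _⟩
  | succ _ hl =>
      rcases h _ _ hl with ⟨s', e⟩ | ⟨T, hT, e⟩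
      · exact .inl ⟨s', BetaEq.ren e _⟩
      · exact .inr ⟨_, hT.wk b, BetaEq.ren e _⟩

theorem Good.cons {v : ℕ → Bool} {Γ : List (Term S)} (h : Good v Γ) (b : Bool) {A T : Term S}
    (hT : Tv v T true) (e : BetaEq A T) : Good (vcons b v) (A :: Γ) := by
  intro i A hl
  cases hl with
  | zero _ _ => exact .inr ⟨_, hT.wk b, BetaEq.ren e _⟩
  | succ _ hl =>
      rcases h _ _ hl with ⟨s', e⟩ | ⟨T, hT, e⟩
      · exact .inl ⟨s', BetaEq.ren e _⟩
      · exact .inr ⟨_, hT.wk b, BetaEq.ren e _⟩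

/-- variables and applications -/
def Neu : Term S → Prop
  | var _ => True
  | app _ _ => True
  | _ => False

theorem no_nf_aux (N : Term S) : ∀ (Γ : List (Term S)) (v : ℕ → Bool) (C : Term S),
    Good v Γ → Typed P Γ N C → Normal N →
    (Neu N → (∃ s, BetaEq C (sort s)) ∨ ∃ T, Tv v T true ∧ BetaEq C T) ∧
    (∀ T, Tv v T false → ¬ BetaEq C T) := by
  induction N with
  | var i =>
      intro Γ v C hg ht _
      have key : (∃ s, BetaEq C (sort s)) ∨ ∃ T, Tv v T true ∧ BetaEq C T := by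
        obtain ⟨A, hl, e⟩ := gen_var ht
        rcases hg _ _ hl with ⟨s', e'⟩ | ⟨T, hT, e'⟩
        · exact .inl ⟨s', BetaEq.trans e e'⟩
        · exact .inr ⟨T, hT, BetaEq.trans e e'⟩
      refine ⟨fun _ => key, fun T hT e => ?_⟩
      rcases key with ⟨s', e'⟩ | ⟨T', hT', e'⟩
      · exact hT.not_sort (BetaEq.trans (BetaEq.symm e) e')
      · have := hT.eq hT' (BetaEq.trans (BetaEq.symm e) e')
        cases this
  | sort s =>
      intro Γ v C hg ht _
      refine ⟨fun h => h.elim, fun T hT e => ?_⟩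
      obtain ⟨s', _, e'⟩ := gen_sort ht
      exact hT.not_sort (BetaEq.trans (BetaEq.symm e) e')
  | pi A B _ _ =>
      intro Γ v C hg ht _
      refine ⟨fun h => h.elim, fun T hT e => ?_⟩
      obtain ⟨s₁, s₂, s₃, _, _, _, e'⟩ := gen_pi ht
      exact hT.not_sort (BetaEq.trans (BetaEq.symm e) e')
  | lam A M _ ihM =>
      intro Γ v C hg ht hn
      refine ⟨fun h => h.elim, fun T hT e => ?_⟩
      obtain ⟨B, s, hM, hpi, e'⟩ := gen_lam ht
      have e2 := BetaEq.trans (BetaEq.symm e') e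
      generalize hf : false = bb at hT
      cases hT with
      | atom i =>
          obtain ⟨A', B', hr, _, _⟩ := red_of_eq_pi (BetaEq.symm e2)
          have := red_var hr
          cases this
      | @arrow A' B' a b hA' hB' =>
          obtain ⟨eA, eB⟩ := pi_inj e2
          obtain ⟨rfl, rfl⟩ : a = true ∧ b = false := by
            revert hf; cases a <;> cases b <;> decide
          have hnM : Normal M := fun M' hM' => hn _ (.lamM A hM')
          exact (ihM (A :: Γ) (vcons true v) B (hg.cons true hA' eA) hM hnM).2 _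
            (hB'.wk true) eB
  | app M Q ihM ihQ =>
      intro Γ v C hg ht hn
      have hnM : Normal M := fun M' hM' => hn _ (.appL Q hM')
      have hnQ : Normal Q := fun M' hM' => hn _ (.appR M hM')
      have key : (∃ s, BetaEq C (sort s)) ∨ ∃ T, Tv v T true ∧ BetaEq C T := by
        obtain ⟨A, B, hM, hQ, e⟩ := gen_app ht
        have hneu : Neu M := by
          cases M with
          | var i => trivial
          | app _ _ => trivial
          | sort s =>
              obtain ⟨s', _, e'⟩ := gen_sort hM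
              exact (not_sort_pi (BetaEq.symm e')).elim
          | pi _ _ =>
              obtain ⟨s₁, s₂, s₃, _, _, _, e'⟩ := gen_pi hM
              exact (not_sort_pi (BetaEq.symm e')).elim
          | lam A' M' => exact (hn _ (Beta.redex A' M' Q)).elim
        rcases (ihM Γ v _ hg hM hnM).1 hneu with ⟨s', e'⟩ | ⟨T, hT, e'⟩
        · exact (not_sort_pi (BetaEq.symm e')).elim
        · generalize hf : true = bb at hT
          cases hT with
          | atom i =>
              obtain ⟨A', B', hr, _, _⟩ := red_of_eq_pi (BetaEq.symm e')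
              have := red_var hr
              cases this
          | @arrow A' B' a b hA' hB' =>
              obtain ⟨eA, eB⟩ := pi_inj e'
              cases a with
              | false => exact ((ihQ Γ v _ hg hQ hnQ).2 _ hA' eA).elim
              | true =>
                  obtain rfl : b = true := by revert hf; cases b <;> decide
                  refine .inr ⟨B', hB', BetaEq.trans e ?_⟩
                  have := BetaEq.inst (BetaEq.refl Q) eB
                  rwa [inst_wk] at this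
      refine ⟨fun _ => key, fun T hT e => ?_⟩
      rcases key with ⟨s', e'⟩ | ⟨T', hT', e'⟩
      · exact hT.not_sort (BetaEq.trans (BetaEq.symm e) e')
      · have := hT.eq hT' (BetaEq.trans (BetaEq.symm e) e')
        cases this

/-- **no normal term of a false simple type in a good context** -/
theorem no_nf {v : ℕ → Bool} {Γ : List (Term S)} (hg : Good v Γ) {N C T : Term S}
    (h : Typed P Γ N C) (hn : Normal N) (hT : Tv v T false) (e : BetaEq C T) : False :=
  (no_nf_aux N Γ v C hg h hn).2 T hT e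

/-- no weakly normalizing term of a false simple type in a good context -/
theorem no_wn {v : ℕ → Bool} {Γ : List (Term S)} (hg : Good v Γ) {N T : Term S}
    (h : Typed P Γ N T) (hn : WN N) (hT : Tv v T false) : False := by
  obtain ⟨N', hr, hn'⟩ := hn
  exact no_nf hg (SR h hr) hn' hT (.refl _)

end Crest.Agent.R298.NoNf525
end

-- ▼ part R298/At1_734
section

/-!
R298 (S0452), helper734: THE ATOM EXTENSION.

`Pp P : Spec (S ⊕ S)` has the sorts, axioms and rules of `P` and, for every sort `s` of `P` that is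
inhabited in some context, one more axiom `inl s : inr s`, so that fresh type variables ("atoms")
`X : s` may be declared in contexts for EVERY inhabited sort `s` (also for top sorts).

Main theorem `wn_Pp`: if every legal expression of `P` is weakly normalizing, so is every legal
expression of `Pp P`.
-/

set_option autoImplicit false

namespace Crest.Agent.R298.At734

open Crest.LogicCS.PTS Crest.LogicCS.PTS.Term Relation
open Crest.Agent.R298.Sub452 Crest.Agent.R298.Par452 Crest.Agent.R298.Ty452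
open Crest.Agent.R298.Fin595

universe u v
variable {S : Type u} {T : Type v}

/-! ### sort maps and the substitution calculus -/

theorem smap_ren (f : S → T) (ρ : ℕ → ℕ) (M : Term S) :
    smap f (ren ρ M) = ren ρ (smap f M) := by
  induction M generalizing ρ with
  | var i => rfl
  | sort s => rfl
  | app M N h1 h2 => simp [h1, h2]
  | lam A M h1 h2 => simp [h1, h2]
  | pi A B h1 h2 => simp [h1, h2]

theorem smap_ups (f : S → T) (σ : ℕ → Term S) :
    (fun i => smap f (ups σ i)) = ups (fun i => smap f (σ i)) := by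
  funext i
  cases i with
  | zero => rfl
  | succ i => simp only [ups_succ, wk, smap_ren]

theorem smap_sub (f : S → T) (σ : ℕ → Term S) (M : Term S) :
    smap f (sub σ M) = sub (fun i => smap f (σ i)) (smap f M) := by
  induction M generalizing σ with
  | var i => rfl
  | sort s => rfl
  | app M N h1 h2 => simp [h1, h2]
  | lam A M h1 h2 => simp [h1, h2, smap_ups]
  | pi A B h1 h2 => simp [h1, h2, smap_ups]

theorem smap_inst (f : S → T) (N M : Term S) :
    smap f (inst N M) = inst (smap f N) (smap f M) := by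
  simp only [inst, smap_sub]
  congr 1
  funext i
  cases i <;> rfl

/-! ### substitutions by normal terms which are not abstractions -/

/-- normal and not an abstraction -/
def NN (M : Term S) : Prop := Normal M ∧ ∀ A B, M ≠ lam A B

theorem NN.var (i : ℕ) : NN (S := S) (var i) :=
  ⟨(fun N h => by cases h), (fun A B h => by cases h)⟩

theorem NN.ren {M : Term S} (h : NN M) (ρ : ℕ → ℕ) : NN (ren ρ M) := by
  refine ⟨fun N hN => ?_, fun A B e => ?_⟩
  · obtain ⟨M', h1, -⟩ := beta_ren_inv hN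
    exact h.1 _ h1
  · cases M with
    | lam A' B' => exact h.2 _ _ rfl
    | var i => cases e
    | sort i => cases e
    | app _ _ => cases e
    | pi _ _ => cases e

theorem NN.ups {σ : ℕ → Term S} (h : ∀ i, NN (σ i)) : ∀ i, NN (ups σ i)
  | 0 => NN.var 0
  | i + 1 => (h i).ren _

/-- such substitutions create no redex -/
theorem beta_sub_inv {M N : Term S} {σ : ℕ → Term S} (hσ : ∀ i, NN (σ i))
    (h : Beta (sub σ M) N) : ∃ M', Beta M M' ∧ N = sub σ M' := by
  induction M generalizing σ N with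
  | var i => exact ((hσ i).1 _ h).elim
  | sort s => cases h
  | app M1 M2 ih1 ih2 =>
      rw [sub_app] at h
      generalize hX : sub σ M1 = X at h
      cases h with
      | redex A M _ =>
          cases M1 with
          | var i => exact ((hσ i).2 _ _ hX).elim
          | sort s => cases hX
          | app _ _ => cases hX
          | pi _ _ => cases hX
          | lam A0 M0 =>
              rw [sub_lam] at hX
              injection hX with e1 e2
              subst e1 e2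
              refine ⟨_, beta_redex A0 M0 M2, ?_⟩
              rw [subst_eq, sub_inst]
      | appL _ h =>
          subst hX
          obtain ⟨M', a, b⟩ := ih1 hσ h
          exact ⟨_, .appL _ a, by rw [b]; rfl⟩
      | appR _ h =>
          subst hX
          obtain ⟨M', a, b⟩ := ih2 hσ h
          exact ⟨_, .appR _ a, by rw [b]; rfl⟩
  | lam M1 M2 ih1 ih2 =>
      rw [sub_lam] at h
      cases h with
      | lamA _ h =>
          obtain ⟨M', a, b⟩ := ih1 hσ h
          exact ⟨_, .lamA _ a, by rw [b]; rfl⟩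
      | lamM _ h =>
          obtain ⟨M', a, b⟩ := ih2 (NN.ups hσ) h
          exact ⟨_, .lamM _ a, by rw [b]; rfl⟩
  | pi M1 M2 ih1 ih2 =>
      rw [sub_pi] at h
      cases h with
      | piA _ h =>
          obtain ⟨M', a, b⟩ := ih1 hσ h
          exact ⟨_, .piA _ a, by rw [b]; rfl⟩
      | piB _ h =>
          obtain ⟨M', a, b⟩ := ih2 (NN.ups hσ) h
          exact ⟨_, .piB _ a, by rw [b]; rfl⟩

theorem red_sub_inv {M N : Term S} {σ : ℕ → Term S} (hσ : ∀ i, NN (σ i))
    (h : Red (sub σ M) N) : ∃ M', Red M M' ∧ N = sub σ M' := by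
  induction h with
  | refl => exact ⟨M, .refl, rfl⟩
  | tail _ h ih =>
      obtain ⟨M1, h1, rfl⟩ := ih
      obtain ⟨M2, h2, rfl⟩ := beta_sub_inv hσ h
      exact ⟨M2, h1.tail h2, rfl⟩

/-- weak normalization is reflected by substitutions of normal terms that are not abstractions -/
theorem wn_of_sub {M : Term S} {σ : ℕ → Term S} (hσ : ∀ i, NN (σ i)) (h : WN (sub σ M)) :
    WN M := by
  obtain ⟨N, h1, h2⟩ := h
  obtain ⟨M', h3, rfl⟩ := red_sub_inv hσ h1
  exact ⟨M', h3, fun K hK => h2 _ (Beta.sub hK σ)⟩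

/-! ### concatenation of contexts -/

section
variable {P : Spec S}

theorem Lk.append_left {Θ : List (Term S)} {i : ℕ} {A : Term S} (h : Lk Θ i A)
    (Δ : List (Term S)) : Lk (Θ ++ Δ) i A := by
  induction h with
  | zero A Γ => exact .zero _ _
  | succ B _ ih => exact .succ _ ih

theorem Lk.append_right {Δ : List (Term S)} {i : ℕ} {A : Term S} (h : Lk Δ i A)
    (Θ : List (Term S)) : Lk (Θ ++ Δ) (i + Θ.length) (ren (fun i => i + Θ.length) A) := by
  induction Θ with
  | nil => simpa [ren_id] using h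
  | cons B Θ ih =>
      have := Lk.succ B ih
      rw [wk, ren_ren] at this
      exact this

theorem RenOk.left (Θ Δ : List (Term S)) : RenOk (fun i => i) Θ (Θ ++ Δ) :=
  fun _ _ h => by rw [ren_id]; exact Lk.append_left h Δ

theorem RenOk.right (Θ Δ : List (Term S)) : RenOk (fun i => i + Θ.length) Δ (Θ ++ Δ) :=
  fun _ _ h => Lk.append_right h Θ

theorem Wf.append {Θ Δ : List (Term S)} (h : Wf P Θ) (h' : Wf P Δ) : Wf P (Θ ++ Δ) := by
  induction h with
  | nil => exact h'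
  | @cons Γ A s _ h ih =>
      refine .cons (s := s) ih ?_
      have := typed_ren h ih (RenOk.left _ Δ)
      rwa [ren_id, ren_id] at this

theorem Typed.append_left {Θ Δ : List (Term S)} {M A : Term S} (h : Typed P Θ M A)
    (h' : Wf P Δ) : Typed P (Θ ++ Δ) M A := by
  have := typed_ren h (Wf.append (twf h) h') (RenOk.left _ Δ)
  rwa [ren_id, ren_id] at this

end

/-! ### the atom extension -/

/-- the sort `s` is inhabited in some context -/
def Inh (P : Spec S) (s : S) : Prop := ∃ Θ B, Typed P Θ B (sort s)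

/-- the atom extension -/
def Pp (P : Spec S) : Spec (S ⊕ S) where
  ax
    | .inl s, .inl t => P.ax s t
    | .inl s, .inr t => s = t ∧ Inh P s
    | .inr _, _ => False
  rule
    | .inl a, .inl b, .inl c => P.rule a b c
    | _, _, _ => False

/-- forget the copies -/
abbrev dn : Term (S ⊕ S) → Term S := smap (Sum.elim id id)

variable {P : Spec S}

theorem Pp_rule {a b c : S ⊕ S} (h : (Pp P).rule a b c) :
    ∃ a' b' c', a = .inl a' ∧ b = .inl b' ∧ c = .inl c' ∧ P.rule a' b' c' := by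
  rcases a with a | a <;> rcases b with b | b <;> rcases c with c | c <;>
    first
    | exact ⟨a, b, c, rfl, rfl, rfl, h⟩
    | exact (h : False).elim

theorem not_typed_inr {Γ : List (Term (S ⊕ S))} {s : S} {C : Term (S ⊕ S)}
    (h : Typed (Pp P) Γ (sort (.inr s)) C) : False := by
  obtain ⟨s', h, -⟩ := gen_sort h
  exact h

theorem wk_eq_sort {M : Term S} {s : S} (h : wk M = sort s) : M = sort s := by
  cases M with
  | sort t => exact h
  | var i => cases h
  | app _ _ => cases h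
  | lam _ _ => cases h
  | pi _ _ => cases h

/-- a typed term is not convertible with a sort `inr s` -/
theorem not_eq_inr {Γ : List (Term (S ⊕ S))} {s : S} {M C : Term (S ⊕ S)}
    (h : Typed (Pp P) Γ M C) (e : BetaEq M (sort (.inr s))) : False :=
  not_typed_inr (SR h (red_of_eq_sort e))

/-- the terms of type `inr t` -/
theorem exceptional {Γ : List (Term (S ⊕ S))} {M A : Term (S ⊕ S)} (h : Typed (Pp P) Γ M A) :
    ∀ t, A = sort (.inr t) → M = sort (.inl t) := by
  refine typed_ind (P := Pp P) (motive := fun _ M A => ∀ t, A = sort (.inr t) → M = sort (.inl t))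
    ?_ ?_ ?_ ?_ ?_ ?_ ?_ h
  · intro s₁ s₂ a t e
    injection e with e
    subst e
    rcases s₁ with s | s
    · obtain ⟨rfl, -⟩ : s = t ∧ Inh P s := a
      rfl
    · exact (a : False).elim
  · intro Γ A s h _ t e
    have := wk_eq_sort e
    subst this
    exact (not_typed_inr h).elim
  · intro Γ M B A s h h' ih _ t e
    rw [ih t (wk_eq_sort e)]
    rfl
  · intro Γ A B s₁ s₂ s₃ h h' r _ _ t e
    injection e with e
    subst e
    obtain ⟨a, b, c, -, -, e, -⟩ := Pp_rule r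
    cases e
  · intro Γ A M B s _ _ _ _ t e; cases e
  · intro Γ M N A B h h' _ _ t e
    obtain ⟨s, hp⟩ := pi_typed h
    obtain ⟨s₁, s₂, s₃, hA, hB, r, -⟩ := gen_pi hp
    have := typed_inst hB h'
    rw [e] at this
    exact (not_typed_inr this).elim
  · intro Γ M A B s h h' e' _ _ t e
    subst e
    exact (not_typed_inr h').elim

/-- transfer substitutions -/
def SubT (P : Spec S) (σ : ℕ → Term S) (Γ : List (Term (S ⊕ S))) (Δ : List (Term S)) : Prop :=
  ∀ i A, Lk Γ i A → Typed P Δ (σ i) (sub σ (dn A))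

theorem dn_wk (A : Term (S ⊕ S)) : dn (wk A) = wk (dn A) := smap_ren _ _ _

theorem SubT.ups {σ : ℕ → Term S} {Γ : List (Term (S ⊕ S))} {Δ : List (Term S)}
    (h : SubT P σ Γ Δ) {A : Term (S ⊕ S)} {s : S}
    (hA : Typed P Δ (sub σ (dn A)) (sort s)) :
    SubT P (ups σ) (A :: Γ) (sub σ (dn A) :: Δ) := by
  intro i B hl
  cases hl with
  | zero _ _ => rw [dn_wk, sub_wk]; exact t_start hA
  | succ _ hl => rw [dn_wk, sub_wk]; exact t_weak (h _ _ hl) hA

/-- transfer from the atom extension to `P` -/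
theorem transfer {Γ : List (Term (S ⊕ S))} {M A : Term (S ⊕ S)} (h : Typed (Pp P) Γ M A) :
    ∀ {Δ : List (Term S)} {σ : ℕ → Term S}, Wf P Δ → SubT P σ Γ Δ → (∀ s, A ≠ sort (.inr s)) →
      Typed P Δ (sub σ (dn M)) (sub σ (dn A)) := by
  refine typed_ind (P := Pp P) (motive := fun Γ M A => ∀ {Δ : List (Term S)} {σ : ℕ → Term S},
    Wf P Δ → SubT P σ Γ Δ → (∀ s, A ≠ sort (.inr s)) →
      Typed P Δ (sub σ (dn M)) (sub σ (dn A))) ?_ ?_ ?_ ?_ ?_ ?_ ?_ h
  · intro s₁ s₂ a Δ σ w _ hA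
    rcases s₁ with s | s
    · rcases s₂ with t | t
      · exact ax_wf w a
      · exact (hA t rfl).elim
    · exact (a : False).elim
  · intro Γ A s _ _ Δ σ w hr _
    exact hr 0 _ (.zero _ _)
  · intro Γ M B A s _ _ ih _ Δ σ w hr hB
    have := ih (Δ := Δ) (σ := fun i => σ (Nat.succ i)) w
      (fun i C hl => by
        have := hr _ _ (Lk.succ A hl)
        simpa only [dn_wk, wk, sub_ren] using this)
      (fun s e => hB s (by rw [e]; rfl))
    simpa only [dn_wk, wk, sub_ren] using this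
  · intro Γ A B s₁ s₂ s₃ h h' r ih ih' Δ σ w hr _
    obtain ⟨a, b, c, rfl, rfl, rfl, r'⟩ := Pp_rule r
    have ha : Typed P Δ (sub σ (dn A)) (sort a) := ih w hr (fun s e => by cases e)
    have hb : Typed P (sub σ (dn A) :: Δ) (sub (ups σ) (dn B)) (sort b) :=
      ih' (.cons w ha) (hr.ups ha) (fun s e => by cases e)
    exact .prod ha hb r'
  · intro Γ A M B s h h' ih ih' Δ σ w hr _
    obtain ⟨s₁, s₂, s₃, hA, hB, r, e⟩ := gen_pi h'
    obtain ⟨a, b, c, rfl, rfl, rfl, r'⟩ := Pp_rule r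
    have hs := sort_inj e
    subst hs
    have hp : Typed P Δ (pi (sub σ (dn A)) (sub (ups σ) (dn B))) (sort c) :=
      ih' w hr (fun s e => by cases e)
    obtain ⟨s', hA'⟩ := pi_dom hp
    refine .abs (ih (.cons w hA') (hr.ups hA') ?_) hp
    intro t e
    subst e
    exact not_typed_inr hB
  · intro Γ M N A B h h' ih ih' Δ σ w hr _
    obtain ⟨s, hp⟩ := pi_typed h
    obtain ⟨s₁, s₂, s₃, hA, hB, r, e⟩ := gen_pi hp
    have h1 : Typed P Δ (sub σ (dn M)) (pi (sub σ (dn A)) (sub (ups σ) (dn B))) :=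
      ih w hr (fun s e => by cases e)
    have h2 : Typed P Δ (sub σ (dn N)) (sub σ (dn A)) :=
      ih' w hr (fun s e => by subst e; exact not_typed_inr hA)
    have := t_appl h1 h2
    show Typed P Δ (app (sub σ (dn M)) (sub σ (dn N))) (sub σ (dn (inst N B)))
    rw [dn, smap_inst, sub_inst]
    exact this
  · intro Γ M A B s h h' e ih ih' Δ σ w hr hB
    have h1 := ih w hr (fun t e' => by
      subst e'
      exact not_eq_inr h' (BetaEq.symm e))
    have e' : BetaEq (sub σ (dn A)) (sub σ (dn B)) := BetaEq.sub (betaEq_smap _ e) σ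
    rcases s with s | s
    · have h2 : Typed P Δ (sub σ (dn B)) (sort s) := ih' w hr (fun s e => by cases e)
      exact .conv h1 h2 e'
    · have := exceptional h' s rfl
      subst this
      exact typed_sort_of_eq h1 e'

/-- every context of the atom extension can be instantiated in `P` -/
theorem exists_subT (h : ∀ (Γ : List (Term S)) (M : Term S), Legal P Γ M → WN M)
    {Γ : List (Term (S ⊕ S))} (w : Wf (Pp P) Γ) :
    ∃ (Δ : List (Term S)) (σ : ℕ → Term S), Wf P Δ ∧ SubT P σ Γ Δ ∧ ∀ i, NN (σ i) := by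
  induction w with
  | nil => exact ⟨[], var, .nil, (fun i A hl => by cases hl), NN.var⟩
  | @cons Γ A s w hA ih =>
      obtain ⟨Δ, σ, wΔ, hσ, hn⟩ := ih
      rcases s with s | s
      · have hA' : Typed P Δ (sub σ (dn A)) (sort s) :=
          transfer hA wΔ hσ (fun s e => by cases e)
        exact ⟨_, _, .cons wΔ hA', hσ.ups hA', NN.ups hn⟩
      · have e := exceptional hA s rfl
        subst e
        obtain ⟨s', hax, e⟩ := gen_sort hA
        have e := sort_inj e
        subst e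
        obtain ⟨-, Θ, B, hB⟩ : s = s ∧ Inh P s := hax
        obtain ⟨B', hr, hn'⟩ := h _ _ ⟨_, .inl hB⟩
        have hB' := SR hB hr
        have hW := Wf.append (twf hB) wΔ
        have hN : NN B' := by
          refine ⟨hn', fun A M e => ?_⟩
          subst e
          obtain ⟨_, _, _, _, e⟩ := gen_lam hB'
          exact not_sort_pi e
        refine ⟨Θ ++ Δ, scons B' (fun i => ren (fun i => i + Θ.length) (σ i)), hW, ?_, ?_⟩
        · intro i A hl
          cases hl with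
          | zero _ _ =>
              exact Typed.append_left hB' wΔ
          | @succ _ i A _ hl =>
              have h1 := typed_ren (hσ _ _ hl) hW (RenOk.right Θ Δ)
              rw [ren_sub] at h1
              rw [dn_wk, wk, sub_ren]
              exact h1
        · intro i
          cases i with
          | zero => exact hN
          | succ i => exact (hn i).ren _

/-- **weak normalization passes to the atom extension** -/
theorem wn_Pp (h : ∀ (Γ : List (Term S)) (M : Term S), Legal P Γ M → WN M)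
    (Γ : List (Term (S ⊕ S))) (M : Term (S ⊕ S)) (hM : Legal (Pp P) Γ M) : WN M := by
  have key : ∀ (Γ : List (Term (S ⊕ S))) (M A : Term (S ⊕ S)), Typed (Pp P) Γ M A → WN M := by
    intro Γ M A hT
    by_cases hA : ∃ s, A = sort (.inr s)
    · obtain ⟨s, rfl⟩ := hA
      rw [exceptional hT s rfl]
      exact ⟨_, .refl, fun N hN => by cases hN⟩
    · obtain ⟨Δ, σ, w, hσ, hn⟩ := exists_subT h (twf hT)
      have h1 := transfer hT w hσ (fun s e => hA ⟨s, e⟩)
      exact wn_of_smap _ (wn_of_sub hn (h _ _ ⟨_, .inl h1⟩))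
  obtain ⟨N, hM | hM⟩ := hM
  · exact key _ _ _ hM
  · rcases type_correct hM with ⟨s, rfl⟩ | ⟨s, hs⟩
    · exact ⟨_, .refl, fun N hN => by cases hN⟩
    · exact key _ _ _ hs

end Crest.Agent.R298.At734
end

-- ▼ part R298/Base_525
section

/-!
R298 (S0452), helper525: THE BASE CONTEXT of the paradox side, list form.

`Q : Spec T` finite, all rule sorts have a type (an axiom), `Q` weakly normalizing, `D` a strongly
connected set of sorts.  There is a context `Γ` with

* for every rule sort `s`: atoms `E s`, `F s : s` and an inhabitant `e s : E s`;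
* for all `b, b'` which are codomain sorts of rules `(a, b, c)` with `a, c ∈ D`: a term of type
  `F b'` in `F b :: Γ`;
* no `F b` is inhabited.

Applied to the atom extension `Pp P` of 734.
-/

set_option autoImplicit false

namespace Crest.Agent.R298.Base525

open Crest.LogicCS.PTS Crest.LogicCS.PTS.Term Relation
open Crest.Agent.R298.Sub452 Crest.Agent.R298.Par452 Crest.Agent.R298.Ty452
open Crest.Agent.R298.NoNf525 Crest.Agent.R298.Scc795

universe u
variable {T : Type u} {Q : Spec T}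

theorem wk_imp (A B : Term T) : wk (pi A (wk B)) = pi (wk A) (wk (wk B)) :=
  congrArg (pi (wk A)) (ren_up_wk Nat.succ B)

/-! ### entailment in a context -/

/-- `A` entails `B` in `Γ` -/
def Imp (Q : Spec T) (Γ : List (Term T)) (A B : Term T) : Prop :=
  ∃ C, Typed Q (A :: Γ) C (wk B)

theorem Imp.refl {Γ : List (Term T)} {A : Term T} {s : T} (h : Typed Q Γ A (sort s)) :
    Imp Q Γ A A := ⟨var 0, t_start h⟩

theorem Imp.trans {Γ : List (Term T)} {A B C : Term T} (h : Imp Q Γ A B) (h' : Imp Q Γ B C) :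
    Imp Q Γ A C := by
  obtain ⟨M, hM⟩ := h
  obtain ⟨N, hN⟩ := h'
  obtain ⟨w, s, hA⟩ := (twf hM).tail
  have hs : SubOk Q (scons M (fun i => var (i + 1))) (B :: Γ) (A :: Γ) := by
    intro i K hl
    cases hl with
    | zero _ _ =>
        have : sub (scons M (fun i => var (i + 1))) (wk B) = wk B := by
          rw [wk, sub_ren, ren_eq_sub]
          rfl
        rw [this]
        exact hM
    | @succ _ i K _ hl =>
        have : sub (scons M (fun i => var (i + 1))) (wk K) = wk K := by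
          rw [wk, sub_ren, ren_eq_sub]
          rfl
        rw [this]
        exact var_wf (.succ _ hl) (.cons w hA)
  have := typed_sub hN (.cons w hA) hs
  have e : sub (scons M (fun i => var (i + 1))) (wk C) = wk C := by
    rw [wk, sub_ren, ren_eq_sub]
    rfl
  rw [e] at this
  exact ⟨_, this⟩

theorem Imp.weak {Γ : List (Term T)} {A B K : Term T} {s : T} (h : Imp Q Γ A B)
    (hK : Typed Q Γ K (sort s)) : Imp Q (K :: Γ) (wk A) (wk B) := by
  obtain ⟨M, hM⟩ := h
  obtain ⟨w, t, hA⟩ := (twf hM).tail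
  refine ⟨ren (up Nat.succ) M, ?_⟩
  have := typed_ren hM (.cons (.cons w hK) (t_weak hA hK)) ((RenOk.wk Γ K).up A)
  rwa [ren_up_wk] at this


/-! ### the atoms -/

/-- the atoms `E s`, `F s` and the inhabitants `e s` for the sorts of `l` -/
structure Ats (Q : Spec T) (l : T → Prop) (Γ : List (Term T)) (v : ℕ → Bool)
    (E e F : T → ℕ) : Prop where
  wf : Wf Q Γ
  good : Good v Γ
  hE : ∀ s, l s → Lk Γ (E s) (sort s)
  vE : ∀ s, l s → v (E s) = true
  he : ∀ s, l s → Lk Γ (e s) (var (E s))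
  hF : ∀ s, l s → Lk Γ (F s) (sort s)
  vF : ∀ s, l s → v (F s) = false

open Classical in
theorem exists_ats (Q : Spec T) (l : List T) (hl : ∀ s ∈ l, ∃ t, Q.ax s t) :
    ∃ Γ v E e F, Ats Q (· ∈ l) Γ v E e F := by
  induction l with
  | nil =>
      exact ⟨[], fun _ => true, fun _ => 0, fun _ => 0, fun _ => 0, .nil, .nil _,
        by simp, by simp, by simp, by simp, by simp⟩
  | cons s l ih =>
      obtain ⟨Γ, v, E, e, F, h⟩ := ih (fun t ht => hl t (List.mem_cons_of_mem _ ht))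
      obtain ⟨t, ht⟩ := hl s List.mem_cons_self
      have w1 : Wf Q (sort s :: Γ) := .cons h.wf (ax_wf h.wf ht)
      have g1 : Good (vcons true v) (sort s :: Γ) := h.good.consSort true s
      have l1 : Lk (sort s :: Γ) 0 (sort s) := Lk.zero (sort s) Γ
      have t1 : Typed Q (sort s :: Γ) (var 0) (sort s) := var_wf l1 w1
      have w2 : Wf Q (var 0 :: sort s :: Γ) := .cons w1 t1
      have g2 : Good (vcons true (vcons true v)) (var 0 :: sort s :: Γ) :=
        g1.cons true (Tv.atom (S := T) (v := vcons true v) 0) (.refl _)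
      have w3 : Wf Q (sort s :: var 0 :: sort s :: Γ) := .cons w2 (ax_wf w2 ht)
      have g3 : Good (vcons false (vcons true (vcons true v))) (sort s :: var 0 :: sort s :: Γ) :=
        g2.consSort false s
      refine ⟨_, _, fun r => if r = s then 2 else E r + 3, fun r => if r = s then 1 else e r + 3,
        fun r => if r = s then 0 else F r + 3, w3, g3, ?_, ?_, ?_, ?_, ?_⟩
      · intro r hr
        by_cases hrs : r = s
        · subst hrs
          rw [if_pos rfl]
          exact .succ _ (.succ _ l1)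
        · rw [if_neg hrs]
          have hr' : r ∈ l := by simpa [hrs] using hr
          exact .succ _ (.succ _ (.succ _ (h.hE r hr')))
      · intro r hr
        by_cases hrs : r = s
        · subst hrs
          rw [if_pos rfl]
          rfl
        · rw [if_neg hrs]
          have hr' : r ∈ l := by simpa [hrs] using hr
          exact h.vE r hr'
      · intro r hr
        by_cases hrs : r = s
        · subst hrs
          rw [if_pos rfl, if_pos rfl]
          exact .succ _ (Lk.zero (var 0) _)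
        · rw [if_neg hrs, if_neg hrs]
          have hr' : r ∈ l := by simpa [hrs] using hr
          exact .succ _ (.succ _ (.succ _ (h.he r hr')))
      · intro r hr
        by_cases hrs : r = s
        · subst hrs
          rw [if_pos rfl]
          exact Lk.zero (sort r) _
        · rw [if_neg hrs]
          have hr' : r ∈ l := by simpa [hrs] using hr
          exact .succ _ (.succ _ (.succ _ (h.hF r hr')))
      · intro r hr
        by_cases hrs : r = s
        · subst hrs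
          rw [if_pos rfl]
          rfl
        · rw [if_neg hrs]
          have hr' : r ∈ l := by simpa [hrs] using hr
          exact h.vF r hr'

section
variable {l : T → Prop} {Γ : List (Term T)} {v : ℕ → Bool} {E e F : T → ℕ}

/-- one more declaration of true simple type -/
theorem Ats.cons (h : Ats Q l Γ v E e F) {K : Term T} {s : T} (hK : Typed Q Γ K (sort s))
    (hv : Tv v K true) : Ats Q l (K :: Γ) (vcons true v) (fun r => E r + 1) (fun r => e r + 1)
      (fun r => F r + 1) where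
  wf := .cons h.wf hK
  good := h.good.cons true hv (.refl _)
  hE := fun s hs => .succ _ (h.hE s hs)
  vE := fun s hs => h.vE s hs
  he := fun s hs => .succ _ (h.he s hs)
  hF := fun s hs => .succ _ (h.hF s hs)
  vF := fun s hs => h.vF s hs

theorem Ats.tE (h : Ats Q l Γ v E e F) {s : T} (hs : l s) : Typed Q Γ (var (E s)) (sort s) :=
  var_wf (h.hE s hs) h.wf


theorem Ats.tF (h : Ats Q l Γ v E e F) {s : T} (hs : l s) : Typed Q Γ (var (F s)) (sort s) :=
  var_wf (h.hF s hs) h.wf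

theorem Ats.tvE (h : Ats Q l Γ v E e F) {s : T} (hs : l s) : Tv (S := T) v (var (E s)) true := by
  have := Tv.atom (S := T) (v := v) (E s)
  rwa [h.vE s hs] at this

theorem Ats.tvF (h : Ats Q l Γ v E e F) {s : T} (hs : l s) : Tv (S := T) v (var (F s)) false := by
  have := Tv.atom (S := T) (v := v) (F s)
  rwa [h.vF s hs] at this

theorem Ats.con (h : Ats Q l Γ v E e F) (hwn : ∀ M, Legal Q Γ M → WN M) {s : T} (hs : l s) :
    ¬ ∃ M, Typed Q Γ M (var (F s)) := by
  rintro ⟨M, hM⟩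
  exact no_wn h.good hM (hwn M ⟨_, .inl hM⟩) (h.tvF hs)

/-! ### codomain walks and converters -/

/-- walks consisting of codomain steps -/
inductive Cw (Q : Spec T) : T → T → Prop
  | nil (x : T) : Cw Q x x
  | snoc {x y z a : T} : Cw Q x y → Q.rule a y z → Cw Q x z

/-- `(a, b, c)` with `a, c ∈ D` followed by a codomain walk `c ⇝ a'` and `(a', b', c')` -/
def Elem (Q : Spec T) (D : Set T) (b b' : T) : Prop :=
  ∃ a c a' c', Q.rule a b c ∧ a ∈ D ∧ c ∈ D ∧ Cw Q c a' ∧ Q.rule a' b' c' ∧ a' ∈ D ∧ c' ∈ D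

/-- formation of a non-dependent product -/
theorem t_imp {A B : Term T} {a b c : T} (hA : Typed Q Γ A (sort a)) (hB : Typed Q Γ B (sort b))
    (hr : Q.rule a b c) : Typed Q Γ (pi A (wk B)) (sort c) :=
  .prod hA (t_weak hB hA) hr

theorem chain (h : Ats Q l Γ v E e F) (hl : ∀ s ∈ RS Q, l s) {G : Term T} {g x y : T}
    (hG : Typed Q Γ G (sort g)) (hc : Cw Q x y) :
    ∀ A, Typed Q Γ A (sort x) → Tv v A false → Imp Q Γ G A →
      ∃ A', Typed Q Γ A' (sort y) ∧ Tv v A' false ∧ Imp Q Γ G A' := by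
  induction hc with
  | nil => intro A h1 h2 h3; exact ⟨A, h1, h2, h3⟩
  | @snoc y z a _ hr ih =>
      intro A h1 h2 h3
      obtain ⟨A', h4, h5, M, h6⟩ := ih A h1 h2 h3
      have la : l a := hl a ⟨_, _, _, hr, Or.inl rfl⟩
      refine ⟨pi (var (E a)) (wk A'), t_imp (h.tE la) h4 hr, ?_, ?_⟩
      · exact Tv.arrow (h.tvE la) h5
      · refine ⟨lam (wk (var (E a))) (wk M), ?_⟩
        have hE' := t_weak (h.tE la) hG
        have h7 : Typed Q (wk (var (E a)) :: G :: Γ) (wk M) (wk (wk A')) := t_weak h6 hE'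
        have h8 : Typed Q (G :: Γ) (wk (pi (var (E a)) (wk A'))) (wk (sort z)) :=
          t_weak (t_imp (h.tE la) h4 hr) hG
        rw [wk_imp] at h8 ⊢
        exact Typed.abs h7 h8

theorem elem_typed {D : Set T} (h : Ats Q l Γ v E e F) (hl : ∀ s ∈ RS Q, l s) {b b' : T}
    (hb : Elem Q D b b') : ∃ K k, Typed Q Γ K (sort k) ∧ Tv v K true ∧
      Imp Q (K :: Γ) (wk (var (F b))) (wk (var (F b'))) := by
  obtain ⟨a, c, a', c', r, ha, hc, hw, r', ha', hc'⟩ := hb
  have la : l a := hl a ⟨_, _, _, r, Or.inl rfl⟩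
  have lb : l b := hl b ⟨_, _, _, r, Or.inr (Or.inl rfl)⟩
  have lb' : l b' := hl b' ⟨_, _, _, r', Or.inr (Or.inl rfl)⟩
  -- the first type `E a → F b`
  have h0 : Imp Q Γ (var (F b)) (pi (var (E a)) (wk (var (F b)))) := by
    refine ⟨lam (wk (var (E a))) (wk (var 0)), ?_⟩
    have hE' := t_weak (h.tE la) (h.tF lb)
    have h7 : Typed Q (wk (var (E a)) :: var (F b) :: Γ) (wk (var 0)) (wk (wk (var (F b)))) :=
      t_weak (t_start (h.tF lb)) hE'
    have h8 := t_weak (t_imp (h.tE la) (h.tF lb) r) (h.tF lb)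
    rw [wk_imp] at h8 ⊢
    exact Typed.abs h7 h8
  have v0 : Tv v (pi (var (E a)) (wk (var (F b)))) false := Tv.arrow (h.tvE la) (h.tvF lb)
  obtain ⟨A', h4, h5, M, h6⟩ := chain h hl (h.tF lb) hw _ (t_imp (h.tE la) (h.tF lb) r) v0 h0
  have hK := t_imp h4 (h.tF lb') r'
  refine ⟨pi A' (wk (var (F b'))), c', hK, Tv.arrow h5 (h.tvF lb'), ?_⟩
  -- the converter applied
  obtain ⟨N, hN⟩ := Imp.weak ⟨M, h6⟩ hK
  refine ⟨app (wk (var 0)) N, ?_⟩
  have h10 : Typed Q (wk (var (F b)) :: pi A' (wk (var (F b'))) :: Γ) (wk (var 0))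
      (wk (wk (pi A' (wk (var (F b')))))) :=
    t_weak (t_start hK) (t_weak (h.tF lb) hK)
  rw [wk_imp, wk_imp] at h10
  have h11 := t_appl h10 hN
  rw [inst_wk] at h11
  exact h11

end

/-- the context with the converters -/
theorem exists_conv (Q : Spec T) (D : Set T) (l : List T) (hax : ∀ s ∈ l, ∃ t, Q.ax s t)
    (hl : ∀ s ∈ RS Q, s ∈ l) (L : List (T × T)) (hL : ∀ p ∈ L, Elem Q D p.1 p.2) :
    ∃ Γ v E e F, Ats Q (· ∈ l) Γ v E e F ∧
      ∀ p ∈ L, Imp Q Γ (var (F p.1)) (var (F p.2)) := by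
  induction L with
  | nil =>
      obtain ⟨Γ, v, E, e, F, h⟩ := exists_ats Q l hax
      exact ⟨Γ, v, E, e, F, h, by simp⟩
  | cons p L ih =>
      obtain ⟨Γ, v, E, e, F, h, h'⟩ := ih (fun q hq => hL q (List.mem_cons_of_mem _ hq))
      obtain ⟨K, k, hK, hv, hi⟩ := elem_typed h hl (hL p List.mem_cons_self)
      refine ⟨K :: Γ, _, _, _, _, h.cons hK hv, ?_⟩
      intro q hq
      rcases List.mem_cons.1 hq with rfl | hq
      · exact hi
      · exact (h' q hq).weak hK

/-- codomain sorts of the rules with domain and product sort in `D` -/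
def Bs (Q : Spec T) (D : Set T) : Set T := {b | ∃ a c, Q.rule a b c ∧ a ∈ D ∧ c ∈ D}

theorem conn_aux {D : Set T} {R : T → T → Prop} (hR : ∀ b b', Elem Q D b b' → R b b')
    (ht : ∀ x y z, R x y → R y z → R x z) {s : Bool} {x a' : T} (hw : Walk Q D s x a') :
    ∀ a b c b' c', Q.rule a b c → a ∈ D → c ∈ D → Cw Q c x → Q.rule a' b' c' → c' ∈ D →
      R b b' := by
  induction hw with
  | nil hx =>
      intro a b c b' c' r ha hc hcw r' hc'
      exact hR _ _ ⟨a, c, _, c', r, ha, hc, hcw, r', hx, hc'⟩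
  | @neg s x b'' c'' d hr hx hw ih =>
      intro a b c b' c' r ha hc hcw r' hc'
      have h1 : R b b'' := hR _ _ ⟨a, c, x, c'', r, ha, hc, hcw, hr, hx, hw.left⟩
      exact ht _ _ _ h1 (ih x b'' c'' b' c' hr hx hw.left (.nil _) r' hc')
  | @pos s a2 x c'' d hr hx hw ih =>
      intro a b c b' c' r ha hc hcw r' hc'
      exact ih a b c b' c' r ha hc (hcw.snoc hr) r' hc'

theorem conn {D : Set T} (hD : IsScc Q D) {R : T → T → Prop}
    (hR : ∀ b b', Elem Q D b b' → R b b') (ht : ∀ x y z, R x y → R y z → R x z) {b b' : T}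
    (hb : b ∈ Bs Q D) (hb' : b' ∈ Bs Q D) : R b b' := by
  obtain ⟨a, c, r, ha, hc⟩ := hb
  obtain ⟨a', c', r', ha', hc'⟩ := hb'
  obtain ⟨s, hw⟩ := hD.exists_walk hc ha'
  exact conn_aux hR ht hw a b c b' c' r ha hc (.nil _) r' hc'

/-- **the base context, list form** -/
theorem exists_list_base [Finite T] (Q : Spec T) (D : Set T) (hD : IsScc Q D)
    (hax : ∀ s ∈ RS Q, ∃ t, Q.ax s t) (hwn : ∀ Γ M, Legal Q Γ M → WN M) :
    ∃ (Γ : List (Term T)) (E e F : T → ℕ), Wf Q Γ ∧
      (∀ s ∈ RS Q, Lk Γ (E s) (sort s)) ∧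
      (∀ s ∈ RS Q, Lk Γ (e s) (var (E s))) ∧
      (∀ s ∈ RS Q, Lk Γ (F s) (sort s)) ∧
      (∀ b ∈ Bs Q D, ∀ b' ∈ Bs Q D, Imp Q Γ (var (F b)) (var (F b'))) ∧
      (∀ s ∈ RS Q, ¬ ∃ M, Typed Q Γ M (var (F s))) := by
  classical
  obtain ⟨l0, hl0⟩ : ∃ l : List T, ∀ s, s ∈ l := by
    have := Fintype.ofFinite T
    exact ⟨Finset.univ.toList, by simp⟩
  let l := l0.filter (fun s => s ∈ RS Q)
  have hl : ∀ s ∈ RS Q, s ∈ l := fun s hs => List.mem_filter.2 ⟨hl0 s, by simpa using hs⟩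
  have hl' : ∀ s ∈ l, s ∈ RS Q := fun s hs => by simpa using (List.mem_filter.1 hs).2
  obtain ⟨L0, hL0⟩ : ∃ L : List (T × T), ∀ p, p ∈ L := by
    have := Fintype.ofFinite T
    exact ⟨Finset.univ.toList, by simp⟩
  let L := L0.filter (fun p => Elem Q D p.1 p.2)
  have hL : ∀ p ∈ L, Elem Q D p.1 p.2 := fun p hp => by simpa using (List.mem_filter.1 hp).2
  have hL' : ∀ p, Elem Q D p.1 p.2 → p ∈ L :=
    fun p hp => List.mem_filter.2 ⟨hL0 p, by simpa using hp⟩
  obtain ⟨Γ, v, E, e, F, h, hc⟩ :=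
    exists_conv Q D l (fun s hs => hax s (hl' s hs)) hl L hL
  refine ⟨Γ, E, e, F, h.wf, fun s hs => h.hE s (hl s hs), fun s hs => h.he s (hl s hs),
    fun s hs => h.hF s (hl s hs), ?_, fun s hs => h.con (hwn Γ) (hl s hs)⟩
  intro b hb b' hb'
  exact conn hD (R := fun b b' => Imp Q Γ (var (F b)) (var (F b')))
    (fun b b' hbb' => hc (b, b') (hL' _ hbb')) (fun x y z => Imp.trans) hb hb'

end Crest.Agent.R298.Base525
end

-- ▼ part R298/Base2_525
section

/-!
R298 (S0452), helper525: THE BASE CONTEXT of the paradox side, function context form (partial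
contexts of 795), and transport between list contexts and partial function contexts.
-/

set_option autoImplicit false

namespace Crest.Agent.R298.Base525

open Crest.LogicCS.PTS Crest.LogicCS.PTS.Term Relation
open Crest.Agent.R298.Sub452 Crest.Agent.R298.Par452 Crest.Agent.R298.Ty452
open Crest.Agent.R298.Scc795 Crest.Agent.R298.TyF452 Crest.Agent.R298.TyP795

universe u
variable {T : Type u} {Q : Spec T}

/-! ### lists and partial function contexts -/

/-- the partial function context of a list -/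
def padP : List (Term T) → ℕ → Term T
  | [] => var
  | A :: Γ => fcons A (padP Γ)

theorem lk_padP {Γ : List (Term T)} {i : ℕ} {A : Term T} (h : Lk Γ i A) : padP Γ i = A := by
  induction h with
  | zero A Γ => rfl
  | succ B _ ih => rw [padP, fcons_succ, ih]

theorem padP_lk {Γ : List (Term T)} : ∀ {i : ℕ}, Dm (padP Γ) i → Lk Γ i (padP Γ i) := by
  induction Γ with
  | nil => intro i h; exact (h rfl).elim
  | cons A Γ ih =>
      intro i h
      cases i with
      | zero => exact .zero _ _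
      | succ i => exact .succ _ (ih (dm_succ.1 h))

theorem not_dm_padP {Γ : List (Term T)} {i : ℕ} (h : Γ.length ≤ i) : ¬ Dm (padP Γ) i := by
  intro h'
  have := (padP_lk h').lt
  omega

/-- from lists to partial contexts -/
theorem tyF_padP {Γ : List (Term T)} {M A : Term T} (h : Typed Q Γ M A) :
    TyF Q (padP Γ) M A := typed_tyf_id h (fun _ _ hl => lk_padP hl)

/-- from partial contexts to lists -/
theorem typed_of_tyF {D : ℕ → Term T} {M A : Term T} (h : TyF Q D M A) :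
    ∀ {Γ : List (Term T)}, Wf Q Γ → (∀ i, Dm D i → Lk Γ i (D i)) → Typed Q Γ M A := by
  induction h with
  | ax a => intro Γ w _; exact ax_wf w a
  | @var D i s h _ => intro Γ w hl; exact var_wf (hl i (dm_of_decl h)) w
  | @prod D A B s₁ s₂ s₃ _ _ r ih ih' =>
      intro Γ w hl
      have a := ih w hl
      refine .prod a (ih' (.cons w a) ?_) r
      intro i hi
      cases i with
      | zero => exact .zero _ _
      | succ i => exact .succ _ (hl i (dm_succ.1 hi))
  | @abs D A M B s _ _ ih ih' =>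
      intro Γ w hl
      have b : Typed Q Γ (pi A B) (sort s) := ih' w hl
      obtain ⟨s', a⟩ := Ty452.pi_dom b
      refine .abs (ih (.cons w a) ?_) b
      intro i hi
      cases i with
      | zero => exact .zero _ _
      | succ i => exact .succ _ (hl i (dm_succ.1 hi))
  | appl _ _ ih ih' => intro Γ w hl; exact t_appl (ih w hl) (ih' w hl)
  | conv _ _ e ih ih' => intro Γ w hl; exact .conv (ih w hl) (ih' w hl) e

theorem tyF_padP_iff {Γ : List (Term T)} (w : Wf Q Γ) {M A : Term T} :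
    TyF Q (padP Γ) M A ↔ Typed Q Γ M A :=
  ⟨fun h => typed_of_tyF h w (fun _ hi => padP_lk hi), tyF_padP⟩

theorem wfP_padP {Γ : List (Term T)} (w : Wf Q Γ) : WfP Q (padP Γ) := by
  induction w with
  | nil => intro i h; exact (h rfl).elim
  | @cons Γ A s _ hA ih => exact ih.fcons (tyF_padP hA)

/-- **the base context, partial function context form** -/
theorem exists_base [Finite T] (Q : Spec T) (D : Set T) (hD : IsScc Q D)
    (hax : ∀ s ∈ RS Q, ∃ t, Q.ax s t) (hwn : ∀ Γ M, Legal Q Γ M → WN M) :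
    ∃ (D0 : ℕ → Term T) (R E e : T → Term T), WfP Q D0 ∧
      (∃ n, ∀ i, n ≤ i → ¬ Dm D0 i) ∧
      (∀ b ∈ RS Q, TyF Q D0 (R b) (sort b)) ∧
      (∀ a ∈ RS Q, TyF Q D0 (E a) (sort a)) ∧
      (∀ a ∈ RS Q, TyF Q D0 (e a) (E a)) ∧
      (∀ b ∈ Bs Q D, ∀ b' ∈ Bs Q D, ∃ C, TyF Q (fcons (R b) D0) C (wk (R b'))) ∧
      (∀ b ∈ RS Q, ¬ ∃ M, TyF Q D0 M (R b)) := by
  obtain ⟨Γ, E, e, F, w, h1, h2, h3, h4, h5⟩ := exists_list_base Q D hD hax hwn
  refine ⟨padP Γ, fun b => var (F b), fun a => var (E a), fun a => var (e a), wfP_padP w,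
    ⟨Γ.length, fun i hi => not_dm_padP hi⟩, fun b hb => tyF_padP (var_wf (h3 b hb) w),
    fun a ha => tyF_padP (var_wf (h1 a ha) w), fun a ha => tyF_padP (var_wf (h2 a ha) w), ?_, ?_⟩
  · intro b hb b' hb'
    obtain ⟨C, hC⟩ := h4 b hb b' hb'
    exact ⟨C, tyF_padP hC⟩
  · rintro b hb ⟨M, hM⟩
    exact h5 b hb ⟨M, (tyF_padP_iff w).1 hM⟩

end Crest.Agent.R298.Base525
private theorem rz_413d19dbb9 : type_of% @_root_.Crest.Agent.R298.Base525.padP.eq_def := @_root_.Crest.Agent.R298.Base525.padP.eq_def -- L23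
private theorem rz_2056c20cd7 : type_of% @_root_.Crest.Agent.R298.Base525.padP.eq_1 := @_root_.Crest.Agent.R298.Base525.padP.eq_1 -- L23
end

-- ▼ part R298/PpT_525
section

/-!
R298 (S0452), helper525: transport of the sort-level data (strongly connected components, bipolar,
fat configuration) to the atom extension `Pp P` of 734, `D ↦ inl '' D`.
-/

set_option autoImplicit false

namespace Crest.Agent.R298.PpT525

open Crest.LogicCS.PTS Crest.LogicCS.PTS.Term
open Crest.Agent.R298.At734 Crest.Agent.R298.Scc795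

universe u
variable {S : Type u} {P : Spec S}

/-- the copy of `D` in the sorts of `Pp P` -/
abbrev Dl (D : Set S) : Set (S ⊕ S) := Sum.inl '' D

theorem mem_Dl {D : Set S} {x : S} : Sum.inl x ∈ Dl D ↔ x ∈ D :=
  ⟨fun ⟨y, hy, e⟩ => by injection e with e; exact e ▸ hy, fun h => ⟨x, h, rfl⟩⟩


theorem rule_iff {a b c : S} : (Pp P).rule (.inl a) (.inl b) (.inl c) ↔ P.rule a b c := Iff.rfl

theorem ax_inl {a b : S} (h : P.ax a b) : (Pp P).ax (.inl a) (.inl b) := h

theorem nedge_iff {x y : S ⊕ S} :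
    NEdge (Pp P) x y ↔ ∃ x' y', x = .inl x' ∧ y = .inl y' ∧ NEdge P x' y' := by
  constructor
  · rintro ⟨b, h⟩
    obtain ⟨a', b', c', rfl, rfl, rfl, r⟩ := Pp_rule h
    exact ⟨a', c', rfl, rfl, b', r⟩
  · rintro ⟨x', y', rfl, rfl, b, r⟩
    exact ⟨.inl b, r⟩

theorem pedge_iff {x y : S ⊕ S} :
    PEdge (Pp P) x y ↔ ∃ x' y', x = .inl x' ∧ y = .inl y' ∧ PEdge P x' y' := by
  constructor
  · rintro ⟨b, h⟩
    obtain ⟨a', b', c', rfl, rfl, rfl, r⟩ := Pp_rule h
    exact ⟨b', c', rfl, rfl, a', r⟩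
  · rintro ⟨x', y', rfl, rfl, b, r⟩
    exact ⟨.inl b, r⟩

theorem edge_iff {x y : S ⊕ S} :
    Edge (Pp P) x y ↔ ∃ x' y', x = .inl x' ∧ y = .inl y' ∧ Edge P x' y' := by
  simp only [Edge, nedge_iff, pedge_iff]
  constructor
  · rintro (⟨x', y', h1, h2, h⟩ | ⟨x', y', h1, h2, h⟩)
    · exact ⟨x', y', h1, h2, .inl h⟩
    · exact ⟨x', y', h1, h2, .inr h⟩
  · rintro ⟨x', y', h1, h2, h | h⟩
    · exact .inl ⟨x', y', h1, h2, h⟩
    · exact .inr ⟨x', y', h1, h2, h⟩

theorem RS_iff {x : S ⊕ S} : x ∈ RS (Pp P) ↔ ∃ x', x = .inl x' ∧ x' ∈ RS P := by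
  constructor
  · rintro ⟨a, b, c, h, h'⟩
    obtain ⟨a', b', c', rfl, rfl, rfl, r⟩ := Pp_rule h
    rcases h' with rfl | rfl | rfl
    · exact ⟨_, rfl, _, _, _, r, .inl rfl⟩
    · exact ⟨_, rfl, _, _, _, r, .inr (.inl rfl)⟩
    · exact ⟨_, rfl, _, _, _, r, .inr (.inr rfl)⟩
  · rintro ⟨x', rfl, a, b, c, r, h⟩
    refine ⟨.inl a, .inl b, .inl c, r, ?_⟩
    rcases h with rfl | rfl | rfl
    · exact .inl rfl
    · exact .inr (.inl rfl)
    · exact .inr (.inr rfl)

theorem reach_inl {x y : S} (h : Reach P x y) : Reach (Pp P) (.inl x) (.inl y) := by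
  induction h with
  | refl => exact Reach.refl _ _
  | tail _ h ih => exact ih.trans (Reach.of_edge (edge_iff.2 ⟨_, _, rfl, rfl, h⟩))

theorem reach_inv {x : S} {y : S ⊕ S} (h : Reach (Pp P) (.inl x) y) :
    ∃ y', y = .inl y' ∧ Reach P x y' := by
  induction h with
  | refl => exact ⟨x, rfl, Reach.refl _ _⟩
  | tail _ h ih =>
      obtain ⟨y', rfl, h'⟩ := ih
      obtain ⟨a, b, h1, rfl, h2⟩ := edge_iff.1 h
      injection h1 with h1
      subst h1
      exact ⟨b, rfl, h'.trans (Reach.of_edge h2)⟩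

theorem mut_iff {x : S} {y : S ⊕ S} :
    Mut (Pp P) (.inl x) y ↔ ∃ y', y = .inl y' ∧ Mut P x y' := by
  constructor
  · rintro ⟨h1, h2⟩
    obtain ⟨y', rfl, h3⟩ := reach_inv h1
    obtain ⟨x', e, h4⟩ := reach_inv h2
    injection e with e
    subst e
    exact ⟨y', rfl, h3, h4⟩
  · rintro ⟨y', rfl, h1, h2⟩
    exact ⟨reach_inl h1, reach_inl h2⟩

theorem isScc {D : Set S} (h : IsScc P D) : IsScc (Pp P) (Dl D) := by
  constructor
  · rintro _ ⟨x, hx, rfl⟩
    exact RS_iff.2 ⟨x, rfl, h.1 x hx⟩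
  · rintro _ ⟨x, hx, rfl⟩ y
    rw [mut_iff]
    constructor
    · rintro ⟨y', hy', rfl⟩
      exact ⟨y', rfl, (h.2 x hx y').1 hy'⟩
    · rintro ⟨y', rfl, hy'⟩
      exact ⟨y', (h.2 x hx y').2 hy', rfl⟩

theorem unary_of {D : Set S} (h : Unary (Pp P) (Dl D)) : Unary P D := by
  rintro a b c r hc ⟨ha, hb⟩
  exact h (.inl a) (.inl b) (.inl c) r (mem_Dl.2 hc) ⟨mem_Dl.2 ha, mem_Dl.2 hb⟩

theorem even_of {D : Set S} (h : Even (Pp P) (Dl D)) : Even P D := by
  obtain ⟨χ, h⟩ := h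
  refine ⟨fun x => χ (.inl x), fun a b c r hc => ?_⟩
  obtain ⟨h1, h2⟩ := h (.inl a) (.inl b) (.inl c) r (mem_Dl.2 hc)
  exact ⟨fun ha => h1 (mem_Dl.2 ha), fun hb => h2 (mem_Dl.2 hb)⟩

theorem bipolar {D : Set S} (h : Bipolar P D) : Bipolar (Pp P) (Dl D) :=
  ⟨fun h' => h.1 (unary_of h'), fun h' => h.2 (even_of h')⟩

/-! ### the fat configuration -/

theorem hs {u a : S} (h : Fl113.HS P u a) : Fl113.HS (Pp P) (.inl u) (.inl a) := by
  induction h with
  | base h => exact .base (ax_inl h)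
  | up r _ ih => exact .up (P := Pp P) (x := .inl _) (rule_iff.2 r) ih

theorem relS {D : Set S} {t : S} (h : Fl113.RelS P D t) : Fl113.RelS (Pp P) (Dl D) (.inl t) := by
  induction h with
  | base hs h => exact .base (mem_Dl.2 hs) (ax_inl h)
  | up r _ ih => exact .up (P := Pp P) (a := .inl _) (rule_iff.2 r) ih

theorem op {D : Set S} {e : Bool} {x y : S} (h : Fl113.Op P D e x y) :
    Fl113.Op (Pp P) (Dl D) e (.inl x) (.inl y) := by
  induction h with
  | nil x => exact .nil _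
  | cod r _ ih => exact .cod (P := Pp P) (a := .inl _) (rule_iff.2 r) ih
  | dom r h _ ih => exact .dom (P := Pp P) (rule_iff.2 r) (relS h) ih

theorem bd {D : Set S} {v : S} (h : Fl113.Bd P D v) : Fl113.Bd (Pp P) (Dl D) (.inl v) := by
  obtain ⟨b, c, r, hb, hc⟩ := h
  exact ⟨.inl b, .inl c, r, mem_Dl.2 hb, mem_Dl.2 hc⟩

theorem fatW {D : Set S} (h : Fl113.FatW P D) : Fl113.FatW (Pp P) (Dl D) := by
  obtain ⟨u, a, b, c, r, h1, ⟨e1, h2⟩, ⟨e2, h3⟩, ⟨x, y, z, e3, e4, r', h4, h5, h6⟩,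
    ⟨v1, h7, h8⟩, ⟨v2, h9, h10⟩⟩ := h
  exact ⟨.inl u, .inl a, .inl b, .inl c, r, hs h1, ⟨e1, op h2⟩, ⟨e2, op h3⟩,
    ⟨.inl x, .inl y, .inl z, e3, e4, r', relS h4, op h5, op h6⟩,
    ⟨.inl v1, op h7, bd h8⟩, ⟨.inl v2, op h9, bd h10⟩⟩

/-! ### rule sorts have a type in `Pp P` -/

theorem exists_ax (h : Real582.Realized P) {s : S ⊕ S} (hs : s ∈ RS (Pp P)) :
    ∃ t, (Pp P).ax s t := by
  obtain ⟨x, rfl, a, b, c, r, hx⟩ := RS_iff.1 hs
  refine ⟨.inr x, rfl, ?_⟩
  rcases hx with rfl | rfl | rfl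
  · exact h.inh_a r
  · exact h.inh_b r
  · exact h.inh_c r

end Crest.Agent.R298.PpT525
end

-- ▼ part R298/Pad_734
section

/-!
R298 (S0452), helper734: a well-formed LIST context as a partial FUNCTION context (`pad`), with
typing in both directions.
-/

set_option autoImplicit false

namespace Crest.Agent.R298.Pad734

open Crest.LogicCS.PTS Crest.LogicCS.PTS.Term Relation
open Crest.Agent.R298.Sub452 Crest.Agent.R298.Par452 Crest.Agent.R298.Ty452
open Crest.Agent.R298.TyF452 Crest.Agent.R298.TyP795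

universe u
variable {T : Type u} {Q : Spec T}

/-- the (partial) function context of a list context -/
def pad : List (Term T) → ℕ → Term T
  | [] => var
  | A :: Γ => fcons A (pad Γ)

theorem pad_lk {Γ : List (Term T)} {i : ℕ} {A : Term T} (h : Lk Γ i A) : pad Γ i = A := by
  induction h with
  | zero A Γ => rfl
  | succ B _ ih => rw [pad, fcons_succ, ih]

theorem dm_pad {Γ : List (Term T)} {i : ℕ} (h : Dm (pad Γ) i) : i < Γ.length := by
  induction Γ generalizing i with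
  | nil => exact (h rfl).elim
  | cons A Γ ih =>
      cases i with
      | zero => simp
      | succ i =>
          have := ih (dm_succ.1 h)
          simpa using this

theorem dm_pad_finite (Γ : List (Term T)) : {i | Dm (pad Γ) i}.Finite :=
  (Set.finite_lt_nat Γ.length).subset (fun _ h => dm_pad h)

theorem lk_pad {Γ : List (Term T)} {i : ℕ} (h : Dm (pad Γ) i) : Lk Γ i (pad Γ i) := by
  obtain ⟨A, hA⟩ := Lk.exists_of_lt (dm_pad h)
  rwa [pad_lk hA]

theorem typed_pad {Γ : List (Term T)} {M A : Term T} (h : Typed Q Γ M A) :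
    TyF Q (pad Γ) M A := typed_tyf_id h (fun _ _ hl => pad_lk hl)

/-- declared types are typed by a sort -/
theorem lk_typed {Γ : List (Term T)} {i : ℕ} {A : Term T} (hl : Lk Γ i A) (w : Wf Q Γ) :
    ∃ s, Typed Q Γ A (sort s) := by
  induction hl with
  | zero A Γ =>
      obtain ⟨_, s, h⟩ := w.tail
      exact ⟨s, t_weak h h⟩
  | succ B _ ih =>
      obtain ⟨w', s, h⟩ := w.tail
      obtain ⟨s', h'⟩ := ih w'
      exact ⟨s', t_weak h' h⟩

theorem wfP_pad {Γ : List (Term T)} (w : Wf Q Γ) : WfP Q (pad Γ) := by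
  intro i hi
  obtain ⟨s, h⟩ := lk_typed (lk_pad hi) w
  exact ⟨s, typed_pad h⟩

theorem typed_of_pad_aux {D : ℕ → Term T} {M A : Term T} (h : TyF Q D M A) :
    ∀ {Γ : List (Term T)}, D = pad Γ → Wf Q Γ → Typed Q Γ M A := by
  induction h with
  | ax a => intro Γ _ w; exact ax_wf w a
  | @var D i s h _ =>
      intro Γ e w
      subst e
      exact var_wf (lk_pad (dm_of_decl h)) w
  | prod _ _ r ih ih' =>
      intro Γ e w
      subst e
      have a := ih rfl w
      exact .prod a (ih' (Γ := _ :: Γ) rfl (.cons w a)) r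
  | abs _ _ ih ih' =>
      intro Γ e w
      subst e
      have b := ih' rfl w
      obtain ⟨s', a⟩ := Ty452.pi_dom b
      exact .abs (ih (Γ := _ :: Γ) rfl (.cons w a)) b
  | appl _ _ ih ih' => intro Γ e w; exact t_appl (ih e w) (ih' e w)
  | conv _ _ e' ih ih' => intro Γ e w; exact .conv (ih e w) (ih' e w) e'

theorem typed_of_pad {Γ : List (Term T)} {M A : Term T} (h : TyF Q (pad Γ) M A) (w : Wf Q Γ) :
    Typed Q Γ M A := typed_of_pad_aux h rfl w

end Crest.Agent.R298.Pad734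
private theorem rz_b863ee453f : type_of% @_root_.Crest.Agent.R298.Pad734.pad.eq_def := @_root_.Crest.Agent.R298.Pad734.pad.eq_def -- L20
private theorem rz_9cb39b99f1 : type_of% @_root_.Crest.Agent.R298.Pad734.pad.eq_1 := @_root_.Crest.Agent.R298.Pad734.pad.eq_1 -- L20
end

-- ▼ part R298/FatW_95
section

/-!
R298 (S0452), helper95: parity bookkeeping of a fat configuration (113's `FatW`): the walks
consumed by the tower of 987 (`al`, `xi` of equal parity, odd `p`, `q`, `hb`, `hy`).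
-/

set_option autoImplicit false

namespace Crest.Agent.R298.FatW95

open Crest.LogicCS.PTS Crest.Agent.R298.Fin795 Crest.Agent.R298.Fl113

universe u

variable {S : Type u} {P : Spec S} {D : Set S}

/-- a walk of given total parity through `u`, when both parities are available after `u` -/
theorem both_after {x u : S} {f : Bool} (h : Op P D f x u)
    (h1 : ∃ v, Op P D true u v ∧ Bd P D v) (h2 : ∃ v, Op P D false u v ∧ Bd P D v) (g : Bool) :
    ∃ v, Op P D g x v ∧ Bd P D v := by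
  obtain ⟨v1, h1, b1⟩ := h1
  obtain ⟨v2, h2, b2⟩ := h2
  have k1 := h.trans h1
  have k2 := h.trans h2
  cases f <;> cases g
  · exact ⟨v1, by simpa using k1, b1⟩
  · exact ⟨v2, by simpa using k2, b2⟩
  · exact ⟨v2, by simpa using k2, b2⟩
  · exact ⟨v1, by simpa using k1, b1⟩

/-- **the walks of the tower** -/
theorem tower (h : FatW P D) :
    ∃ (u a b c y db dy : S) (e : Bool), P.rule a b c ∧ HS P u a ∧
      Op P D e u b ∧ Op P D e c u ∧ Op P D false b y ∧ Op P D false y b ∧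
      Op P D false b db ∧ Bd P D db ∧ Op P D false y dy ∧ Bd P D dy := by
  obtain ⟨u, a, b, c, r, hs, ⟨e1, al⟩, ⟨e2, xi⟩, ⟨x, y, z, f, g, r', hy, ux, zu⟩, hp, hm⟩ := h
  have bc : Op P D true b c := .cod r (.nil c)
  -- `b ~> u`
  have bu : Op P D e2 b u := by simpa using bc.trans xi
  by_cases ho : Op P D false b b
  · -- an odd closed walk at `b`
    obtain ⟨db, hdb, bdb⟩ := both_after bu hp hm false
    have al' : Op P D e2 u b := by
      have k := al.trans ho
      cases e1 <;> cases e2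
      · exact al
      · simpa using k
      · simpa using k
      · exact al
    exact ⟨u, a, b, c, b, db, db, e2, r, hs, al', xi, ho, ho, hdb, bdb, hdb, bdb⟩
  · -- every closed walk at `b` is even
    have he : e1 = e2 := by
      by_contra hne
      apply ho
      have k := bu.trans al
      cases e1 <;> cases e2 <;> simp_all
    subst he
    obtain ⟨db, hdb, bdb⟩ := both_after bu hp hm false
    have bx : Op P D (e1 == f) b x := bu.trans ux
    have zb : Op P D (g == e1) z b := zu.trans al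
    have xz : Op P D false x z := by simpa using Op.dom r' hy (.nil z)
    -- exactly one of the two halves is odd
    have key : ((e1 == f) = true ∧ (g == e1) = false) ∨ ((e1 == f) = false ∧ (g == e1) = true) := by
      have k := (bx.trans xz).trans zb
      generalize (e1 == f) = p at *
      generalize (g == e1) = q at *
      cases p <;> cases q <;> simp_all
    rcases key with ⟨k1, k2⟩ | ⟨k1, k2⟩
    · -- `y := z`
      rw [k1] at bx
      rw [k2] at zb
      have bz : Op P D false b z := by simpa using bx.trans xz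
      obtain ⟨dy, hdy, bdy⟩ := both_after (zb.trans bu) hp hm false
      exact ⟨u, a, b, c, z, db, dy, e1, r, hs, al, xi, bz, zb, hdb, bdb, hdy, bdy⟩
    · -- `y := x`
      rw [k1] at bx
      rw [k2] at zb
      have xb : Op P D false x b := by simpa using xz.trans zb
      obtain ⟨dy, hdy, bdy⟩ := both_after (xb.trans bu) hp hm false
      exact ⟨u, a, b, c, x, db, dy, e1, r, hs, al, xi, bx, xb, hdb, bdb, hdy, bdy⟩

end Crest.Agent.R298.FatW95
end

-- ▼ part R298/BaseF_734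
section

/-!
R298 (S0452), helper734 (with 525): the structure `Hen795.Base` for the atom extension, from
`Base525.exists_list_base` and `Pad734`.
-/

set_option autoImplicit false

namespace Crest.Agent.R298.BaseF734

open Crest.LogicCS.PTS Crest.LogicCS.PTS.Term Relation
open Crest.Agent.R298.Sub452 Crest.Agent.R298.Par452 Crest.Agent.R298.Ty452
open Crest.Agent.R298.TyF452 Crest.Agent.R298.TyP795 Crest.Agent.R298.Scc795
open Crest.Agent.R298.Pad734

universe u
variable {T : Type u}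

/-- **the base context, function form** -/
theorem exists_base [_root_.Finite T] (Q : Spec T) (D : Set T) (hD : IsScc Q D)
    (hax : ∀ s ∈ RS Q, ∃ t, Q.ax s t) (hwn : ∀ Γ M, Legal Q Γ M → WN M) :
    ∃ (B : Hen795.Base Q D) (R E e : T → ℕ),
      (∀ s, B.R s = var (R s)) ∧ (∀ s, B.E s = var (E s)) ∧ (∀ s, B.e s = var (e s)) := by
  obtain ⟨Γ, E, e, F, w, hE, he, hF, hc, hn⟩ := Base525.exists_list_base Q D hD hax hwn
  refine ⟨{
    D0 := pad Γ
    R := fun s => var (F s)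
    E := fun s => var (E s)
    e := fun s => var (e s)
    wf := wfP_pad w
    fin := dm_pad_finite Γ
    hR := fun s hs => typed_pad (var_wf (hF s hs) w)
    hE := fun s hs => typed_pad (var_wf (hE s hs) w)
    he := fun s hs => typed_pad (var_wf (he s hs) w)
    conv := ?_
    con := ?_ }, F, E, e, fun _ => rfl, fun _ => rfl, fun _ => rfl⟩
  · intro b hb b' hb'
    obtain ⟨C, hC⟩ := hc b hb b' hb'
    exact ⟨C, typed_pad hC⟩
  · rintro b hb ⟨M, hM⟩
    exact hn b (Hen795.bs_rs hb) ⟨M, typed_of_pad hM w⟩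



end Crest.Agent.R298.BaseF734
end

-- ▼ part R298/FatI_95
section

/-!
R298 (S0452), helper95: kinds with a leaf (`LK`), paths (`Path`) of 987 from the sort-level data
(`HS`, `RelS`, `Op`) of 113, and the whole record consumed by the tower from `FatW`.
-/

set_option autoImplicit false

namespace Crest.Agent.R298.FatI95

open Crest.LogicCS.PTS Crest.LogicCS.PTS.Term Relation
open Crest.Agent.R298.Sub452 Crest.Agent.R298.Par452 Crest.Agent.R298.Ty452
open Crest.Agent.R298.TyF452 Crest.Agent.R298.Tw987 Crest.Agent.R298.Fl113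
open Crest.Agent.R298.Scc795

universe u
variable {S : Type u} {P : Spec S} {Δ : ℕ → Term S}

/-! ### closed kinds with a leaf -/

theorem lft_wk (n : ℕ) (N : Term S) : ren (up (fun i => i + n)) (wk N) = lft (n + 1) N := by
  rw [ren_up_wk]
  exact wk_lft n N

/-- the sort itself -/
def LK.base {s t : S} (h : P.ax s t) : LK P Δ t s where
  N := sort s
  N_ty := .ax h
  inn _ K := K
  out _ G := G
  inn_ty _ h := h
  out_ty _ h := h
  inn_sub _ _ := rfl
  out_sub _ _ := rfl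
  out_eq _ _ _ h := h
  out_inn _ _ := .refl _

/-- one more (inert, inhabited) closed domain -/
def LK.up {s x y z : S} (F : LK P Δ y s) (h : P.rule x y z) {E e : Term S}
    (hE : TyF P Δ E (sort x)) (he : TyF P Δ e E) : LK P Δ z s where
  N := pi E (wk F.N)
  N_ty := .prod hE (tyf_wk F.N_ty E) h
  inn n K := lam (lft n E) (F.inn (n + 1) (wk K))
  out n G := F.out n (app G (lft n e))
  inn_ty := by
    intro n D K hD hK
    have e1 : lft n (pi E (wk F.N)) = pi (lft n E) (lft (n + 1) F.N) := by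
      rw [← lft_wk]; rfl
    have hN : TyF P D (pi (lft n E) (lft (n + 1) F.N)) (sort z) := by
      rw [← e1]
      exact hD.ty (P := P) (A := sort z) (.prod hE (tyf_wk F.N_ty E) h)
    rw [e1]
    exact .abs (F.inn_ty (hD.cons _) (tyf_wk hK _)) hN
  out_ty := by
    intro n D G hD hG
    have e1 : lft n (pi E (wk F.N)) = pi (lft n E) (lft (n + 1) F.N) := by
      rw [← lft_wk]; rfl
    rw [e1] at hG
    refine F.out_ty hD ?_
    have := TyF.appl hG (hD.ty he)
    rwa [← wk_lft, inst_wk] at this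
  inn_sub := by
    intro n m σ K hσ
    rw [sub_lam, hσ.lft, F.inn_sub _ hσ.ups, sub_wk]
  out_sub := by
    intro n m σ G hσ
    rw [F.out_sub _ hσ, sub_app, hσ.lft]
  out_eq := by
    intro n G G' hG
    exact F.out_eq n (BetaEq.app hG (.refl _))
  out_inn := by
    intro n K
    refine BetaEq.trans (F.out_eq n ?_) (F.out_inn n K)
    refine BetaEq.trans (.rel _ _ (beta_redex _ _ _)) ?_
    have e1 : inst (lft n e) (F.inn (n + 1) (wk K)) = F.inn n K := by
      rw [show inst (lft n e) (F.inn (n + 1) (wk K)) =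
        F.inn n (inst (lft n e) (wk K)) from F.inn_sub _ (Base.inst n _), inst_wk]
    rw [e1]
    exact .refl _

/-- closed inhabited types of all rule sorts -/
def Atoms (P : Spec S) (Δ : ℕ → Term S) : Prop :=
  ∀ a ∈ RS P, ∃ E e, TyF P Δ E (sort a) ∧ TyF P Δ e E

theorem rs_dom {a b c : S} (h : P.rule a b c) : a ∈ RS P := ⟨a, b, c, h, Or.inl rfl⟩

theorem exists_lk (hA : Atoms P Δ) {s t : S} (h : HS P s t) : Nonempty (LK P Δ t s) := by
  induction h with
  | base h => exact ⟨LK.base h⟩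
  | up r _ ih =>
      obtain ⟨F⟩ := ih
      obtain ⟨E, e, hE, he⟩ := hA _ (rs_dom r)
      exact ⟨LK.up F r hE he⟩

variable {L : Logic P Δ} {D : Set S}

/-- extension of a path by an upward walk -/
theorem extend (hA : Atoms P Δ) (hC : ∀ s ∈ D, Nonempty (Cv L s)) {x y : S} {e : Bool}
    (h : Op P D e x y) : ∀ {r : S} (w : Path L r x), ∃ w' : Path L r y, w'.odd = xor w.odd (!e) := by
  induction h with
  | nil x => intro r w; exact ⟨w, by simp⟩
  | cod hr _ ih =>
      intro r w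
      obtain ⟨E, e, hE, he⟩ := hA _ (rs_dom hr)
      obtain ⟨w', h'⟩ := ih (Path.cod w hr E e hE he)
      exact ⟨w', by simpa using h'⟩
  | @dom x b y z e hr hb _ ih =>
      intro r w
      obtain ⟨s, hs, hb⟩ := relS_iff.1 hb
      obtain ⟨F⟩ := exists_lk hA hb
      obtain ⟨C⟩ := hC s hs
      obtain ⟨w', h'⟩ := ih (Path.dom w hr F C)
      refine ⟨w', ?_⟩
      rw [h', Path.odd_dom]
      cases w.odd <;> cases e <;> rfl

/-- **paths from upward walks** -/
theorem exists_path (hA : Atoms P Δ) (hC : ∀ s ∈ D, Nonempty (Cv L s)) {x y : S} {e : Bool}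
    (h : Op P D e x y) : ∃ w : Path L x y, w.odd = !e := by
  obtain ⟨w, hw⟩ := extend hA hC h (Path.nil (L := L) (r := x))
  exact ⟨w, by simpa using hw⟩

/-- **the record of the tower** (987's `Fat`) as an existence statement -/
theorem exists_data (hA : Atoms P Δ) (hC : ∀ s ∈ D, Nonempty (Cv L s)) (h : FatW P D) :
    ∃ (u au b c y db dy : S) (_ : LK P Δ au u) (_ : P.rule au b c)
      (al : Path L u b) (xi : Path L c u) (p : Path L b y) (q : Path L y b)
      (hb : Path L b db) (hy : Path L y dy),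
      al.odd = xi.odd ∧ p.odd = true ∧ q.odd = true ∧ hb.odd = true ∧ hy.odd = true ∧
      Bd P D db ∧ Bd P D dy := by
  obtain ⟨u, a, b, c, y, db, dy, e, r, hs, al, xi, p, q, hb, bdb, hy, bdy⟩ := FatW95.tower h
  obtain ⟨F⟩ := exists_lk hA hs
  obtain ⟨al', h1⟩ := exists_path (L := L) hA hC al
  obtain ⟨xi', h2⟩ := exists_path (L := L) hA hC xi
  obtain ⟨p', h3⟩ := exists_path (L := L) hA hC p
  obtain ⟨q', h4⟩ := exists_path (L := L) hA hC q
  obtain ⟨hb', h5⟩ := exists_path (L := L) hA hC hb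
  obtain ⟨hy', h6⟩ := exists_path (L := L) hA hC hy
  exact ⟨u, a, b, c, y, db, dy, F, r, al', xi', p', q', hb', hy', by rw [h1, h2], h3, h4, h5, h6,
    bdb, bdy⟩

end Crest.Agent.R298.FatI95
end

-- ▼ part R298/BlkQ_705
section

/-!
R298 (S0452), part P, helper705: assembly of block (P) from the tower theorem.
-/

set_option autoImplicit false

namespace Crest.Agent.R298.BlkQ705

open Crest.LogicCS.PTS Crest.LogicCS.PTS.Term
open Crest.Agent.R298.Sub452 Crest.Agent.R298.TyF452 Crest.Agent.R298.Scc795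
open Crest.Agent.R298.Tw987

/-- the tower theorem -/
def Tower : Prop := ∀ (S : Type) (P : Spec S) (Δ : ℕ → Term S) (L : Logic P Δ)
  (u au b c y db dy : S) (_ : LK P Δ au u) (_ : P.rule au b c)
  (al : Path L u b) (xi : Path L c u) (p : Path L b y) (q : Path L y b)
  (hb : Path L b db) (hy : Path L y dy),
  al.odd = xi.odd → p.odd = true → q.odd = true → hb.odd = true → hy.odd = true →
  L.Bd db → L.Bd dy → False

theorem atoms {S : Type} {P : Spec S} {Dd : Set S} {R E e : S → Term S} {Δ : ℕ → Term S}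
    (H : LInst705.HenT P Dd R E e Δ) : FatI95.Atoms P Δ :=
  fun a ha => ⟨E a, e a, H.hE a ha, H.he a ha⟩

theorem blkQ (HT : Tower) (T : Type) [Finite T] (Q : Spec T) (D : Set T) (hD : IsScc Q D)
    (hB : Bipolar Q D) (hF : Fl113.FatW Q D) (hax : ∀ s ∈ RS Q, ∃ t, Q.ax s t)
    (hwn : ∀ Γ M, Legal Q Γ M → WN M) : False := by
  obtain ⟨B, -⟩ := BaseF734.exists_base Q D hD hax hwn
  obtain ⟨a₀, b₀, c₀, r₀, ha, hb, hc⟩ := not_unary hB.1
  have := Finite.to_countable (α := T)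
  obtain ⟨Δ, hΔ⟩ := Hen795.exists_henkin B ⟨a₀, hD.1 a₀ ha⟩
  have H := HenB705.henT hΔ
  obtain ⟨u, au, b, c, y, db, dy, A, r, al, xi, p, q, pb, py, h1, h2, h3, h4, h5, h6, h7⟩ :=
    FatI95.exists_data (L := LInst705.logic H hD hB.2 r₀ ha hb hc) (atoms H)
      (fun s hs => ⟨LInst705.cv H hD hB.2 r₀ ha hb hc hs⟩) hF
  exact HT T Q Δ _ u au b c y db dy A r al xi p q pb py h1 h2 h3 h4 h5 h6 h7

/-- block (P), walk form, from the tower theorem -/
theorem blockPW_of (HT : Tower) : Main865.BlockPW := by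
  intro n P D hS hD hb hf
  exact blkQ HT (Fin n ⊕ Fin n) (At734.Pp P) (PpT525.Dl D) (PpT525.isScc hD) (PpT525.bipolar hb)
    (PpT525.fatW hf) (fun s hs => PpT525.exists_ax hS.realized hs) (At734.wn_Pp hS.wn)

end Crest.Agent.R298.BlkQ705
end

-- ▼ part R298/Tw2_987
section

/-!
R298 (S0452), part P, helper987: the tower of doc 2233 (B) over a fat configuration of sorts
(`Fat L`) and the instance of the abstract paradox `HPar705.paradox`.
-/

set_option autoImplicit false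

namespace Crest.Agent.R298.Tw987

open Crest.LogicCS.PTS Crest.LogicCS.PTS.Term Relation
open Crest.Agent.R298.Sub452 Crest.Agent.R298.Par452 Crest.Agent.R298.Ty452
open Crest.Agent.R298.TyF452

universe u
variable {S : Type u} {P : Spec S} {Δ : ℕ → Term S}

theorem sub_scons_wk (N M : Term S) : sub (scons N var) (ren Nat.succ M) = M := inst_wk N M

theorem inst_def (N M : Term S) : inst N M = sub (scons N var) M := rfl

/-! ### derived connectives -/

namespace Logic
variable (L : Logic P Δ)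

def neg (n : ℕ) (X : Term S) : Term S := L.imp n X (L.bot n)
def and (n : ℕ) (X Y : Term S) : Term S := L.neg n (L.imp n X (L.neg n Y))
def iff (n : ℕ) (X Y : Term S) : Term S := L.and n (L.imp n X Y) (L.imp n Y X)
def ex (d : S) (n : ℕ) (K Z : Term S) : Term S := L.neg n (L.all d n K (L.neg (n + 1) Z))

section sub
variable {n m : ℕ} {σ : ℕ → Term S} (h : Base n m σ)
include h

theorem neg_sub (X : Term S) : sub σ (L.neg n X) = L.neg m (sub σ X) := by
  simp only [neg, L.imp_sub _ _ h, L.bot_sub h]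

theorem and_sub (X Y : Term S) : sub σ (L.and n X Y) = L.and m (sub σ X) (sub σ Y) := by
  simp only [and, L.neg_sub h, L.imp_sub _ _ h]

theorem iff_sub (X Y : Term S) : sub σ (L.iff n X Y) = L.iff m (sub σ X) (sub σ Y) := by
  simp only [iff, L.and_sub h, L.imp_sub _ _ h]

theorem ex_sub {d : S} (hd : L.Bd d) (K Z : Term S) :
    sub σ (L.ex d n K Z) = L.ex d m (sub σ K) (sub (ups σ) Z) := by
  simp only [ex, L.neg_sub h, L.all_sub _ _ hd h, L.neg_sub h.ups]
end sub

section ty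
variable {n : ℕ} {D : ℕ → Term S} {X Y : Term S} (hD : Ext Δ n D)
include hD

theorem neg_ty (hX : TyF P D X (sort L.o)) : TyF P D (L.neg n X) (sort L.o) :=
  L.imp_ty hD hX (L.bot_ty hD)
theorem and_ty (hX : TyF P D X (sort L.o)) (hY : TyF P D Y (sort L.o)) :
    TyF P D (L.and n X Y) (sort L.o) :=
  L.neg_ty hD (L.imp_ty hD hX (L.neg_ty hD hY))
theorem iff_ty (hX : TyF P D X (sort L.o)) (hY : TyF P D Y (sort L.o)) :
    TyF P D (L.iff n X Y) (sort L.o) :=
  L.and_ty hD (L.imp_ty hD hX hY) (L.imp_ty hD hY hX)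
theorem ex_ty {d : S} {K Z : Term S} (hd : L.Bd d) (hK : TyF P D K (sort d))
    (hZ : TyF P (fcons K D) Z (sort L.o)) : TyF P D (L.ex d n K Z) (sort L.o) :=
  L.neg_ty hD (L.all_ty hd hD hK (L.neg_ty (hD.cons K) hZ))
end ty

section tr
variable {X Y : Term S}

theorem neg_tr (hX : TyF P Δ X (sort L.o)) : L.Tr (L.neg 0 X) ↔ ¬ L.Tr X := by
  rw [neg, L.imp_tr hX (L.bot_ty (Ext.zero Δ))]
  exact ⟨fun h x => L.bot_tr (h x), fun h x => absurd x h⟩

theorem and_tr (hX : TyF P Δ X (sort L.o)) (hY : TyF P Δ Y (sort L.o)) :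
    L.Tr (L.and 0 X Y) ↔ (L.Tr X ∧ L.Tr Y) := by
  have z := Ext.zero Δ
  rw [and, L.neg_tr (L.imp_ty z hX (L.neg_ty z hY)), L.imp_tr hX (L.neg_ty z hY), L.neg_tr hY]
  tauto

theorem iff_tr (hX : TyF P Δ X (sort L.o)) (hY : TyF P Δ Y (sort L.o)) :
    L.Tr (L.iff 0 X Y) ↔ (L.Tr X ↔ L.Tr Y) := by
  have z := Ext.zero Δ
  rw [iff, L.and_tr (L.imp_ty z hX hY) (L.imp_ty z hY hX), L.imp_tr hX hY, L.imp_tr hY hX]
  tauto

theorem ex_tr {d : S} {K Z : Term S} (hd : L.Bd d) (hK : TyF P Δ K (sort d))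
    (hZ : TyF P (fcons K Δ) Z (sort L.o)) :
    L.Tr (L.ex d 0 K Z) ↔ ∃ M, TyF P Δ M K ∧ L.Tr (inst M Z) := by
  have z := Ext.zero Δ
  have hn := L.neg_ty (z.cons K) hZ
  rw [ex, L.neg_tr (L.all_ty hd z hK hn), L.all_tr hd hK hn]
  push Not
  refine exists_congr fun M => ?_
  constructor
  · rintro ⟨hM, h⟩
    refine ⟨hM, ?_⟩
    rw [inst_def, L.neg_sub (Base.inst 0 M), L.neg_tr (tyf_inst' (B := sort L.o) hZ hM)] at h
    exact not_not.mp h
  · rintro ⟨hM, h⟩
    refine ⟨hM, ?_⟩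
    rw [inst_def, L.neg_sub (Base.inst 0 M), L.neg_tr (tyf_inst' (B := sort L.o) hZ hM)]
    exact not_not.mpr h
end tr

end Logic

/-! ### casts between odd wrappers of the same kind -/

section cast
variable {L : Logic P Δ} {r d y : S}

/-- cast `h.Om K → p.Om K` -/
def cst (h : Path L r d) (p : Path L r y) (n : ℕ) (K G : Term S) : Term S :=
  p.comp n K (h.test (n + 1) (wk K) (wk G) (var 0))

theorem cst_sub {h : Path L r d} {p : Path L r y} (hh : h.odd = true) (hp : p.odd = true)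
    {n m : ℕ} {σ : ℕ → Term S} (hs : Base n m σ) (K G : Term S) :
    sub σ (cst h p n K G) = cst h p m (sub σ K) (sub σ G) := by
  simp only [cst, p.comp_sub hs, hp, dsub_true, h.test_sub hs.ups, hh, Bool.not_true, dsub_false,
    sub_wk, sub_var, ups_zero]

theorem cst_ty {h : Path L r d} {p : Path L r y} (hh : h.odd = true) (hp : p.odd = true)
    {n : ℕ} {D : ℕ → Term S} {K G : Term S} (hD : Ext Δ n D) (hK : TyF P D K (sort r))
    (hG : TyF P D G (h.Om n K)) : TyF P D (cst h p n K G) (p.Om n K) := by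
  refine p.comp_ty hD hK ?_
  rw [hp]
  refine h.test_ty (hD.cons K) (tyf_wk hK K) ?_ ?_
  · rw [← Path.Om_wk]
    exact tyf_wk hG K
  · rw [hh]
    exact TyF.var (D := fcons K D) (i := 0) (tyf_wk hK _)

theorem cst_law {h : Path L r d} {p : Path L r y} (hh : h.odd = true) (hp : p.odd = true)
    {K G k : Term S} (hK : TyF P Δ K (sort r)) (hG : TyF P Δ G (h.Om 0 K)) (hk : TyF P Δ k K) :
    L.Tr (p.test 0 K (cst h p 0 K G) k) ↔ L.Tr (h.test 0 K G k) := by
  have hD := Ext.zero Δ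
  have h1 : DOk L p.odd Δ K (h.test (0 + 1) (wk K) (wk G) (var 0)) := by
    rw [hp]
    refine h.test_ty (hD.cons K) (tyf_wk hK K) ?_ ?_
    · rw [← Path.Om_wk]
      exact tyf_wk hG K
    · rw [hh]
      exact TyF.var (D := fcons K Δ) (i := 0) (tyf_wk hK _)
  have h2 : DOk L (!p.odd) Δ K k := by rw [hp]; exact hk
  rw [cst, p.law hK h1 h2, hp, pair_true, inst_def, h.test_sub (Base.inst 0 k), hh]
  simp only [Bool.not_true, dsub_false, sub_scons_wk, sub_var, scons_zero]

end cast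

/-! ### the tower -/

structure Fat (L : Logic P Δ) where
  u : S
  au : S
  b : S
  c : S
  y : S
  db : S
  dy : S
  A : LK P Δ au u
  hV : P.rule au b c
  al : Path L u b
  xi : Path L c u
  par : al.odd = xi.odd
  p : Path L b y
  hp : p.odd = true
  q : Path L y b
  hq : q.odd = true
  hb : Path L b db
  hbo : hb.odd = true
  bdb : L.Bd db
  hy : Path L y dy
  hyo : hy.odd = true
  bdy : L.Bd dy

namespace Fat
variable {L : Logic P Δ} (F : Fat L)

def B (n : ℕ) (X : Term S) : Term S := F.al.Om n (F.A.out n X)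
def C0 (n : ℕ) (X : Term S) : Term S := F.hb.Om n (F.B n X)
def C0y (n : ℕ) (X : Term S) : Term S := F.p.Om n (F.B n X)
def C1 (n : ℕ) (X : Term S) : Term S := F.hy.Om n (F.C0y n X)
def C1y (n : ℕ) (X : Term S) : Term S := F.q.Om n (F.C0y n X)
def C2 (n : ℕ) (X : Term S) : Term S := F.hb.Om n (F.C1y n X)
def C2y (n : ℕ) (X : Term S) : Term S := F.p.Om n (F.C1y n X)
def W3 (n : ℕ) (X : Term S) : Term S := F.q.Om n (F.C2y n X)
def V (n : ℕ) : Term S := pi (lft n F.A.N) (F.W3 (n + 1) (var 0))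
def A0 (n : ℕ) : Term S := F.A.inn n (F.xi.Om n (F.V n))

/-- even path from the sort of `V` to the sort of `B` -/
def xa : Path L F.c F.b := F.xi.append F.al

theorem xa_odd : F.xa.odd = false := by
  rw [xa, Path.append_odd, F.par]; simp

def s0 (n : ℕ) (X x : Term S) : Term S := cst F.hb F.p n (F.B n X) x
def s1 (n : ℕ) (X x : Term S) : Term S := cst F.hy F.q n (F.C0y n X) x
def s2 (n : ℕ) (X x : Term S) : Term S := cst F.hb F.p n (F.C1y n X) x
def m1 (n : ℕ) (X G x : Term S) : Term S := F.q.test n (F.C0y n X) G x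
def m2 (n : ℕ) (X G x : Term S) : Term S := F.p.test n (F.C1y n X) G x
def m3 (n : ℕ) (X G x : Term S) : Term S := F.q.test n (F.C2y n X) G x

def le (n : ℕ) (X Z Z' : Term S) : Term S :=
  L.all F.db n (F.C0 n X) (L.imp (n + 1)
    (F.m1 (n + 1) (wk X) (wk Z) (F.s0 (n + 1) (wk X) (var 0)))
    (F.m1 (n + 1) (wk X) (wk Z') (F.s0 (n + 1) (wk X) (var 0))))

def child (n : ℕ) (X T Z T' : Term S) : Term S :=
  L.all F.dy n (F.C1 n X) (L.iff (n + 1)
    (F.m2 (n + 1) (wk X) (wk T') (F.s1 (n + 1) (wk X) (var 0)))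
    (L.and (n + 1) (F.m2 (n + 1) (wk X) (wk T) (F.s1 (n + 1) (wk X) (var 0)))
      (L.and (n + 1) (F.le (n + 1) (wk X) (F.s1 (n + 1) (wk X) (var 0)) (wk Z))
        (L.neg (n + 1) (F.le (n + 1) (wk X) (wk Z) (F.s1 (n + 1) (wk X) (var 0)))))))

/-- `code(X, T) : C0 (A0)` for `T : C2y X` -/
def code (n : ℕ) (X T : Term S) : Term S :=
  F.hb.comp n (F.B n (F.A0 n)) (F.xa.test (n + 1) (F.V (n + 1)) (var 0)
    (F.m3 (n + 2) (wk (wk X)) (app (var 0) (wk (wk X))) (wk (wk T))))

def ccode (n : ℕ) (X T : Term S) : Term S := F.s0 n (F.A0 n) (F.code n X T)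

def eqc (n : ℕ) (a w : Term S) : Term S :=
  L.all F.dy n (F.C1 n (F.A0 n)) (L.imp (n + 1)
    (F.m1 (n + 1) (F.A0 (n + 1)) (F.s1 (n + 1) (F.A0 (n + 1)) (var 0)) (wk a))
    (F.m1 (n + 1) (F.A0 (n + 1)) (F.s1 (n + 1) (F.A0 (n + 1)) (var 0)) (wk w)))

/-- the inner part of `Phi` -/
def Psi (n : ℕ) (X T Z w : Term S) : Term S :=
  L.ex F.db n (F.C2 n X) (L.and (n + 1)
    (F.child (n + 1) (wk X) (wk T) (wk Z) (F.s2 (n + 1) (wk X) (var 0)))
    (F.eqc (n + 1) (F.ccode (n + 1) (wk X) (F.s2 (n + 1) (wk X) (var 0))) (wk w)))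

def Phi (n : ℕ) (X T w : Term S) : Term S :=
  L.ex F.dy n (F.C1 n X) (L.and (n + 1)
    (F.m2 (n + 1) (wk X) (wk T) (F.s1 (n + 1) (wk X) (var 0)))
    (F.Psi (n + 1) (wk X) (wk T) (F.s1 (n + 1) (wk X) (var 0)) (wk w)))

def Fw (n : ℕ) (w : Term S) : Term S :=
  lam (lft n F.A.N) (F.q.comp (n + 1) (F.C2y (n + 1) (var 0))
    (F.Phi (n + 2) (var 1) (var 0) (wk (wk w))))

def E (n : ℕ) (w v : Term S) : Term S :=
  F.p.test n (F.B n (F.A0 n)) v (F.xa.comp n (F.V n) (F.Fw n w))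

/-! #### commutation with substitutions -/

section sub
variable {n m : ℕ} {σ : ℕ → Term S} (h : Base n m σ)
include h

theorem B_sub (X : Term S) : sub σ (F.B n X) = F.B m (sub σ X) := by
  simp only [B, Path.Om_sub _ h, F.A.out_sub _ h]
theorem C0_sub (X : Term S) : sub σ (F.C0 n X) = F.C0 m (sub σ X) := by
  simp only [C0, Path.Om_sub _ h, F.B_sub h]
theorem C0y_sub (X : Term S) : sub σ (F.C0y n X) = F.C0y m (sub σ X) := by
  simp only [C0y, Path.Om_sub _ h, F.B_sub h]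
theorem C1_sub (X : Term S) : sub σ (F.C1 n X) = F.C1 m (sub σ X) := by
  simp only [C1, Path.Om_sub _ h, F.C0y_sub h]
theorem C1y_sub (X : Term S) : sub σ (F.C1y n X) = F.C1y m (sub σ X) := by
  simp only [C1y, Path.Om_sub _ h, F.C0y_sub h]
theorem C2_sub (X : Term S) : sub σ (F.C2 n X) = F.C2 m (sub σ X) := by
  simp only [C2, Path.Om_sub _ h, F.C1y_sub h]
theorem C2y_sub (X : Term S) : sub σ (F.C2y n X) = F.C2y m (sub σ X) := by
  simp only [C2y, Path.Om_sub _ h, F.C1y_sub h]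
theorem W3_sub (X : Term S) : sub σ (F.W3 n X) = F.W3 m (sub σ X) := by
  simp only [W3, Path.Om_sub _ h, F.C2y_sub h]
theorem V_sub : sub σ (F.V n) = F.V m := by
  simp only [V, sub_pi, h.lft, F.W3_sub h.ups, sub_var, ups_zero]
theorem A0_sub : sub σ (F.A0 n) = F.A0 m := by
  simp only [A0, F.A.inn_sub _ h, Path.Om_sub _ h, F.V_sub h]
theorem s0_sub (X x : Term S) : sub σ (F.s0 n X x) = F.s0 m (sub σ X) (sub σ x) := by
  simp only [s0, cst_sub F.hbo F.hp h, F.B_sub h]
theorem s1_sub (X x : Term S) : sub σ (F.s1 n X x) = F.s1 m (sub σ X) (sub σ x) := by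
  simp only [s1, cst_sub F.hyo F.hq h, F.C0y_sub h]
theorem s2_sub (X x : Term S) : sub σ (F.s2 n X x) = F.s2 m (sub σ X) (sub σ x) := by
  simp only [s2, cst_sub F.hbo F.hp h, F.C1y_sub h]
theorem m1_sub (X G x : Term S) :
    sub σ (F.m1 n X G x) = F.m1 m (sub σ X) (sub σ G) (sub σ x) := by
  simp only [m1, Path.test_sub _ h, F.C0y_sub h, F.hq, Bool.not_true, dsub_false]
theorem m2_sub (X G x : Term S) :
    sub σ (F.m2 n X G x) = F.m2 m (sub σ X) (sub σ G) (sub σ x) := by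
  simp only [m2, Path.test_sub _ h, F.C1y_sub h, F.hp, Bool.not_true, dsub_false]
theorem m3_sub (X G x : Term S) :
    sub σ (F.m3 n X G x) = F.m3 m (sub σ X) (sub σ G) (sub σ x) := by
  simp only [m3, Path.test_sub _ h, F.C2y_sub h, F.hq, Bool.not_true, dsub_false]
theorem le_sub (X Z Z' : Term S) :
    sub σ (F.le n X Z Z') = F.le m (sub σ X) (sub σ Z) (sub σ Z') := by
  simp only [le, L.all_sub _ _ F.bdb h, F.C0_sub h, L.imp_sub _ _ h.ups, F.m1_sub h.ups,
    F.s0_sub h.ups, sub_wk, sub_var, ups_zero]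
theorem child_sub (X T Z T' : Term S) :
    sub σ (F.child n X T Z T') = F.child m (sub σ X) (sub σ T) (sub σ Z) (sub σ T') := by
  simp only [child, L.all_sub _ _ F.bdy h, F.C1_sub h, L.iff_sub h.ups, L.and_sub h.ups,
    L.neg_sub h.ups, F.le_sub h.ups, F.m2_sub h.ups, F.s1_sub h.ups, sub_wk, sub_var, ups_zero]
theorem code_sub (X T : Term S) :
    sub σ (F.code n X T) = F.code m (sub σ X) (sub σ T) := by
  simp only [code, Path.comp_sub _ h, F.B_sub h, F.A0_sub h, F.hbo, dsub_true,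
    Path.test_sub _ h.ups, F.V_sub h.ups, F.xa_odd, Bool.not_false, F.m3_sub h.ups.ups,
    sub_app, sub_wk, sub_var, ups_zero]
theorem ccode_sub (X T : Term S) :
    sub σ (F.ccode n X T) = F.ccode m (sub σ X) (sub σ T) := by
  simp only [ccode, F.s0_sub h, F.A0_sub h, F.code_sub h]
theorem eqc_sub (a w : Term S) :
    sub σ (F.eqc n a w) = F.eqc m (sub σ a) (sub σ w) := by
  simp only [eqc, L.all_sub _ _ F.bdy h, F.C1_sub h, F.A0_sub h, L.imp_sub _ _ h.ups,
    F.m1_sub h.ups, F.A0_sub h.ups, F.s1_sub h.ups, sub_wk, sub_var, ups_zero]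
theorem Psi_sub (X T Z w : Term S) :
    sub σ (F.Psi n X T Z w) = F.Psi m (sub σ X) (sub σ T) (sub σ Z) (sub σ w) := by
  simp only [Psi, L.ex_sub h F.bdb, F.C2_sub h, L.and_sub h.ups, F.child_sub h.ups,
    F.s2_sub h.ups, F.eqc_sub h.ups, F.ccode_sub h.ups, sub_wk, sub_var, ups_zero]
theorem Phi_sub (X T w : Term S) :
    sub σ (F.Phi n X T w) = F.Phi m (sub σ X) (sub σ T) (sub σ w) := by
  simp only [Phi, L.ex_sub h F.bdy, F.C1_sub h, L.and_sub h.ups, F.m2_sub h.ups,
    F.s1_sub h.ups, F.Psi_sub h.ups, sub_wk, sub_var, ups_zero]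
theorem Fw_sub (w : Term S) : sub σ (F.Fw n w) = F.Fw m (sub σ w) := by
  simp only [Fw, sub_lam, h.lft, Path.comp_sub _ h.ups, F.C2y_sub h.ups, F.hq, dsub_true,
    F.Phi_sub h.ups.ups, sub_wk, sub_var, ups_zero]
  rfl
theorem E_sub (w v : Term S) : sub σ (F.E n w v) = F.E m (sub σ w) (sub σ v) := by
  simp only [E, Path.test_sub _ h, F.B_sub h, F.A0_sub h, F.hp, Bool.not_true, dsub_false,
    Path.comp_sub _ h, F.V_sub h, F.xa_odd, F.Fw_sub h]
end sub

theorem wk_of {f : ℕ → Term S → Term S}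
    (h : ∀ {n m : ℕ} {σ : ℕ → Term S}, Base n m σ → ∀ X, sub σ (f n X) = f m (sub σ X))
    (n : ℕ) (X : Term S) : wk (f n X) = f (n + 1) (wk X) := by
  rw [wk_sub, wk_sub, h (Base.succ n)]

theorem B_wk (n : ℕ) (X : Term S) : wk (F.B n X) = F.B (n + 1) (wk X) := wk_of F.B_sub n X
theorem C0_wk (n : ℕ) (X : Term S) : wk (F.C0 n X) = F.C0 (n + 1) (wk X) := wk_of F.C0_sub n X
theorem C0y_wk (n : ℕ) (X : Term S) : wk (F.C0y n X) = F.C0y (n + 1) (wk X) :=
  wk_of F.C0y_sub n X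
theorem C1_wk (n : ℕ) (X : Term S) : wk (F.C1 n X) = F.C1 (n + 1) (wk X) := wk_of F.C1_sub n X
theorem C1y_wk (n : ℕ) (X : Term S) : wk (F.C1y n X) = F.C1y (n + 1) (wk X) :=
  wk_of F.C1y_sub n X
theorem C2_wk (n : ℕ) (X : Term S) : wk (F.C2 n X) = F.C2 (n + 1) (wk X) := wk_of F.C2_sub n X
theorem C2y_wk (n : ℕ) (X : Term S) : wk (F.C2y n X) = F.C2y (n + 1) (wk X) :=
  wk_of F.C2y_sub n X
theorem V_wk (n : ℕ) : wk (F.V n) = F.V (n + 1) := by
  rw [wk_sub, F.V_sub (Base.succ n)]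
theorem A0_wk (n : ℕ) : wk (F.A0 n) = F.A0 (n + 1) := by
  rw [wk_sub, F.A0_sub (Base.succ n)]

/-! #### typing -/

theorem var0 {D : ℕ → Term S} {K : Term S} {s : S} (h : TyF P D K (sort s)) :
    TyF P (fcons K D) (var 0) (wk K) :=
  TyF.var (D := fcons K D) (i := 0) (tyf_wk h _)

section ty
variable {n : ℕ} {D : ℕ → Term S} (hD : Ext Δ n D)
include hD

section X
variable {X : Term S} (hX : TyF P D X (lft n F.A.N))
include hX

theorem B_ty : TyF P D (F.B n X) (sort F.b) := F.al.Om_ty hD (F.A.out_ty hD hX)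
theorem C0_ty : TyF P D (F.C0 n X) (sort F.db) := F.hb.Om_ty hD (F.B_ty hD hX)
theorem C0y_ty : TyF P D (F.C0y n X) (sort F.y) := F.p.Om_ty hD (F.B_ty hD hX)
theorem C1_ty : TyF P D (F.C1 n X) (sort F.dy) := F.hy.Om_ty hD (F.C0y_ty hD hX)
theorem C1y_ty : TyF P D (F.C1y n X) (sort F.b) := F.q.Om_ty hD (F.C0y_ty hD hX)
theorem C2_ty : TyF P D (F.C2 n X) (sort F.db) := F.hb.Om_ty hD (F.C1y_ty hD hX)
theorem C2y_ty : TyF P D (F.C2y n X) (sort F.y) := F.p.Om_ty hD (F.C1y_ty hD hX)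
theorem W3_ty : TyF P D (F.W3 n X) (sort F.b) := F.q.Om_ty hD (F.C2y_ty hD hX)

theorem s0_ty {x : Term S} (hx : TyF P D x (F.C0 n X)) : TyF P D (F.s0 n X x) (F.C0y n X) :=
  cst_ty F.hbo F.hp hD (F.B_ty hD hX) hx
theorem s1_ty {x : Term S} (hx : TyF P D x (F.C1 n X)) : TyF P D (F.s1 n X x) (F.C1y n X) :=
  cst_ty F.hyo F.hq hD (F.C0y_ty hD hX) hx
theorem s2_ty {x : Term S} (hx : TyF P D x (F.C2 n X)) : TyF P D (F.s2 n X x) (F.C2y n X) :=
  cst_ty F.hbo F.hp hD (F.C1y_ty hD hX) hx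
theorem m1_ty {G x : Term S} (hG : TyF P D G (F.C1y n X)) (hx : TyF P D x (F.C0y n X)) :
    TyF P D (F.m1 n X G x) (sort L.o) :=
  F.q.test_ty hD (F.C0y_ty hD hX) hG (by rw [F.hq]; exact hx)
theorem m2_ty {G x : Term S} (hG : TyF P D G (F.C2y n X)) (hx : TyF P D x (F.C1y n X)) :
    TyF P D (F.m2 n X G x) (sort L.o) :=
  F.p.test_ty hD (F.C1y_ty hD hX) hG (by rw [F.hp]; exact hx)
theorem m3_ty {G x : Term S} (hG : TyF P D G (F.W3 n X)) (hx : TyF P D x (F.C2y n X)) :
    TyF P D (F.m3 n X G x) (sort L.o) :=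
  F.q.test_ty hD (F.C2y_ty hD hX) hG (by rw [F.hq]; exact hx)

omit hD in
theorem X_wk (K : Term S) : TyF P (fcons K D) (wk X) (lft (n + 1) F.A.N) := by
  rw [← wk_lft]; exact tyf_wk hX K

theorem le_ty {Z Z' : Term S} (hZ : TyF P D Z (F.C1y n X)) (hZ' : TyF P D Z' (F.C1y n X)) :
    TyF P D (F.le n X Z Z') (sort L.o) := by
  have hK := F.C0_ty hD hX
  have hX' := F.X_wk hX (F.C0 n X)
  have hD' := hD.cons (F.C0 n X)
  have hx := F.s0_ty hD' hX' (x := var 0) (by rw [← F.C0_wk]; exact var0 hK)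
  refine L.all_ty F.bdb hD hK (L.imp_ty hD' (F.m1_ty hD' hX' ?_ hx) (F.m1_ty hD' hX' ?_ hx))
  · rw [← F.C1y_wk]; exact tyf_wk hZ _
  · rw [← F.C1y_wk]; exact tyf_wk hZ' _

theorem child_ty {T Z T' : Term S} (hT : TyF P D T (F.C2y n X)) (hZ : TyF P D Z (F.C1y n X))
    (hT' : TyF P D T' (F.C2y n X)) : TyF P D (F.child n X T Z T') (sort L.o) := by
  have hK := F.C1_ty hD hX
  have hX' := F.X_wk hX (F.C1 n X)
  have hD' := hD.cons (F.C1 n X)
  have hx := F.s1_ty hD' hX' (x := var 0) (by rw [← F.C1_wk]; exact var0 hK)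
  have wT : TyF P (fcons (F.C1 n X) D) (wk T) (F.C2y (n + 1) (wk X)) := by
    rw [← F.C2y_wk]; exact tyf_wk hT _
  have wT' : TyF P (fcons (F.C1 n X) D) (wk T') (F.C2y (n + 1) (wk X)) := by
    rw [← F.C2y_wk]; exact tyf_wk hT' _
  have wZ : TyF P (fcons (F.C1 n X) D) (wk Z) (F.C1y (n + 1) (wk X)) := by
    rw [← F.C1y_wk]; exact tyf_wk hZ _
  exact L.all_ty F.bdy hD hK (L.iff_ty hD' (F.m2_ty hD' hX' wT' hx)
    (L.and_ty hD' (F.m2_ty hD' hX' wT hx) (L.and_ty hD' (F.le_ty hD' hX' hx wZ)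
      (L.neg_ty hD' (F.le_ty hD' hX' wZ hx)))))

end X

theorem V_ty : TyF P D (F.V n) (sort F.c) := by
  have hN := hD.ty F.A.N_ty
  refine .prod hN (F.W3_ty (hD.cons _) ?_) F.hV
  rw [← wk_lft]
  exact var0 hN

theorem A0_ty : TyF P D (F.A0 n) (lft n F.A.N) := F.A.inn_ty hD (F.xi.Om_ty hD (F.V_ty hD))

omit hD in
theorem B_eq (n : ℕ) : BetaEq (F.B n (F.A0 n)) (F.xa.Om n (F.V n)) := by
  rw [xa, Path.append_Om]
  exact F.al.Om_eq n (F.A.out_inn n _)

theorem xaV_ty : TyF P D (F.xa.Om n (F.V n)) (sort F.b) := F.xa.Om_ty hD (F.V_ty hD)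

/-- the data of `code` -/
theorem codeD_ty {X T : Term S} (hX : TyF P D X (lft n F.A.N)) (hT : TyF P D T (F.C2y n X)) :
    TyF P (fcons (F.V n) D) (F.m3 (n + 1) (wk X) (app (var 0) (wk X)) (wk T)) (sort L.o) := by
  have hV := F.V_ty hD
  have hD' := hD.cons (F.V n)
  have hX' := F.X_wk hX (F.V n)
  refine F.m3_ty hD' hX' ?_ (by rw [← F.C2y_wk]; exact tyf_wk hT _)
  have h0 : TyF P (fcons (F.V n) D) (var 0) (F.V (n + 1)) := by
    rw [← F.V_wk]; exact var0 hV
  have := TyF.appl (show TyF P (fcons (F.V n) D) (var 0)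
    (pi (lft (n + 1) F.A.N) (F.W3 (n + 1 + 1) (var 0))) from h0) hX'
  rw [inst_def, F.W3_sub (Base.inst _ _)] at this
  exact this

theorem code_ty {X T : Term S} (hX : TyF P D X (lft n F.A.N)) (hT : TyF P D T (F.C2y n X)) :
    TyF P D (F.code n X T) (F.C0 n (F.A0 n)) := by
  have hB := F.B_ty hD (F.A0_ty hD)
  refine F.hb.comp_ty hD hB ?_
  rw [F.hbo]
  have hD' := hD.cons (F.B n (F.A0 n))
  refine F.xa.test_ty hD' (F.V_ty hD') ?_ ?_
  · refine .conv (var0 hB) (F.xaV_ty hD') ?_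
    rw [F.B_wk, F.A0_wk]
    exact F.B_eq _
  · rw [F.xa_odd]
    refine F.codeD_ty hD' (F.X_wk hX _) ?_
    rw [← F.C2y_wk]
    exact tyf_wk hT _

theorem ccode_ty {X T : Term S} (hX : TyF P D X (lft n F.A.N)) (hT : TyF P D T (F.C2y n X)) :
    TyF P D (F.ccode n X T) (F.C0y n (F.A0 n)) :=
  F.s0_ty hD (F.A0_ty hD) (F.code_ty hD hX hT)

theorem eqc_ty {a w : Term S} (ha : TyF P D a (F.C0y n (F.A0 n)))
    (hw : TyF P D w (F.C0y n (F.A0 n))) : TyF P D (F.eqc n a w) (sort L.o) := by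
  have hA := F.A0_ty hD
  have hK := F.C1_ty hD hA
  have hD' := hD.cons (F.C1 n (F.A0 n))
  have hA' := F.A0_ty hD'
  have hx := F.s1_ty hD' hA' (x := var 0) (by rw [← F.A0_wk, ← F.C1_wk]; exact var0 hK)
  refine L.all_ty F.bdy hD hK (L.imp_ty hD' (F.m1_ty hD' hA' hx ?_) (F.m1_ty hD' hA' hx ?_))
  · rw [← F.A0_wk, ← F.C0y_wk]; exact tyf_wk ha _
  · rw [← F.A0_wk, ← F.C0y_wk]; exact tyf_wk hw _

theorem PsiD_ty {X T Z w : Term S} (hX : TyF P D X (lft n F.A.N)) (hT : TyF P D T (F.C2y n X))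
    (hZ : TyF P D Z (F.C1y n X)) (hw : TyF P D w (F.C0y n (F.A0 n))) :
    TyF P (fcons (F.C2 n X) D) (L.and (n + 1)
    (F.child (n + 1) (wk X) (wk T) (wk Z) (F.s2 (n + 1) (wk X) (var 0)))
    (F.eqc (n + 1) (F.ccode (n + 1) (wk X) (F.s2 (n + 1) (wk X) (var 0))) (wk w)))
      (sort L.o) := by
  have hK := F.C2_ty hD hX
  have hX' := F.X_wk hX (F.C2 n X)
  have hD' := hD.cons (F.C2 n X)
  have hx := F.s2_ty hD' hX' (x := var 0) (by rw [← F.C2_wk]; exact var0 hK)
  refine L.and_ty hD' (F.child_ty hD' hX' ?_ ?_ hx) (F.eqc_ty hD' (F.ccode_ty hD' hX' hx) ?_)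
  · rw [← F.C2y_wk]; exact tyf_wk hT _
  · rw [← F.C1y_wk]; exact tyf_wk hZ _
  · rw [← F.A0_wk, ← F.C0y_wk]; exact tyf_wk hw _

theorem Psi_ty {X T Z w : Term S} (hX : TyF P D X (lft n F.A.N)) (hT : TyF P D T (F.C2y n X))
    (hZ : TyF P D Z (F.C1y n X)) (hw : TyF P D w (F.C0y n (F.A0 n))) :
    TyF P D (F.Psi n X T Z w) (sort L.o) :=
  L.ex_ty hD F.bdb (F.C2_ty hD hX) (F.PsiD_ty hD hX hT hZ hw)

theorem PhiD_ty {X T w : Term S} (hX : TyF P D X (lft n F.A.N)) (hT : TyF P D T (F.C2y n X))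
    (hw : TyF P D w (F.C0y n (F.A0 n))) :
    TyF P (fcons (F.C1 n X) D) (L.and (n + 1)
    (F.m2 (n + 1) (wk X) (wk T) (F.s1 (n + 1) (wk X) (var 0)))
    (F.Psi (n + 1) (wk X) (wk T) (F.s1 (n + 1) (wk X) (var 0)) (wk w))) (sort L.o) := by
  have hK := F.C1_ty hD hX
  have hX' := F.X_wk hX (F.C1 n X)
  have hD' := hD.cons (F.C1 n X)
  have hx := F.s1_ty hD' hX' (x := var 0) (by rw [← F.C1_wk]; exact var0 hK)
  have wT : TyF P (fcons (F.C1 n X) D) (wk T) (F.C2y (n + 1) (wk X)) := by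
    rw [← F.C2y_wk]; exact tyf_wk hT _
  refine L.and_ty hD' (F.m2_ty hD' hX' wT hx) (F.Psi_ty hD' hX' wT hx ?_)
  rw [← F.A0_wk, ← F.C0y_wk]; exact tyf_wk hw _

theorem Phi_ty {X T w : Term S} (hX : TyF P D X (lft n F.A.N)) (hT : TyF P D T (F.C2y n X))
    (hw : TyF P D w (F.C0y n (F.A0 n))) : TyF P D (F.Phi n X T w) (sort L.o) :=
  L.ex_ty hD F.bdy (F.C1_ty hD hX) (F.PhiD_ty hD hX hT hw)

/-- the body of `Fw`, at `X` -/
theorem FwD_ty {X w : Term S} (hX : TyF P D X (lft n F.A.N))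
    (hw : TyF P D w (F.C0y n (F.A0 n))) :
    TyF P (fcons (F.C2y n X) D) (F.Phi (n + 1) (wk X) (var 0) (wk w)) (sort L.o) := by
  have hK := F.C2y_ty hD hX
  refine F.Phi_ty (hD.cons _) (F.X_wk hX _) ?_ ?_
  · rw [← F.C2y_wk]; exact var0 hK
  · rw [← F.A0_wk, ← F.C0y_wk]; exact tyf_wk hw _

theorem Fw_ty {w : Term S} (hw : TyF P D w (F.C0y n (F.A0 n))) :
    TyF P D (F.Fw n w) (F.V n) := by
  have hN := hD.ty F.A.N_ty
  have hD' := hD.cons (lft n F.A.N)
  have hX : TyF P (fcons (lft n F.A.N) D) (var 0) (lft (n + 1) F.A.N) := by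
    rw [← wk_lft]; exact var0 hN
  refine .abs ?_ (F.V_ty hD)
  refine F.q.comp_ty hD' (F.C2y_ty hD' hX) ?_
  rw [F.hq]
  refine F.FwD_ty hD' hX ?_
  rw [← F.A0_wk, ← F.C0y_wk]
  exact tyf_wk hw _

theorem pt_ty {w : Term S} (hw : TyF P D w (F.C0y n (F.A0 n))) :
    TyF P D (F.xa.comp n (F.V n) (F.Fw n w)) (F.B n (F.A0 n)) := by
  refine .conv (F.xa.comp_ty hD (F.V_ty hD) ?_) (F.B_ty hD (F.A0_ty hD)) (BetaEq.symm (F.B_eq n))
  rw [F.xa_odd]
  exact F.Fw_ty hD hw

theorem E_ty {w v : Term S} (hw : TyF P D w (F.C0y n (F.A0 n)))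
    (hv : TyF P D v (F.C0y n (F.A0 n))) : TyF P D (F.E n w v) (sort L.o) := by
  refine F.p.test_ty hD (F.B_ty hD (F.A0_ty hD)) hv ?_
  rw [F.hp]
  exact F.pt_ty hD hw

end ty

/-! #### the structure -/

/-- the Henkin structure -/
def str : HPar705.HStr.{u} where
  U := {M : Term S // TyF P Δ M (F.C0 0 (F.A0 0))}
  P := {M : Term S // TyF P Δ M (F.C1 0 (F.A0 0))}
  Q := {M : Term S // TyF P Δ M (F.C2 0 (F.A0 0))}
  m1 Z x := L.Tr (F.m1 0 (F.A0 0) (F.s1 0 (F.A0 0) Z.1) (F.s0 0 (F.A0 0) x.1))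
  m2 T Z := L.Tr (F.m2 0 (F.A0 0) (F.s2 0 (F.A0 0) T.1) (F.s1 0 (F.A0 0) Z.1))
  code T := ⟨F.code 0 (F.A0 0) (F.s2 0 (F.A0 0) T.1), F.code_ty (Ext.zero Δ)
    (F.A0_ty (Ext.zero Δ)) (F.s2_ty (Ext.zero Δ) (F.A0_ty (Ext.zero Δ)) T.2)⟩
  E w v := L.Tr (F.E 0 (F.s0 0 (F.A0 0) w.1) (F.s0 0 (F.A0 0) v.1))

end Fat

end Crest.Agent.R298.Tw987
end

-- ▼ part R298/Tw3_987

/-!
R298 (S0452), part P, helper987: the Henkin structure of the tower satisfies `Law0`, `Comp1`, `Comp2`;
hence `Fat L` is contradictory.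
-/

set_option autoImplicit false

namespace Crest.Agent.R298.Tw987

open Crest.LogicCS.PTS Crest.LogicCS.PTS.Term Relation
open Crest.Agent.R298.Sub452 Crest.Agent.R298.Par452 Crest.Agent.R298.Ty452
open Crest.Agent.R298.TyF452

universe u
variable {S : Type u} {P : Spec S} {Δ : ℕ → Term S}

namespace Fat
variable {L : Logic P Δ} (F : Fat L)

/-! #### truth of the closed formulas -/

section tr

theorem le_tr {X Z Z' : Term S} (hX : TyF P Δ X (lft 0 F.A.N)) (hZ : TyF P Δ Z (F.C1y 0 X))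
    (hZ' : TyF P Δ Z' (F.C1y 0 X)) : L.Tr (F.le 0 X Z Z') ↔ ∀ x, TyF P Δ x (F.C0 0 X) →
      L.Tr (F.m1 0 X Z (F.s0 0 X x)) → L.Tr (F.m1 0 X Z' (F.s0 0 X x)) := by
  have z := Ext.zero Δ
  have hK := F.C0_ty z hX
  have hX' := F.X_wk hX (F.C0 0 X)
  have hD' := z.cons (F.C0 0 X)
  have hx := F.s0_ty hD' hX' (x := var 0) (by rw [← F.C0_wk]; exact var0 hK)
  have a1 := F.m1_ty hD' hX' (G := wk Z) (by rw [← F.C1y_wk]; exact tyf_wk hZ _) hx
  have a2 := F.m1_ty hD' hX' (G := wk Z') (by rw [← F.C1y_wk]; exact tyf_wk hZ' _) hx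
  rw [le, L.all_tr F.bdb hK (L.imp_ty hD' a1 a2)]
  refine forall_congr' fun x => forall_congr' fun hx0 => ?_
  have hs := F.s0_ty z hX hx0
  simp only [L.imp_sub _ _ (Base.inst 0 x), F.m1_sub (Base.inst 0 x),
    F.s0_sub (Base.inst 0 x), sub_scons_wk, sub_var, scons_zero]
  exact L.imp_tr (F.m1_ty z hX hZ hs) (F.m1_ty z hX hZ' hs)

theorem child_tr {X T Z T' : Term S} (hX : TyF P Δ X (lft 0 F.A.N)) (hT : TyF P Δ T (F.C2y 0 X))
    (hZ : TyF P Δ Z (F.C1y 0 X)) (hT' : TyF P Δ T' (F.C2y 0 X)) :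
    L.Tr (F.child 0 X T Z T') ↔ ∀ x, TyF P Δ x (F.C1 0 X) →
      (L.Tr (F.m2 0 X T' (F.s1 0 X x)) ↔ (L.Tr (F.m2 0 X T (F.s1 0 X x)) ∧
        (L.Tr (F.le 0 X (F.s1 0 X x) Z) ∧ ¬ L.Tr (F.le 0 X Z (F.s1 0 X x))))) := by
  have z := Ext.zero Δ
  have hK := F.C1_ty z hX
  have hX' := F.X_wk hX (F.C1 0 X)
  have hD' := z.cons (F.C1 0 X)
  have hx := F.s1_ty hD' hX' (x := var 0) (by rw [← F.C1_wk]; exact var0 hK)
  have wT : TyF P (fcons (F.C1 0 X) Δ) (wk T) (F.C2y (0 + 1) (wk X)) := by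
    rw [← F.C2y_wk]; exact tyf_wk hT _
  have wT' : TyF P (fcons (F.C1 0 X) Δ) (wk T') (F.C2y (0 + 1) (wk X)) := by
    rw [← F.C2y_wk]; exact tyf_wk hT' _
  have wZ : TyF P (fcons (F.C1 0 X) Δ) (wk Z) (F.C1y (0 + 1) (wk X)) := by
    rw [← F.C1y_wk]; exact tyf_wk hZ _
  rw [child, L.all_tr F.bdy hK (L.iff_ty hD' (F.m2_ty hD' hX' wT' hx)
    (L.and_ty hD' (F.m2_ty hD' hX' wT hx) (L.and_ty hD' (F.le_ty hD' hX' hx wZ)
      (L.neg_ty hD' (F.le_ty hD' hX' wZ hx)))))]
  refine forall_congr' fun x => forall_congr' fun hx0 => ?_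
  have hs := F.s1_ty z hX hx0
  simp only [L.iff_sub (Base.inst 0 x), L.and_sub (Base.inst 0 x),
    L.neg_sub (Base.inst 0 x), F.m2_sub (Base.inst 0 x), F.le_sub (Base.inst 0 x),
    F.s1_sub (Base.inst 0 x), sub_scons_wk, sub_var, scons_zero]
  have l1 := F.le_ty z hX hs hZ
  have l2 := F.le_ty z hX hZ hs
  rw [L.iff_tr (F.m2_ty z hX hT' hs) (L.and_ty z (F.m2_ty z hX hT hs)
    (L.and_ty z l1 (L.neg_ty z l2))), L.and_tr (F.m2_ty z hX hT hs)
    (L.and_ty z l1 (L.neg_ty z l2)), L.and_tr l1 (L.neg_ty z l2), L.neg_tr l2]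

theorem eqc_tr {a w : Term S} (ha : TyF P Δ a (F.C0y 0 (F.A0 0)))
    (hw : TyF P Δ w (F.C0y 0 (F.A0 0))) : L.Tr (F.eqc 0 a w) ↔
      ∀ x, TyF P Δ x (F.C1 0 (F.A0 0)) →
        (L.Tr (F.m1 0 (F.A0 0) (F.s1 0 (F.A0 0) x) a) →
          L.Tr (F.m1 0 (F.A0 0) (F.s1 0 (F.A0 0) x) w)) := by
  have z := Ext.zero Δ
  have hA := F.A0_ty z
  have hK := F.C1_ty z hA
  have hD' := z.cons (F.C1 0 (F.A0 0))
  have hA' := F.A0_ty hD'
  have hx := F.s1_ty hD' hA' (x := var 0) (by rw [← F.A0_wk, ← F.C1_wk]; exact var0 hK)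
  have a1 := F.m1_ty hD' hA' hx (x := wk a) (by rw [← F.A0_wk, ← F.C0y_wk]; exact tyf_wk ha _)
  have a2 := F.m1_ty hD' hA' hx (x := wk w) (by rw [← F.A0_wk, ← F.C0y_wk]; exact tyf_wk hw _)
  rw [eqc, L.all_tr F.bdy hK (L.imp_ty hD' a1 a2)]
  refine forall_congr' fun x => forall_congr' fun hx0 => ?_
  have hs := F.s1_ty z hA hx0
  simp only [L.imp_sub _ _ (Base.inst 0 x), F.m1_sub (Base.inst 0 x),
    F.s1_sub (Base.inst 0 x), F.A0_sub (Base.inst 0 x), sub_scons_wk, sub_var, scons_zero]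
  exact L.imp_tr (F.m1_ty z hA hs ha) (F.m1_ty z hA hs hw)

theorem Psi_tr {X T Z w : Term S} (hX : TyF P Δ X (lft 0 F.A.N)) (hT : TyF P Δ T (F.C2y 0 X))
    (hZ : TyF P Δ Z (F.C1y 0 X)) (hw : TyF P Δ w (F.C0y 0 (F.A0 0))) :
    L.Tr (F.Psi 0 X T Z w) ↔ ∃ T', TyF P Δ T' (F.C2 0 X) ∧
      (L.Tr (F.child 0 X T Z (F.s2 0 X T')) ∧
        L.Tr (F.eqc 0 (F.ccode 0 X (F.s2 0 X T')) w)) := by
  have z := Ext.zero Δ
  rw [Psi, L.ex_tr F.bdb (F.C2_ty z hX) (F.PsiD_ty z hX hT hZ hw)]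
  refine exists_congr fun x => and_congr_right fun hx0 => ?_
  have hs := F.s2_ty z hX hx0
  simp only [L.and_sub (Base.inst 0 x), F.child_sub (Base.inst 0 x),
    F.eqc_sub (Base.inst 0 x), F.ccode_sub (Base.inst 0 x), F.s2_sub (Base.inst 0 x),
    sub_scons_wk, sub_var, scons_zero]
  exact L.and_tr (F.child_ty z hX hT hZ hs) (F.eqc_ty z (F.ccode_ty z hX hs) hw)

theorem Phi_tr {X T w : Term S} (hX : TyF P Δ X (lft 0 F.A.N)) (hT : TyF P Δ T (F.C2y 0 X))
    (hw : TyF P Δ w (F.C0y 0 (F.A0 0))) :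
    L.Tr (F.Phi 0 X T w) ↔ ∃ Z, TyF P Δ Z (F.C1 0 X) ∧
      (L.Tr (F.m2 0 X T (F.s1 0 X Z)) ∧ L.Tr (F.Psi 0 X T (F.s1 0 X Z) w)) := by
  have z := Ext.zero Δ
  rw [Phi, L.ex_tr F.bdy (F.C1_ty z hX) (F.PhiD_ty z hX hT hw)]
  refine exists_congr fun x => and_congr_right fun hx0 => ?_
  have hs := F.s1_ty z hX hx0
  simp only [L.and_sub (Base.inst 0 x), F.m2_sub (Base.inst 0 x),
    F.Psi_sub (Base.inst 0 x), F.s1_sub (Base.inst 0 x),
    sub_scons_wk, sub_var, scons_zero]
  exact L.and_tr (F.m2_ty z hX hT hs) (F.Psi_ty z hX hT hs hw)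

/-- the fundamental law: `E(w, code(X,T)) ↔ Phi(X,T,w)` -/
theorem E_code {X T w : Term S} (hX : TyF P Δ X (lft 0 F.A.N)) (hT : TyF P Δ T (F.C2y 0 X))
    (hw : TyF P Δ w (F.C0y 0 (F.A0 0))) :
    L.Tr (F.E 0 w (F.ccode 0 X T)) ↔ L.Tr (F.Phi 0 X T w) := by
  have z := Ext.zero Δ
  have hA := F.A0_ty z
  have hB := F.B_ty z hA
  have hc := F.code_ty z hX hT
  have hpt := F.pt_ty z hw
  have hF := F.Fw_ty z hw
  have hV := F.V_ty z
  -- the cast
  rw [E, ccode, s0, cst_law F.hbo F.hp hB hc hpt]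
  -- the law of `hb`
  have hD' := z.cons (F.B 0 (F.A0 0))
  have dat : DOk L F.hb.odd Δ (F.B 0 (F.A0 0)) (F.xa.test (0 + 1) (F.V (0 + 1)) (var 0)
      (F.m3 (0 + 2) (wk (wk X)) (app (var 0) (wk (wk X))) (wk (wk T)))) := by
    rw [F.hbo]
    refine F.xa.test_ty hD' (F.V_ty hD') ?_ ?_
    · refine .conv (var0 hB) (F.xaV_ty hD') ?_
      rw [F.B_wk, F.A0_wk]
      exact F.B_eq _
    · rw [F.xa_odd]
      refine F.codeD_ty hD' (F.X_wk hX _) ?_
      rw [← F.C2y_wk]
      exact tyf_wk hT _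
  rw [code, F.hb.law hB dat (by rw [F.hbo]; exact hpt), F.hbo, pair_true, inst_def,
    F.xa.test_sub (Base.inst 0 _), F.xa_odd, Bool.not_false, dsub_true,
    F.m3_sub (Base.inst 0 _).ups, F.V_sub (Base.inst 0 _)]
  simp only [sub_app, sub_wk, sub_scons_wk, sub_var, scons_zero, ups_zero]
  -- the law of `xa`
  rw [F.xa.law hV (by rw [F.xa_odd]; exact hF) (by rw [F.xa_odd]; exact F.codeD_ty z hX hT),
    F.xa_odd, pair_false, inst_def]
  simp only [F.m3_sub (Base.inst 0 _), sub_app, sub_scons_wk, sub_var, scons_zero]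
  -- `Fw` applied to `X`
  have d1 : DOk L F.q.odd Δ (F.C2y 0 X) (F.Phi (0 + 1) (wk X) (var 0) (wk w)) := by
    rw [F.hq]; exact F.FwD_ty z hX hw
  have hcq := F.q.comp_ty z (F.C2y_ty z hX) d1
  have e1 : BetaEq (app (F.Fw 0 w) X)
      (F.q.comp 0 (F.C2y 0 X) (F.Phi (0 + 1) (wk X) (var 0) (wk w))) := by
    refine BetaEq.trans (.rel _ _ (beta_redex _ _ _)) ?_
    rw [inst_def, F.q.comp_sub (Base.inst 0 X), F.C2y_sub (Base.inst 0 X), F.hq, dsub_true,
      F.Phi_sub (Base.inst 0 X).ups]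
    simp only [sub_wk, sub_scons_wk, sub_var, scons_zero, ups_zero]
    exact .refl _
  have hFX : TyF P Δ (app (F.Fw 0 w) X) (F.W3 0 X) := by
    have := TyF.appl (show TyF P Δ (F.Fw 0 w) (pi (lft 0 F.A.N) (F.W3 (0 + 1) (var 0))) from hF) hX
    rw [inst_def, F.W3_sub (Base.inst _ _)] at this
    exact this
  rw [L.conv (F.m3_ty z hX hFX hT) (F.m3_ty z hX hcq hT) (F.q.test_eq 0 _ _ e1), m3,
    F.q.law (F.C2y_ty z hX) d1 (by rw [F.hq]; exact hT), F.hq, pair_true, inst_def,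
    F.Phi_sub (Base.inst 0 T)]
  simp only [sub_scons_wk, sub_var, scons_zero]

end tr

/-! #### the law (0) -/

theorem le_iff (Z Z' : F.str.P) : HPar705.le F.str Z Z' ↔
    L.Tr (F.le 0 (F.A0 0) (F.s1 0 (F.A0 0) Z.1) (F.s1 0 (F.A0 0) Z'.1)) := by
  have z := Ext.zero Δ
  have hA := F.A0_ty z
  rw [F.le_tr hA (F.s1_ty z hA Z.2) (F.s1_ty z hA Z'.2)]
  exact ⟨fun h x hx => h ⟨x, hx⟩, fun h x => h x.1 x.2⟩

theorem isChild_iff (T : F.str.Q) (Z : F.str.P) (T' : F.str.Q) :
    HPar705.isChild F.str T Z T' ↔ L.Tr (F.child 0 (F.A0 0) (F.s2 0 (F.A0 0) T.1)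
      (F.s1 0 (F.A0 0) Z.1) (F.s2 0 (F.A0 0) T'.1)) := by
  have z := Ext.zero Δ
  have hA := F.A0_ty z
  rw [F.child_tr hA (F.s2_ty z hA T.2) (F.s1_ty z hA Z.2) (F.s2_ty z hA T'.2)]
  constructor
  · intro h x hx
    have := h ⟨x, hx⟩
    rw [F.le_iff, F.le_iff] at this
    exact this
  · intro h x
    rw [F.le_iff, F.le_iff]
    exact h x.1 x.2

theorem eqU_iff (a w : F.str.U) : HPar705.eqU F.str a w ↔
    L.Tr (F.eqc 0 (F.s0 0 (F.A0 0) a.1) (F.s0 0 (F.A0 0) w.1)) := by
  have z := Ext.zero Δ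
  have hA := F.A0_ty z
  rw [F.eqc_tr (F.s0_ty z hA a.2) (F.s0_ty z hA w.2)]
  exact ⟨fun h x hx => h ⟨x, hx⟩, fun h x => h x.1 x.2⟩

theorem law0 : HPar705.Law0 F.str := by
  intro w T
  have z := Ext.zero Δ
  have hA := F.A0_ty z
  have hT := F.s2_ty z hA T.2
  have hw := F.s0_ty z hA w.2
  show L.Tr (F.E 0 (F.s0 0 (F.A0 0) w.1) (F.ccode 0 (F.A0 0) (F.s2 0 (F.A0 0) T.1))) ↔ _
  rw [F.E_code hA hT hw, F.Phi_tr hA hT hw]
  constructor
  · rintro ⟨Z, hZ, h1, h2⟩
    rw [F.Psi_tr hA hT (F.s1_ty z hA hZ) hw] at h2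
    obtain ⟨T', hT', h3, h4⟩ := h2
    exact ⟨⟨Z, hZ⟩, h1, ⟨T', hT'⟩, (F.isChild_iff T ⟨Z, hZ⟩ ⟨T', hT'⟩).2 h3,
      (F.eqU_iff (F.str.code ⟨T', hT'⟩) w).2 h4⟩
  · rintro ⟨Z, h1, T', h3, h4⟩
    refine ⟨Z.1, Z.2, h1, ?_⟩
    rw [F.Psi_tr hA hT (F.s1_ty z hA Z.2) hw]
    exact ⟨T'.1, T'.2, (F.isChild_iff T Z T').1 h3, (F.eqU_iff (F.str.code T') w).1 h4⟩

/-! #### comprehension: translation of the formulas -/

/-- push on an environment of terms -/
def psh (t : Term S) (e : ℕ → Term S) : ℕ → Term S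
  | 0 => t
  | i + 1 => wk (e i)

/-- `U`-terms of the formulas -/
def tmY (n : ℕ) (eU eQ : ℕ → Term S) : HPar705.UT → Term S
  | .var i => eU i
  | .code j => F.ccode n (F.A0 n) (eQ j)

/-- translation of formulas -/
def trf : HPar705.Fm → ℕ → (ℕ → Term S) → (ℕ → Term S) → (ℕ → Term S) → Term S
  | .bot, n, _, _, _ => L.bot n
  | .imp a b, n, eU, eP, eQ => L.imp n (trf a n eU eP eQ) (trf b n eU eP eQ)
  | .allU a, n, eU, eP, eQ => L.all F.db n (F.C0 n (F.A0 n))
      (trf a (n + 1) (psh (F.s0 (n + 1) (F.A0 (n + 1)) (var 0)) eU) (fun i => wk (eP i))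
        (fun i => wk (eQ i)))
  | .allP a, n, eU, eP, eQ => L.all F.dy n (F.C1 n (F.A0 n))
      (trf a (n + 1) (fun i => wk (eU i)) (psh (F.s1 (n + 1) (F.A0 (n + 1)) (var 0)) eP)
        (fun i => wk (eQ i)))
  | .allQ a, n, eU, eP, eQ => L.all F.db n (F.C2 n (F.A0 n))
      (trf a (n + 1) (fun i => wk (eU i)) (fun i => wk (eP i))
        (psh (F.s2 (n + 1) (F.A0 (n + 1)) (var 0)) eQ))
  | .m1 i t, n, eU, eP, eQ => F.m1 n (F.A0 n) (eP i) (F.tmY n eU eQ t)
  | .m2 j i, n, _, eP, eQ => F.m2 n (F.A0 n) (eQ j) (eP i)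
  | .E s t, n, eU, _, eQ => F.E n (F.tmY n eU eQ s) (F.tmY n eU eQ t)

theorem tmY_sub {n m : ℕ} {σ : ℕ → Term S} (h : Base n m σ) (eU eQ : ℕ → Term S)
    (t : HPar705.UT) : sub σ (F.tmY n eU eQ t) =
      F.tmY m (fun i => sub σ (eU i)) (fun i => sub σ (eQ i)) t := by
  cases t with
  | var i => rfl
  | code j => simp only [tmY, F.ccode_sub h, F.A0_sub h]

theorem psh_sub {σ : ℕ → Term S} (t : Term S) (e : ℕ → Term S) :
    (fun i => sub (ups σ) (psh t e i)) = psh (sub (ups σ) t) (fun i => sub σ (e i)) := by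
  funext i
  cases i with
  | zero => rfl
  | succ i => exact sub_wk _ _

theorem trf_sub (f : HPar705.Fm) : ∀ {n m : ℕ} {σ : ℕ → Term S} (_ : Base n m σ)
    (eU eP eQ : ℕ → Term S), sub σ (F.trf f n eU eP eQ) =
      F.trf f m (fun i => sub σ (eU i)) (fun i => sub σ (eP i)) (fun i => sub σ (eQ i)) := by
  induction f with
  | bot => intro n m σ h eU eP eQ; exact L.bot_sub h
  | imp a b iha ihb =>
      intro n m σ h eU eP eQ
      rw [trf, trf, L.imp_sub _ _ h, iha h, ihb h]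
  | allU a ih =>
      intro n m σ h eU eP eQ
      rw [trf, trf, L.all_sub _ _ F.bdb h, ih h.ups, F.C0_sub h, F.A0_sub h, psh_sub,
        F.s0_sub h.ups, F.A0_sub h.ups]
      simp only [sub_wk, sub_var, ups_zero]
  | allP a ih =>
      intro n m σ h eU eP eQ
      rw [trf, trf, L.all_sub _ _ F.bdy h, ih h.ups, F.C1_sub h, F.A0_sub h, psh_sub,
        F.s1_sub h.ups, F.A0_sub h.ups]
      simp only [sub_wk, sub_var, ups_zero]
  | allQ a ih =>
      intro n m σ h eU eP eQ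
      rw [trf, trf, L.all_sub _ _ F.bdb h, ih h.ups, F.C2_sub h, F.A0_sub h, psh_sub,
        F.s2_sub h.ups, F.A0_sub h.ups]
      simp only [sub_wk, sub_var, ups_zero]
  | m1 i t =>
      intro n m σ h eU eP eQ
      rw [trf, trf, F.m1_sub h, F.A0_sub h, F.tmY_sub h]
  | m2 j i =>
      intro n m σ h eU eP eQ
      rw [trf, trf, F.m2_sub h, F.A0_sub h]
  | E s t =>
      intro n m σ h eU eP eQ
      rw [trf, trf, F.E_sub h, F.tmY_sub h, F.tmY_sub h]

/-- typed environments -/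
structure EOk (n : ℕ) (D : ℕ → Term S) (eU eP eQ : ℕ → Term S) : Prop where
  fU : ∀ i, TyF P D (eU i) (F.C0y n (F.A0 n))
  fP : ∀ i, TyF P D (eP i) (F.C1y n (F.A0 n))
  fQ : ∀ i, TyF P D (eQ i) (F.C2y n (F.A0 n))

theorem tmY_ty {n : ℕ} {D : ℕ → Term S} (hD : Ext Δ n D) {eU eP eQ : ℕ → Term S}
    (h : F.EOk n D eU eP eQ) (t : HPar705.UT) :
    TyF P D (F.tmY n eU eQ t) (F.C0y n (F.A0 n)) := by
  cases t with
  | var i => exact h.fU i
  | code j => exact F.ccode_ty hD (F.A0_ty hD) (h.fQ j)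

theorem wkU {n : ℕ} {D : ℕ → Term S} {t : Term S} (K : Term S)
    (h : TyF P D t (F.C0y n (F.A0 n))) :
    TyF P (fcons K D) (wk t) (F.C0y (n + 1) (F.A0 (n + 1))) := by
  rw [← F.A0_wk, ← F.C0y_wk]; exact tyf_wk h _
theorem wkP {n : ℕ} {D : ℕ → Term S} {t : Term S} (K : Term S)
    (h : TyF P D t (F.C1y n (F.A0 n))) :
    TyF P (fcons K D) (wk t) (F.C1y (n + 1) (F.A0 (n + 1))) := by
  rw [← F.A0_wk, ← F.C1y_wk]; exact tyf_wk h _
theorem wkQ {n : ℕ} {D : ℕ → Term S} {t : Term S} (K : Term S)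
    (h : TyF P D t (F.C2y n (F.A0 n))) :
    TyF P (fcons K D) (wk t) (F.C2y (n + 1) (F.A0 (n + 1))) := by
  rw [← F.A0_wk, ← F.C2y_wk]; exact tyf_wk h _

theorem EOk.pU {n : ℕ} {D : ℕ → Term S} {eU eP eQ : ℕ → Term S} (h : F.EOk n D eU eP eQ)
    (K : Term S) {t : Term S} (ht : TyF P (fcons K D) t (F.C0y (n + 1) (F.A0 (n + 1)))) :
    F.EOk (n + 1) (fcons K D) (psh t eU) (fun i => wk (eP i)) (fun i => wk (eQ i)) := by
  refine ⟨fun i => ?_, fun i => F.wkP K (h.fP i), fun i => F.wkQ K (h.fQ i)⟩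
  cases i with
  | zero => exact ht
  | succ i => exact F.wkU K (h.fU i)

theorem EOk.pP {n : ℕ} {D : ℕ → Term S} {eU eP eQ : ℕ → Term S} (h : F.EOk n D eU eP eQ)
    (K : Term S) {t : Term S} (ht : TyF P (fcons K D) t (F.C1y (n + 1) (F.A0 (n + 1)))) :
    F.EOk (n + 1) (fcons K D) (fun i => wk (eU i)) (psh t eP) (fun i => wk (eQ i)) := by
  refine ⟨fun i => F.wkU K (h.fU i), fun i => ?_, fun i => F.wkQ K (h.fQ i)⟩
  cases i with
  | zero => exact ht
  | succ i => exact F.wkP K (h.fP i)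

theorem EOk.pQ {n : ℕ} {D : ℕ → Term S} {eU eP eQ : ℕ → Term S} (h : F.EOk n D eU eP eQ)
    (K : Term S) {t : Term S} (ht : TyF P (fcons K D) t (F.C2y (n + 1) (F.A0 (n + 1)))) :
    F.EOk (n + 1) (fcons K D) (fun i => wk (eU i)) (fun i => wk (eP i)) (psh t eQ) := by
  refine ⟨fun i => F.wkU K (h.fU i), fun i => F.wkP K (h.fP i), fun i => ?_⟩
  cases i with
  | zero => exact ht
  | succ i => exact F.wkQ K (h.fQ i)

theorem s0v_ty {n : ℕ} {D : ℕ → Term S} (hD : Ext Δ n D) :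
    TyF P (fcons (F.C0 n (F.A0 n)) D) (F.s0 (n + 1) (F.A0 (n + 1)) (var 0))
      (F.C0y (n + 1) (F.A0 (n + 1))) := by
  have hD' := hD.cons (F.C0 n (F.A0 n))
  refine F.s0_ty hD' (F.A0_ty hD') ?_
  rw [← F.A0_wk, ← F.C0_wk]
  exact var0 (F.C0_ty hD (F.A0_ty hD))

theorem s1v_ty {n : ℕ} {D : ℕ → Term S} (hD : Ext Δ n D) :
    TyF P (fcons (F.C1 n (F.A0 n)) D) (F.s1 (n + 1) (F.A0 (n + 1)) (var 0))
      (F.C1y (n + 1) (F.A0 (n + 1))) := by
  have hD' := hD.cons (F.C1 n (F.A0 n))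
  refine F.s1_ty hD' (F.A0_ty hD') ?_
  rw [← F.A0_wk, ← F.C1_wk]
  exact var0 (F.C1_ty hD (F.A0_ty hD))

theorem s2v_ty {n : ℕ} {D : ℕ → Term S} (hD : Ext Δ n D) :
    TyF P (fcons (F.C2 n (F.A0 n)) D) (F.s2 (n + 1) (F.A0 (n + 1)) (var 0))
      (F.C2y (n + 1) (F.A0 (n + 1))) := by
  have hD' := hD.cons (F.C2 n (F.A0 n))
  refine F.s2_ty hD' (F.A0_ty hD') ?_
  rw [← F.A0_wk, ← F.C2_wk]
  exact var0 (F.C2_ty hD (F.A0_ty hD))

theorem trf_ty (f : HPar705.Fm) : ∀ {n : ℕ} {D : ℕ → Term S} (_ : Ext Δ n D)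
    {eU eP eQ : ℕ → Term S}, F.EOk n D eU eP eQ →
    TyF P D (F.trf f n eU eP eQ) (sort L.o) := by
  induction f with
  | bot => intro n D hD eU eP eQ _; exact L.bot_ty hD
  | imp a b iha ihb =>
      intro n D hD eU eP eQ h
      exact L.imp_ty hD (iha hD h) (ihb hD h)
  | allU a ih =>
      intro n D hD eU eP eQ h
      exact L.all_ty F.bdb hD (F.C0_ty hD (F.A0_ty hD)) (ih (hD.cons _) (h.pU F _ (F.s0v_ty hD)))
  | allP a ih =>
      intro n D hD eU eP eQ h
      exact L.all_ty F.bdy hD (F.C1_ty hD (F.A0_ty hD)) (ih (hD.cons _) (h.pP F _ (F.s1v_ty hD)))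
  | allQ a ih =>
      intro n D hD eU eP eQ h
      exact L.all_ty F.bdb hD (F.C2_ty hD (F.A0_ty hD)) (ih (hD.cons _) (h.pQ F _ (F.s2v_ty hD)))
  | m1 i t =>
      intro n D hD eU eP eQ h
      exact F.m1_ty hD (F.A0_ty hD) (h.fP i) (F.tmY_ty hD h t)
  | m2 j i =>
      intro n D hD eU eP eQ h
      exact F.m2_ty hD (F.A0_ty hD) (h.fQ j) (h.fP i)
  | E s t =>
      intro n D hD eU eP eQ h
      exact F.E_ty hD (F.tmY_ty hD h s) (F.tmY_ty hD h t)

/-- the environment of terms of an environment of the structure -/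
def vU (ρ : HPar705.Env F.str) (i : ℕ) : Term S := F.s0 0 (F.A0 0) (ρ.U i).1
def vP (ρ : HPar705.Env F.str) (i : ℕ) : Term S := F.s1 0 (F.A0 0) (ρ.P i).1
def vQ (ρ : HPar705.Env F.str) (i : ℕ) : Term S := F.s2 0 (F.A0 0) (ρ.Q i).1

theorem v_ok (ρ : HPar705.Env F.str) : F.EOk 0 Δ (F.vU ρ) (F.vP ρ) (F.vQ ρ) := by
  have z := Ext.zero Δ
  have hA := F.A0_ty z
  exact ⟨fun i => F.s0_ty z hA (ρ.U i).2, fun i => F.s1_ty z hA (ρ.P i).2,
    fun i => F.s2_ty z hA (ρ.Q i).2⟩

theorem psh_inst (M t : Term S) (e : ℕ → Term S) :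
    (fun i => sub (scons M var) (psh t e i)) = fun i => Nat.casesOn i (sub (scons M var) t) e := by
  funext i
  cases i with
  | zero => rfl
  | succ i => exact sub_scons_wk _ _

theorem wk_inst (M : Term S) (e : ℕ → Term S) :
    (fun i => sub (scons M var) (wk (e i))) = e := by
  funext i
  exact sub_scons_wk _ _

theorem vU_pU (ρ : HPar705.Env F.str) (x : F.str.U) :
    (fun i : ℕ => (Nat.casesOn i (F.s0 0 (F.A0 0) x.1) (F.vU ρ) : Term S)) = F.vU (ρ.pU x) := by
  funext i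
  cases i <;> rfl
theorem vP_pP (ρ : HPar705.Env F.str) (x : F.str.P) :
    (fun i : ℕ => (Nat.casesOn i (F.s1 0 (F.A0 0) x.1) (F.vP ρ) : Term S)) = F.vP (ρ.pP x) := by
  funext i
  cases i <;> rfl
theorem vQ_pQ (ρ : HPar705.Env F.str) (x : F.str.Q) :
    (fun i : ℕ => (Nat.casesOn i (F.s2 0 (F.A0 0) x.1) (F.vQ ρ) : Term S)) = F.vQ (ρ.pQ x) := by
  funext i
  cases i <;> rfl

theorem tmY_val (ρ : HPar705.Env F.str) (t : HPar705.UT) :
    F.tmY 0 (F.vU ρ) (F.vQ ρ) t = F.s0 0 (F.A0 0) (HPar705.val ρ t).1 := by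
  cases t <;> rfl

/-- the truth lemma -/
theorem trf_tr (f : HPar705.Fm) : ∀ ρ : HPar705.Env F.str,
    L.Tr (F.trf f 0 (F.vU ρ) (F.vP ρ) (F.vQ ρ)) ↔ HPar705.eval ρ f := by
  have z := Ext.zero Δ
  have hA := F.A0_ty z
  induction f with
  | bot => intro ρ; exact ⟨fun h => L.bot_tr h, fun h => False.elim h⟩
  | imp a b iha ihb =>
      intro ρ
      rw [trf, L.imp_tr (F.trf_ty a z (F.v_ok ρ)) (F.trf_ty b z (F.v_ok ρ)), iha, ihb]
      rfl
  | allU a ih =>
      intro ρ
      rw [trf, L.all_tr F.bdb (F.C0_ty z hA)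
        (F.trf_ty a (z.cons _) ((F.v_ok ρ).pU F _ (F.s0v_ty z)))]
      have key : ∀ M : F.str.U, L.Tr (inst M.1 (F.trf a (0 + 1)
          (psh (F.s0 (0 + 1) (F.A0 (0 + 1)) (var 0)) (F.vU ρ)) (fun i => wk (F.vP ρ i))
          (fun i => wk (F.vQ ρ i)))) ↔ HPar705.eval (ρ.pU M) a := by
        intro M
        rw [inst_def, F.trf_sub a (Base.inst 0 M.1), psh_inst, wk_inst, wk_inst,
          F.s0_sub (Base.inst 0 M.1), F.A0_sub (Base.inst 0 M.1), sub_var, scons_zero, vU_pU]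
        exact ih (ρ.pU M)
      exact ⟨fun h x => (key x).1 (h x.1 x.2), fun h M hM => (key ⟨M, hM⟩).2 (h ⟨M, hM⟩)⟩
  | allP a ih =>
      intro ρ
      rw [trf, L.all_tr F.bdy (F.C1_ty z hA)
        (F.trf_ty a (z.cons _) ((F.v_ok ρ).pP F _ (F.s1v_ty z)))]
      have key : ∀ M : F.str.P, L.Tr (inst M.1 (F.trf a (0 + 1) (fun i => wk (F.vU ρ i))
          (psh (F.s1 (0 + 1) (F.A0 (0 + 1)) (var 0)) (F.vP ρ))
          (fun i => wk (F.vQ ρ i)))) ↔ HPar705.eval (ρ.pP M) a := by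
        intro M
        rw [inst_def, F.trf_sub a (Base.inst 0 M.1), psh_inst, wk_inst, wk_inst,
          F.s1_sub (Base.inst 0 M.1), F.A0_sub (Base.inst 0 M.1), sub_var, scons_zero, vP_pP]
        exact ih (ρ.pP M)
      exact ⟨fun h x => (key x).1 (h x.1 x.2), fun h M hM => (key ⟨M, hM⟩).2 (h ⟨M, hM⟩)⟩
  | allQ a ih =>
      intro ρ
      rw [trf, L.all_tr F.bdb (F.C2_ty z hA)
        (F.trf_ty a (z.cons _) ((F.v_ok ρ).pQ F _ (F.s2v_ty z)))]
      have key : ∀ M : F.str.Q, L.Tr (inst M.1 (F.trf a (0 + 1) (fun i => wk (F.vU ρ i))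
          (fun i => wk (F.vP ρ i)) (psh (F.s2 (0 + 1) (F.A0 (0 + 1)) (var 0)) (F.vQ ρ)))) ↔
          HPar705.eval (ρ.pQ M) a := by
        intro M
        rw [inst_def, F.trf_sub a (Base.inst 0 M.1), psh_inst, wk_inst, wk_inst,
          F.s2_sub (Base.inst 0 M.1), F.A0_sub (Base.inst 0 M.1), sub_var, scons_zero, vQ_pQ]
        exact ih (ρ.pQ M)
      exact ⟨fun h x => (key x).1 (h x.1 x.2), fun h M hM => (key ⟨M, hM⟩).2 (h ⟨M, hM⟩)⟩
  | m1 i t => intro ρ; rw [trf, F.tmY_val]; rfl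
  | m2 j i => intro ρ; rfl
  | E s t => intro ρ; rw [trf, F.tmY_val, F.tmY_val]; rfl

theorem comp1 : HPar705.Comp1 F.str := by
  intro f ρ
  have z := Ext.zero Δ
  have hA := F.A0_ty z
  have hK := F.C0y_ty z hA
  have hv : TyF P (fcons (F.C0y 0 (F.A0 0)) Δ) (var 0) (F.C0y (0 + 1) (F.A0 (0 + 1))) := by
    rw [← F.A0_wk, ← F.C0y_wk]; exact var0 hK
  have hd : DOk L F.hy.odd Δ (F.C0y 0 (F.A0 0)) (F.trf f (0 + 1) (psh (var 0) (F.vU ρ))
      (fun i => wk (F.vP ρ i)) (fun i => wk (F.vQ ρ i))) := by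
    rw [F.hyo]
    exact F.trf_ty f (z.cons _) ((F.v_ok ρ).pU F _ hv)
  refine ⟨⟨_, F.hy.comp_ty z hK hd⟩, fun x => ?_⟩
  have hx := F.s0_ty z hA x.2
  show L.Tr (F.m1 0 (F.A0 0) (F.s1 0 (F.A0 0) _) (F.s0 0 (F.A0 0) x.1)) ↔ _
  rw [m1, s1, cst_law F.hyo F.hq hK (F.hy.comp_ty z hK hd) hx,
    F.hy.law hK hd (by rw [F.hyo]; exact hx), F.hyo, pair_true, inst_def,
    F.trf_sub f (Base.inst 0 _), psh_inst, wk_inst, wk_inst, sub_var, scons_zero, vU_pU]
  exact F.trf_tr f (ρ.pU x)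

theorem comp2 : HPar705.Comp2 F.str := by
  intro f ρ
  have z := Ext.zero Δ
  have hA := F.A0_ty z
  have hK := F.C1y_ty z hA
  have hv : TyF P (fcons (F.C1y 0 (F.A0 0)) Δ) (var 0) (F.C1y (0 + 1) (F.A0 (0 + 1))) := by
    rw [← F.A0_wk, ← F.C1y_wk]; exact var0 hK
  have hd : DOk L F.hb.odd Δ (F.C1y 0 (F.A0 0)) (F.trf f (0 + 1) (fun i => wk (F.vU ρ i))
      (psh (var 0) (F.vP ρ)) (fun i => wk (F.vQ ρ i))) := by
    rw [F.hbo]
    exact F.trf_ty f (z.cons _) ((F.v_ok ρ).pP F _ hv)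
  refine ⟨⟨_, F.hb.comp_ty z hK hd⟩, fun x => ?_⟩
  have hx := F.s1_ty z hA x.2
  show L.Tr (F.m2 0 (F.A0 0) (F.s2 0 (F.A0 0) _) (F.s1 0 (F.A0 0) x.1)) ↔ _
  rw [m2, s2, cst_law F.hbo F.hp hK (F.hb.comp_ty z hK hd) hx,
    F.hb.law hK hd (by rw [F.hbo]; exact hx), F.hbo, pair_true, inst_def,
    F.trf_sub f (Base.inst 0 _), psh_inst, wk_inst, wk_inst, sub_var, scons_zero, vP_pP]
  exact F.trf_tr f (ρ.pP x)

/-- some environment -/
theorem env_nonempty : Nonempty (HPar705.Env F.str) := by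
  have z := Ext.zero Δ
  have hA := F.A0_ty z
  have dU : DOk L F.hb.odd Δ (F.B 0 (F.A0 0)) (L.bot (0 + 1)) := by
    rw [F.hbo]; exact L.bot_ty (z.cons _)
  have dP : DOk L F.hy.odd Δ (F.C0y 0 (F.A0 0)) (L.bot (0 + 1)) := by
    rw [F.hyo]; exact L.bot_ty (z.cons _)
  have dQ : DOk L F.hb.odd Δ (F.C1y 0 (F.A0 0)) (L.bot (0 + 1)) := by
    rw [F.hbo]; exact L.bot_ty (z.cons _)
  exact ⟨⟨fun _ => ⟨_, F.hb.comp_ty z (F.B_ty z hA) dU⟩,
    fun _ => ⟨_, F.hy.comp_ty z (F.C0y_ty z hA) dP⟩,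
    fun _ => ⟨_, F.hb.comp_ty z (F.C1y_ty z hA) dQ⟩⟩⟩

end Fat

/-- **the paradox**: a two-valued logic over `Δ` with a fat configuration of sorts is
contradictory -/
theorem false_of_fat (L : Logic P Δ) (F : Fat L) : False := by
  obtain ⟨ρ⟩ := F.env_nonempty
  exact HPar705.paradox F.comp1 F.comp2 F.law0 ρ

end Crest.Agent.R298.Tw987
private theorem rz_ae112d97bf : type_of% @_root_.Crest.Agent.R298.Tw987.Fat.tmY.eq_1 := @_root_.Crest.Agent.R298.Tw987.Fat.tmY.eq_1 -- L234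
private theorem rz_318f50a737 : type_of% @_root_.Crest.Agent.R298.Tw987.Fat.trf.eq_def := @_root_.Crest.Agent.R298.Tw987.Fat.trf.eq_def -- L239
private theorem rz_4725b47d65 : type_of% @_root_.Crest.Agent.R298.Tw987.Fat.trf.eq_1 := @_root_.Crest.Agent.R298.Tw987.Fat.trf.eq_1 -- L239
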