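import Crest.Agent.R298.Ty_452
import Mathlib.Data.Nat.Pairing
import Mathlib.Data.Countable.Basic
import Crest.Agent.R298.TyF_452

-- ▼ part R298/Str_657
section

/-!
R298 (S0452), helper657: free variable bounds, injective renamings, and STRENGTHENING for normal
subjects in an arbitrary specification (checking / inference along the normal form).
-/

set_option autoImplicit false

namespace Crest.Agent.R298.Str657

open Crest.LogicCS.PTS Crest.LogicCS.PTS.Term Relation
open Crest.Agent.R298.Sub452 Crest.Agent.R298.Par452 Crest.Agent.R298.Ty452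

universe u
variable {S : Type u} {P : Spec S}

/-! ### free variable bounds -/

/-- all free variables of the term are below `n` -/
def Fb : Term S → ℕ → Prop
  | var i, n => i < n
  | sort _, _ => True
  | app M N, n => Fb M n ∧ Fb N n
  | lam A M, n => Fb A n ∧ Fb M (n + 1)
  | pi A B, n => Fb A n ∧ Fb B (n + 1)

@[simp] theorem fb_var (i n : ℕ) : Fb (S := S) (var i) n ↔ i < n := Iff.rfl
@[simp] theorem fb_sort (s : S) (n : ℕ) : Fb (sort s) n ↔ True := Iff.rfl
@[simp] theorem fb_app (M N : Term S) (n : ℕ) : Fb (app M N) n ↔ Fb M n ∧ Fb N n := Iff.rfl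
@[simp] theorem fb_lam (M N : Term S) (n : ℕ) : Fb (lam M N) n ↔ Fb M n ∧ Fb N (n + 1) := Iff.rfl
@[simp] theorem fb_pi (M N : Term S) (n : ℕ) : Fb (pi M N) n ↔ Fb M n ∧ Fb N (n + 1) := Iff.rfl

theorem Fb.mono {M : Term S} {n m : ℕ} (h : Fb M n) (hnm : n ≤ m) : Fb M m := by
  induction M generalizing n m with
  | var i => exact lt_of_lt_of_le h hnm
  | sort s => trivial
  | app M N h1 h2 => exact ⟨h1 h.1 hnm, h2 h.2 hnm⟩
  | lam A M h1 h2 => exact ⟨h1 h.1 hnm, h2 h.2 (Nat.succ_le_succ hnm)⟩
  | pi A M h1 h2 => exact ⟨h1 h.1 hnm, h2 h.2 (Nat.succ_le_succ hnm)⟩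

theorem exists_fb (M : Term S) : ∃ n, Fb M n := by
  induction M with
  | var i => exact ⟨i + 1, Nat.lt_succ_self i⟩
  | sort s => exact ⟨0, trivial⟩
  | app M N h1 h2 =>
      obtain ⟨n, hn⟩ := h1
      obtain ⟨m, hm⟩ := h2
      exact ⟨max n m, hn.mono (le_max_left _ _), hm.mono (le_max_right _ _)⟩
  | lam A M h1 h2 =>
      obtain ⟨n, hn⟩ := h1
      obtain ⟨m, hm⟩ := h2
      exact ⟨max n m, hn.mono (le_max_left _ _), hm.mono (by omega)⟩
  | pi A M h1 h2 =>
      obtain ⟨n, hn⟩ := h1
      obtain ⟨m, hm⟩ := h2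
      exact ⟨max n m, hn.mono (le_max_left _ _), hm.mono (by omega)⟩

theorem up_congr {ρ τ : ℕ → ℕ} {n : ℕ} (h : ∀ i, i < n → ρ i = τ i) :
    ∀ i, i < n + 1 → up ρ i = up τ i := by
  intro i hi
  cases i with
  | zero => rfl
  | succ i => simp only [up_succ]; rw [h i (by omega)]

theorem ren_congr {M : Term S} {n : ℕ} {ρ τ : ℕ → ℕ} (h : Fb M n) (e : ∀ i, i < n → ρ i = τ i) :
    ren ρ M = ren τ M := by
  induction M generalizing n ρ τ with
  | var i => simp only [ren_var]; rw [e i h]
  | sort s => rfl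
  | app M N h1 h2 => simp only [ren_app]; rw [h1 h.1 e, h2 h.2 e]
  | lam A M h1 h2 => simp only [ren_lam]; rw [h1 h.1 e, h2 h.2 (up_congr e)]
  | pi A M h1 h2 => simp only [ren_pi]; rw [h1 h.1 e, h2 h.2 (up_congr e)]



theorem fb_ren {M : Term S} {n m : ℕ} {ρ : ℕ → ℕ} (h : Fb M n) (e : ∀ i, i < n → ρ i < m) :
    Fb (ren ρ M) m := by
  have hup : ∀ {n m : ℕ} {ρ : ℕ → ℕ}, (∀ i, i < n → ρ i < m) →
      ∀ i, i < n + 1 → up ρ i < m + 1 := by
    intro n m ρ e i hi
    cases i with
    | zero => simp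
    | succ i => simp only [up_succ]; have := e i (by omega); omega
  induction M generalizing n m ρ with
  | var i => exact e i h
  | sort s => trivial
  | app M N h1 h2 => exact ⟨h1 h.1 e, h2 h.2 e⟩
  | lam A M h1 h2 => exact ⟨h1 h.1 e, h2 h.2 (hup e)⟩
  | pi A M h1 h2 => exact ⟨h1 h.1 e, h2 h.2 (hup e)⟩


theorem fb_sub {M : Term S} {n m : ℕ} {σ : ℕ → Term S} (h : Fb M n)
    (e : ∀ i, i < n → Fb (σ i) m) : Fb (sub σ M) m := by
  have hup : ∀ {n m : ℕ} {σ : ℕ → Term S}, (∀ i, i < n → Fb (σ i) m) →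
      ∀ i, i < n + 1 → Fb (ups σ i) (m + 1) := by
    intro n m σ e i hi
    cases i with
    | zero => simp
    | succ i => exact fb_ren (e i (by omega)) (fun j hj => Nat.succ_lt_succ hj)
  induction M generalizing n m σ with
  | var i => exact e i h
  | sort s => trivial
  | app M N h1 h2 => exact ⟨h1 h.1 e, h2 h.2 e⟩
  | lam A M h1 h2 => exact ⟨h1 h.1 e, h2 h.2 (hup e)⟩
  | pi A M h1 h2 => exact ⟨h1 h.1 e, h2 h.2 (hup e)⟩

theorem fb_inst {M N : Term S} {n : ℕ} (h : Fb M (n + 1)) (h' : Fb N n) : Fb (inst N M) n := by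
  refine fb_sub h (fun i hi => ?_)
  cases i with
  | zero => exact h'
  | succ i => simp only [scons_succ, fb_var]; omega

theorem fb_wk {M : Term S} {n : ℕ} (h : Fb M n) : Fb (wk M) (n + 1) :=
  fb_ren h (fun _ hj => Nat.succ_lt_succ hj)

/-- subject and type of a typed judgment live in the context -/
theorem typed_fb {Γ : List (Term S)} {M A : Term S} (h : Typed P Γ M A) :
    Fb M Γ.length ∧ Fb A Γ.length := by
  refine typed_ind (P := P) (motive := fun Γ M A => Fb M Γ.length ∧ Fb A Γ.length)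
    ?_ ?_ ?_ ?_ ?_ ?_ ?_ h
  · intro s₁ s₂ _; exact ⟨trivial, trivial⟩
  · intro Γ A s _ ih; exact ⟨by simp, fb_wk ih.1⟩
  · intro Γ M B A s _ _ ih _; exact ⟨fb_wk ih.1, fb_wk ih.2⟩
  · intro Γ A B s₁ s₂ s₃ _ _ _ ih ih'; exact ⟨⟨ih.1, ih'.1⟩, trivial⟩
  · intro Γ A M B s _ _ ih ih'; exact ⟨⟨ih'.1.1, ih.1⟩, ih'.1⟩
  · intro Γ M N A B _ _ ih ih'; exact ⟨⟨ih.1, ih'.1⟩, fb_inst ih.2.2 ih'.1⟩
  · intro Γ M A B s _ _ _ ih ih'; exact ⟨ih.1, ih'.1⟩

theorem lk_fb {Γ : List (Term S)} {i : ℕ} {A : Term S} (w : Wf P Γ) (h : Lk Γ i A) :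
    Fb A Γ.length := (typed_fb (var_wf h w)).2

/-! ### injective renamings -/

theorem up_inj {ρ : ℕ → ℕ} (h : Function.Injective ρ) : Function.Injective (up ρ) := by
  intro i j e
  cases i with
  | zero => cases j with
    | zero => rfl
    | succ j => simp at e
  | succ i => cases j with
    | zero => simp at e
    | succ j =>
        simp only [up_succ] at e
        rw [h (Nat.succ.inj e)]

theorem ren_inj {ρ : ℕ → ℕ} (h : Function.Injective ρ) {M N : Term S} (e : ren ρ M = ren ρ N) :
    M = N := by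
  induction M generalizing ρ N with
  | var i =>
      cases N with
      | var j =>
          simp only [ren_var] at e
          injection e with e
          rw [h e]
      | _ => cases e
  | sort s =>
      cases N with
      | sort t => simpa using e
      | _ => cases e
  | app M1 M2 h1 h2 =>
      cases N with
      | app N1 N2 =>
          simp only [ren_app] at e
          injection e with e1 e2
          rw [h1 h e1, h2 h e2]
      | _ => cases e
  | lam M1 M2 h1 h2 =>
      cases N with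
      | lam N1 N2 =>
          simp only [ren_lam] at e
          injection e with e1 e2
          rw [h1 h e1, h2 (up_inj h) e2]
      | _ => cases e
  | pi M1 M2 h1 h2 =>
      cases N with
      | pi N1 N2 =>
          simp only [ren_pi] at e
          injection e with e1 e2
          rw [h1 h e1, h2 (up_inj h) e2]
      | _ => cases e

theorem red_ren_inv {M N : Term S} {ρ : ℕ → ℕ} (h : Red (ren ρ M) N) :
    ∃ M', Red M M' ∧ N = ren ρ M' := by
  induction h with
  | refl => exact ⟨M, .refl, rfl⟩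
  | tail _ b ih =>
      obtain ⟨M', r, e⟩ := ih
      rw [e] at b
      obtain ⟨M'', b', e'⟩ := beta_ren_inv b
      exact ⟨M'', r.tail b', e'⟩

theorem eq_ren_inv {M N : Term S} {ρ : ℕ → ℕ} (hρ : Function.Injective ρ)
    (h : BetaEq (ren ρ M) (ren ρ N)) : BetaEq M N := by
  obtain ⟨Q, r, r'⟩ := CR h
  obtain ⟨M', a, e⟩ := red_ren_inv r
  obtain ⟨N', b, e'⟩ := red_ren_inv r'
  have : M' = N' := ren_inj hρ (e.symm.trans e')
  subst this
  exact betaEq_iff.2 ⟨M', a, b⟩

theorem normal_ren {M : Term S} {ρ : ℕ → ℕ} : Normal (ren ρ M) ↔ Normal M := by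
  constructor
  · intro h N b
    exact h _ (Beta.ren b ρ)
  · intro h N b
    obtain ⟨M', b', _⟩ := beta_ren_inv b
    exact h _ b'


/-! ### pieces of normal terms -/

theorem normal_app {M N : Term S} (h : Normal (app M N)) :
    Normal M ∧ Normal N ∧ ∀ A B, M ≠ lam A B :=
  ⟨fun _ b => h _ (.appL _ b), fun _ b => h _ (.appR _ b),
    fun A B e => by subst e; exact h _ (Beta.redex A B N)⟩

theorem normal_lam {M N : Term S} (h : Normal (lam M N)) : Normal M ∧ Normal N :=
  ⟨fun _ b => h _ (.lamA _ b), fun _ b => h _ (.lamM _ b)⟩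

theorem normal_pi {M N : Term S} (h : Normal (pi M N)) : Normal M ∧ Normal N :=
  ⟨fun _ b => h _ (.piA _ b), fun _ b => h _ (.piB _ b)⟩

/-! ### strengthening -/

/-- `A` may be the type of something in `Γ` -/
def TyOk (P : Spec S) (Γ : List (Term S)) (A : Term S) : Prop :=
  (∃ s, A = sort s) ∨ ∃ s, Typed P Γ A (sort s)

theorem conv_to {Γ : List (Term S)} {M A B : Term S} (h : Typed P Γ M A) (e : BetaEq A B)
    (hB : TyOk P Γ B) : Typed P Γ M B := by
  rcases hB with ⟨s, rfl⟩ | ⟨s, hB⟩
  · exact typed_sort_of_eq h e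
  · exact .conv h hB e

/-- inference form of strengthening -/
def Inf (P : Spec S) (M : Term S) : Prop :=
  ∀ {ρ : ℕ → ℕ} {Γ Γ' : List (Term S)} {A' : Term S}, Function.Injective ρ → RenOk ρ Γ Γ' →
    Wf P Γ → Fb M Γ.length → Typed P Γ' (ren ρ M) A' →
    ∃ A, Typed P Γ M A ∧ BetaEq A' (ren ρ A)

/-- checking form of strengthening -/
def Chk (P : Spec S) (M : Term S) : Prop :=
  ∀ {ρ : ℕ → ℕ} {Γ Γ' : List (Term S)} {A' A : Term S}, Function.Injective ρ → RenOk ρ Γ Γ' →
    Wf P Γ → Fb M Γ.length → Typed P Γ' (ren ρ M) A' → TyOk P Γ A → BetaEq A' (ren ρ A) →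
    Typed P Γ M A

theorem Inf.chk {M : Term S} (h : Inf P M) : Chk P M := by
  intro ρ Γ Γ' A' A hρ hr w fb ht hA e
  obtain ⟨A0, h0, e0⟩ := h hρ hr w fb ht
  exact conv_to h0 (eq_ren_inv hρ (BetaEq.trans (BetaEq.symm e0) e)) hA





end Crest.Agent.R298.Str657
end

-- ▼ part R298/World_657
section

/-!
R298 (S0452), helper657: the WORLD, list form.  A function `D : ℕ → Term S` gives the types of
the names `0, 1, 2, ...` (absolute levels; `D k` only mentions names below `k`); `lst D n` is the
frozen context of the first `n` names and `rv n` the renaming from names to indices (and back).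
`exists_wlist`: there is a `D` all of whose `lst D n` are well formed and in which every type
which is legal over some `lst D n` occurs infinitely often.
-/

set_option autoImplicit false

namespace Crest.Agent.R298.World657

open Crest.LogicCS.PTS Crest.LogicCS.PTS.Term Relation
open Crest.Agent.R298.Sub452 Crest.Agent.R298.Par452 Crest.Agent.R298.Ty452
open Crest.Agent.R298.Str657

universe u
variable {S : Type u} {P : Spec S}

/-- names to indices and back (an involution below `n`) -/
def rv (n k : ℕ) : ℕ := n - 1 - k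

theorem rv_lt {n k : ℕ} (h : k < n) : rv n k < n := by unfold rv; omega

theorem rv_rv {n k : ℕ} (h : k < n) : rv n (rv n k) = k := by unfold rv; omega

theorem rv_succ {n k : ℕ} (h : k < n) : rv (n + 1) k = rv n k + 1 := by unfold rv; omega

/-- the frozen context of the first `n` names -/
def lst (D : ℕ → Term S) : ℕ → List (Term S)
  | 0 => []
  | n + 1 => ren (rv n) (D n) :: lst D n

@[simp] theorem lst_length (D : ℕ → Term S) (n : ℕ) : (lst D n).length = n := by
  induction n with
  | zero => rfl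
  | succ n ih => simp [lst, ih]

theorem ren_rv_rv {M : Term S} {n : ℕ} (h : Fb M n) : ren (rv n) (ren (rv n) M) = M := by
  rw [ren_ren, ren_congr h (fun i hi => rv_rv hi), ren_id]


theorem wk_rv {M : Term S} {n : ℕ} (h : Fb M n) : wk (ren (rv n) M) = ren (rv (n + 1)) M := by
  rw [wk, ren_ren]
  exact ren_congr h (fun i hi => (rv_succ hi).symm)

/-- `M : A` over the first `n` names, in terms of names -/
structure At (P : Spec S) (D : ℕ → Term S) (n : ℕ) (M A : Term S) : Prop where
  fm : Fb M n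
  fa : Fb A n
  ty : Typed P (lst D n) (ren (rv n) M) (ren (rv n) A)

/-- the list form of "all names are well typed" -/
def WD (P : Spec S) (D : ℕ → Term S) : Prop :=
  ∀ n, Fb (D n) n ∧ ∃ s, Typed P (lst D n) (ren (rv n) (D n)) (sort s)

theorem WD.wf {D : ℕ → Term S} (h : WD P D) (n : ℕ) : Wf P (lst D n) := by
  induction n with
  | zero => exact .nil
  | succ n ih =>
      obtain ⟨_, s, hs⟩ := h n
      exact .cons ih hs

theorem At.succ {D : ℕ → Term S} (h : WD P D) {n : ℕ} {M A : Term S} (t : At P D n M A) :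
    At P D (n + 1) M A := by
  obtain ⟨_, s, hs⟩ := h n
  refine ⟨t.fm.mono (Nat.le_succ n), t.fa.mono (Nat.le_succ n), ?_⟩
  have := t_weak t.ty hs
  rwa [wk_rv t.fm, wk_rv t.fa] at this

theorem At.mono {D : ℕ → Term S} (h : WD P D) {n m : ℕ} {M A : Term S} (t : At P D n M A)
    (hnm : n ≤ m) : At P D m M A := by
  induction hnm with
  | refl => exact t
  | step _ ih => exact ih.succ h


/-- lookup of a name -/
theorem lk_lst {D : ℕ → Term S} (h : ∀ n, Fb (D n) n) {n k : ℕ} (hk : k < n) :
    Lk (lst D n) (rv n k) (ren (rv n) (D k)) := by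
  induction n with
  | zero => omega
  | succ n ih =>
      rcases Nat.lt_succ_iff_lt_or_eq.1 hk with hk' | rfl
      · rw [rv_succ hk', ← wk_rv ((h k).mono (le_of_lt hk'))]
        exact .succ _ (ih hk')
      · have e : rv (k + 1) k = 0 := by unfold rv; omega
        rw [e, ← wk_rv (h k)]
        exact .zero _ _

/-- inversion of the lookup in `lst D n` -/
theorem lk_lst_inv {D : ℕ → Term S} (h : ∀ n, Fb (D n) n) {n i : ℕ} {B : Term S}
    (hl : Lk (lst D n) i B) : i < n ∧ B = ren (rv n) (D (rv n i)) := by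
  have hi : i < n := by simpa using hl.lt
  refine ⟨hi, ?_⟩
  have := lk_lst h (rv_lt hi)
  rw [rv_rv hi] at this
  exact hl.unique this


/-! ### enumeration of the raw terms -/

/-- decoder of raw terms with fuel -/
def dec (e : ℕ → S) : ℕ → ℕ → Term S
  | 0, _ => var 0
  | f + 1, n =>
      if n.unpair.1 = 0 then var n.unpair.2
      else if n.unpair.1 = 1 then sort (e n.unpair.2)
      else if n.unpair.1 = 2 then
        app (dec e f n.unpair.2.unpair.1) (dec e f n.unpair.2.unpair.2)
      else if n.unpair.1 = 3 then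
        lam (dec e f n.unpair.2.unpair.1) (dec e f n.unpair.2.unpair.2)
      else pi (dec e f n.unpair.2.unpair.1) (dec e f n.unpair.2.unpair.2)

theorem dec_surj {e : ℕ → S} (he : Function.Surjective e) (M : Term S) :
    ∃ n f0, ∀ f, f0 ≤ f → dec e f n = M := by
  induction M with
  | var i =>
      refine ⟨Nat.pair 0 i, 1, fun f hf => ?_⟩
      obtain ⟨f, rfl⟩ : ∃ g, f = g + 1 := ⟨f - 1, by omega⟩
      simp [dec]
  | sort s =>
      obtain ⟨i, hi⟩ := he s
      refine ⟨Nat.pair 1 i, 1, fun f hf => ?_⟩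
      obtain ⟨f, rfl⟩ : ∃ g, f = g + 1 := ⟨f - 1, by omega⟩
      simp [dec, hi]
  | app M N h1 h2 =>
      obtain ⟨n1, f1, h1⟩ := h1
      obtain ⟨n2, f2, h2⟩ := h2
      refine ⟨Nat.pair 2 (Nat.pair n1 n2), max f1 f2 + 1, fun f hf => ?_⟩
      obtain ⟨f, rfl⟩ : ∃ g, f = g + 1 := ⟨f - 1, by omega⟩
      simp [dec, h1 f (by omega), h2 f (by omega)]
  | lam M N h1 h2 =>
      obtain ⟨n1, f1, h1⟩ := h1
      obtain ⟨n2, f2, h2⟩ := h2
      refine ⟨Nat.pair 3 (Nat.pair n1 n2), max f1 f2 + 1, fun f hf => ?_⟩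
      obtain ⟨f, rfl⟩ : ∃ g, f = g + 1 := ⟨f - 1, by omega⟩
      simp [dec, h1 f (by omega), h2 f (by omega)]
  | pi M N h1 h2 =>
      obtain ⟨n1, f1, h1⟩ := h1
      obtain ⟨n2, f2, h2⟩ := h2
      refine ⟨Nat.pair 4 (Nat.pair n1 n2), max f1 f2 + 1, fun f hf => ?_⟩
      obtain ⟨f, rfl⟩ : ∃ g, f = g + 1 := ⟨f - 1, by omega⟩
      simp [dec, h1 f (by omega), h2 f (by omega)]

/-- a surjection onto the raw terms -/
theorem exists_enum [Countable S] [Nonempty S] : ∃ e : ℕ → Term S, Function.Surjective e := by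
  obtain ⟨e, he⟩ := exists_surjective_nat S
  refine ⟨fun n => dec e n.unpair.1 n.unpair.2, fun M => ?_⟩
  obtain ⟨n, f0, h⟩ := dec_surj he M
  exact ⟨Nat.pair f0 n, by simp [h f0 le_rfl]⟩

/-! ### the world -/

section construction

open Classical in
/-- the type of the name `n` over the context `Γ` of the first `n` names -/
noncomputable def pick (P : Spec S) (e : ℕ → Term S) (s0 : S) (Γ : List (Term S)) (n : ℕ) :
    Term S :=
  if Fb (e n.unpair.1) n ∧ ∃ s, Typed P Γ (ren (rv n) (e n.unpair.1)) (sort s)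
  then e n.unpair.1 else sort s0

/-- the contexts of the world -/
noncomputable def wctx (P : Spec S) (e : ℕ → Term S) (s0 : S) : ℕ → List (Term S)
  | 0 => []
  | n + 1 => ren (rv n) (pick P e s0 (wctx P e s0 n) n) :: wctx P e s0 n

/-- the world -/
noncomputable def wD (P : Spec S) (e : ℕ → Term S) (s0 : S) (n : ℕ) : Term S :=
  pick P e s0 (wctx P e s0 n) n

theorem lst_wD (P : Spec S) (e : ℕ → Term S) (s0 : S) (n : ℕ) :
    lst (wD P e s0) n = wctx P e s0 n := by
  induction n with
  | zero => rfl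
  | succ n ih => simp only [lst, wctx, ih, wD]

theorem wd_wD {e : ℕ → Term S} {s0 t0 : S} (h0 : P.ax s0 t0) : WD P (wD P e s0) := by
  have key : ∀ n, Wf P (wctx P e s0 n) ∧ Fb (wD P e s0 n) n ∧
      ∃ s, Typed P (wctx P e s0 n) (ren (rv n) (wD P e s0 n)) (sort s) := by
    intro n
    have step : Wf P (wctx P e s0 n) → Fb (wD P e s0 n) n ∧
        ∃ s, Typed P (wctx P e s0 n) (ren (rv n) (wD P e s0 n)) (sort s) := by
      intro w
      unfold wD pick
      split_ifs with h
      · exact h
      · exact ⟨trivial, t0, ax_wf w h0⟩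
    induction n with
    | zero => exact ⟨.nil, step .nil⟩
    | succ n ih =>
        obtain ⟨w, _, s, hs⟩ := ih (by
          intro w
          unfold wD pick
          split_ifs with h
          · exact h
          · exact ⟨trivial, t0, ax_wf w h0⟩)
        have w' : Wf P (wctx P e s0 (n + 1)) := .cons w hs
        exact ⟨w', step w'⟩
  intro n
  rw [lst_wD]
  exact (key n).2

end construction

/-- every type which is legal over finitely many names is the type of arbitrarily late names -/
def FullL (P : Spec S) (D : ℕ → Term S) : Prop :=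
  ∀ (A : Term S) (s : S) (n : ℕ), At P D n A (sort s) → ∀ m, ∃ k, m ≤ k ∧ n ≤ k ∧ D k = A

theorem exists_wlist (P : Spec S) [Countable S] (h0 : ∃ s t, P.ax s t) :
    ∃ D : ℕ → Term S, WD P D ∧ FullL P D := by
  obtain ⟨s0, t0, h0⟩ := h0
  have : Nonempty S := ⟨s0⟩
  obtain ⟨e, he⟩ := exists_enum (S := S)
  have hW := wd_wD (P := P) (e := e) h0
  refine ⟨wD P e s0, hW, ?_⟩
  intro A s n hA m
  obtain ⟨a, ha⟩ := he A
  refine ⟨Nat.pair a (max m n), le_trans (le_max_left _ _) (Nat.right_le_pair _ _),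
    le_trans (le_max_right _ _) (Nat.right_le_pair _ _), ?_⟩
  have hk := hA.mono hW (le_trans (le_max_right m n) (Nat.right_le_pair a (max m n)))
  have e1 : (Nat.pair a (max m n)).unpair.1 = a := by simp
  unfold wD pick
  rw [e1, ha, if_pos]
  refine ⟨hk.fm, s, ?_⟩
  have := hk.ty
  rw [lst_wD] at this
  exact this

end Crest.Agent.R298.World657
private theorem rz_1ce06e25ee : type_of% @_root_.Crest.Agent.R298.World657.dec.eq_def := @_root_.Crest.Agent.R298.World657.dec.eq_def -- L121
private theorem rz_c1ac07fefb : type_of% @_root_.Crest.Agent.R298.World657.dec.eq_1 := @_root_.Crest.Agent.R298.World657.dec.eq_1 -- L121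
private theorem rz_92ddd846cb : type_of% @_root_.Crest.Agent.R298.World657.lst.eq_def := @_root_.Crest.Agent.R298.World657.lst.eq_def -- L34
private theorem rz_a1b6692b36 : type_of% @_root_.Crest.Agent.R298.World657.lst.eq_1 := @_root_.Crest.Agent.R298.World657.lst.eq_1 -- L34
private theorem rz_cd6538d23d : type_of% @_root_.Crest.Agent.R298.World657.wctx.eq_def := @_root_.Crest.Agent.R298.World657.wctx.eq_def -- L182
private theorem rz_45fae2207f : type_of% @_root_.Crest.Agent.R298.World657.wctx.eq_1 := @_root_.Crest.Agent.R298.World657.wctx.eq_1 -- L182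
end

-- ▼ part R298/StrF_657
section

/-!
R298 (S0452), helper657: STRENGTHENING over function contexts, relative to a set `X` of variables
(so that fresh names, padded contexts, ... are instances): first for normal subjects without any
hypothesis, then for all subjects when the legal terms are weakly normalising.
-/

set_option autoImplicit false

namespace Crest.Agent.R298.StrF657

open Crest.LogicCS.PTS Crest.LogicCS.PTS.Term Relation
open Crest.Agent.R298.Sub452 Crest.Agent.R298.Par452 Crest.Agent.R298.Ty452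
open Crest.Agent.R298.TyF452
open Crest.Agent.R298.Str657 (normal_app normal_lam normal_pi)

universe u
variable {S : Type u} {P : Spec S}

/-! ### free variables in a set -/

/-- the set `X` under a binder -/
def upS (X : Set ℕ) : Set ℕ := {i | i = 0 ∨ ∃ j ∈ X, i = j + 1}

@[simp] theorem zero_mem_upS (X : Set ℕ) : 0 ∈ upS X := Or.inl rfl

@[simp] theorem succ_mem_upS {X : Set ℕ} {i : ℕ} : i + 1 ∈ upS X ↔ i ∈ X := by
  constructor
  · rintro (h | ⟨j, hj, e⟩)
    · cases h
    · cases e; exact hj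
  · intro h; exact Or.inr ⟨i, h, rfl⟩

theorem upS_mono {X Y : Set ℕ} (h : X ⊆ Y) : upS X ⊆ upS Y := by
  intro i hi
  cases i with
  | zero => simp
  | succ i => rw [succ_mem_upS] at hi ⊢; exact h hi

/-- all free variables of the term are in `X` -/
def Fv : Term S → Set ℕ → Prop
  | var i, X => i ∈ X
  | sort _, _ => True
  | app M N, X => Fv M X ∧ Fv N X
  | lam A M, X => Fv A X ∧ Fv M (upS X)
  | pi A B, X => Fv A X ∧ Fv B (upS X)

@[simp] theorem fv_var (i : ℕ) (X : Set ℕ) : Fv (S := S) (var i) X ↔ i ∈ X := Iff.rfl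
@[simp] theorem fv_sort (s : S) (X : Set ℕ) : Fv (sort s) X ↔ True := Iff.rfl
@[simp] theorem fv_app (M N : Term S) (X : Set ℕ) : Fv (app M N) X ↔ Fv M X ∧ Fv N X := Iff.rfl
@[simp] theorem fv_lam (M N : Term S) (X : Set ℕ) :
    Fv (lam M N) X ↔ Fv M X ∧ Fv N (upS X) := Iff.rfl
@[simp] theorem fv_pi (M N : Term S) (X : Set ℕ) :
    Fv (pi M N) X ↔ Fv M X ∧ Fv N (upS X) := Iff.rfl

theorem Fv.mono {M : Term S} {X Y : Set ℕ} (h : Fv M X) (hXY : X ⊆ Y) : Fv M Y := by
  induction M generalizing X Y with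
  | var i => exact hXY h
  | sort s => trivial
  | app M N h1 h2 => exact ⟨h1 h.1 hXY, h2 h.2 hXY⟩
  | lam A M h1 h2 => exact ⟨h1 h.1 hXY, h2 h.2 (upS_mono hXY)⟩
  | pi A M h1 h2 => exact ⟨h1 h.1 hXY, h2 h.2 (upS_mono hXY)⟩

theorem fv_ren {M : Term S} {X Y : Set ℕ} {ρ : ℕ → ℕ} (h : Fv M X) (e : ∀ i ∈ X, ρ i ∈ Y) :
    Fv (ren ρ M) Y := by
  have hup : ∀ {X Y : Set ℕ} {ρ : ℕ → ℕ}, (∀ i ∈ X, ρ i ∈ Y) →
      ∀ i ∈ upS X, up ρ i ∈ upS Y := by
    intro X Y ρ e i hi
    cases i with
    | zero => simp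
    | succ i => rw [succ_mem_upS] at hi; rw [up_succ, succ_mem_upS]; exact e i hi
  induction M generalizing X Y ρ with
  | var i => exact e i h
  | sort s => trivial
  | app M N h1 h2 => exact ⟨h1 h.1 e, h2 h.2 e⟩
  | lam A M h1 h2 => exact ⟨h1 h.1 e, h2 h.2 (hup e)⟩
  | pi A M h1 h2 => exact ⟨h1 h.1 e, h2 h.2 (hup e)⟩


theorem fv_wk {M : Term S} {X : Set ℕ} (h : Fv M X) : Fv (wk M) (upS X) :=
  fv_ren h (fun i hi => by rw [Nat.succ_eq_add_one, succ_mem_upS]; exact hi)

theorem fv_sub {M : Term S} {X Y : Set ℕ} {σ : ℕ → Term S} (h : Fv M X)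
    (e : ∀ i ∈ X, Fv (σ i) Y) : Fv (sub σ M) Y := by
  have hup : ∀ {X Y : Set ℕ} {σ : ℕ → Term S}, (∀ i ∈ X, Fv (σ i) Y) →
      ∀ i ∈ upS X, Fv (ups σ i) (upS Y) := by
    intro X Y σ e i hi
    cases i with
    | zero => simp
    | succ i => rw [succ_mem_upS] at hi; exact fv_wk (e i hi)
  induction M generalizing X Y σ with
  | var i => exact e i h
  | sort s => trivial
  | app M N h1 h2 => exact ⟨h1 h.1 e, h2 h.2 e⟩
  | lam A M h1 h2 => exact ⟨h1 h.1 e, h2 h.2 (hup e)⟩
  | pi A M h1 h2 => exact ⟨h1 h.1 e, h2 h.2 (hup e)⟩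

theorem fv_inst {M N : Term S} {X : Set ℕ} (h : Fv M (upS X)) (h' : Fv N X) :
    Fv (inst N M) X := by
  refine fv_sub h (fun i hi => ?_)
  cases i with
  | zero => exact h'
  | succ i => rw [succ_mem_upS] at hi; exact hi

theorem fv_beta {M N : Term S} (b : Beta M N) : ∀ {X : Set ℕ}, Fv M X → Fv N X := by
  induction b with
  | redex A M N =>
      intro X h
      rw [subst_eq]
      exact fv_inst h.1.2 h.2
  | appL _ _ ih => intro X h; exact ⟨ih h.1, h.2⟩
  | appR _ _ ih => intro X h; exact ⟨h.1, ih h.2⟩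
  | lamA _ _ ih => intro X h; exact ⟨ih h.1, h.2⟩
  | lamM _ _ ih => intro X h; exact ⟨h.1, ih h.2⟩
  | piA _ _ ih => intro X h; exact ⟨ih h.1, h.2⟩
  | piB _ _ ih => intro X h; exact ⟨h.1, ih h.2⟩

theorem fv_red {M N : Term S} {X : Set ℕ} (r : Red M N) (h : Fv M X) : Fv N X := by
  induction r with
  | refl => exact h
  | tail _ b ih => exact fv_beta b ih

theorem fv_univ (M : Term S) : Fv M Set.univ := by
  have e : upS Set.univ = Set.univ := by
    ext i; cases i with
    | zero => simp
    | succ i => simp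
  induction M with
  | var i => trivial
  | sort s => trivial
  | app M N h1 h2 => exact ⟨h1, h2⟩
  | lam A M h1 h2 => exact ⟨h1, by rw [e]; exact h2⟩
  | pi A M h1 h2 => exact ⟨h1, by rw [e]; exact h2⟩



theorem injOn_up {ρ : ℕ → ℕ} {X : Set ℕ} (h : Set.InjOn ρ X) : Set.InjOn (up ρ) (upS X) := by
  intro i hi j hj e
  cases i with
  | zero => cases j with
    | zero => rfl
    | succ j => simp at e
  | succ i => cases j with
    | zero => simp at e
    | succ j =>
        rw [succ_mem_upS] at hi hj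
        simp only [up_succ, Nat.add_right_cancel_iff] at e
        rw [h hi hj e]

theorem ren_inj_on {ρ : ℕ → ℕ} {X : Set ℕ} (h : Set.InjOn ρ X) {M N : Term S} (hM : Fv M X)
    (hN : Fv N X) (e : ren ρ M = ren ρ N) : M = N := by
  induction M generalizing ρ N X with
  | var i =>
      cases N with
      | var j =>
          simp only [ren_var] at e
          injection e with e
          rw [h hM hN e]
      | _ => cases e
  | sort s =>
      cases N with
      | sort t => simpa using e
      | _ => cases e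
  | app M1 M2 h1 h2 =>
      cases N with
      | app N1 N2 =>
          simp only [ren_app] at e
          injection e with e1 e2
          rw [h1 h hM.1 hN.1 e1, h2 h hM.2 hN.2 e2]
      | _ => cases e
  | lam M1 M2 h1 h2 =>
      cases N with
      | lam N1 N2 =>
          simp only [ren_lam] at e
          injection e with e1 e2
          rw [h1 h hM.1 hN.1 e1, h2 (injOn_up h) hM.2 hN.2 e2]
      | _ => cases e
  | pi M1 M2 h1 h2 =>
      cases N with
      | pi N1 N2 =>
          simp only [ren_pi] at e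
          injection e with e1 e2
          rw [h1 h hM.1 hN.1 e1, h2 (injOn_up h) hM.2 hN.2 e2]
      | _ => cases e

theorem eq_ren_inv_on {M N : Term S} {ρ : ℕ → ℕ} {X : Set ℕ} (hρ : Set.InjOn ρ X)
    (hM : Fv M X) (hN : Fv N X) (h : BetaEq (ren ρ M) (ren ρ N)) : BetaEq M N := by
  obtain ⟨Q, r, r'⟩ := CR h
  obtain ⟨M', a, e⟩ := TyF452.red_ren_inv r
  obtain ⟨N', b, e'⟩ := TyF452.red_ren_inv r'
  have : M' = N' := ren_inj_on hρ (fv_red a hM) (fv_red b hN) (e.symm.trans e')
  subst this
  exact betaEq_iff.2 ⟨M', a, b⟩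

/-! ### strengthening -/

/-- `ρ` embeds the part `X` of `D` into `D'` -/
structure RenX (ρ : ℕ → ℕ) (X : Set ℕ) (D D' : ℕ → Term S) : Prop where
  inj : Set.InjOn ρ X
  fv : ∀ i ∈ X, Fv (D i) X
  eq : ∀ i ∈ X, D' (ρ i) = ren ρ (D i)

theorem RenX.up {ρ : ℕ → ℕ} {X : Set ℕ} {D D' : ℕ → Term S} (h : RenX ρ X D D') {A : Term S}
    (hA : Fv A X) : RenX (up ρ) (upS X) (fcons A D) (fcons (ren ρ A) D') := by
  refine ⟨injOn_up h.inj, ?_, ?_⟩
  · intro i hi
    cases i with
    | zero => exact fv_wk hA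
    | succ i => rw [succ_mem_upS] at hi; exact fv_wk (h.fv i hi)
  · intro i hi
    cases i with
    | zero => simp only [up_zero, fcons_zero, ren_up_wk]
    | succ i =>
        rw [succ_mem_upS] at hi
        simp only [up_succ, fcons_succ, ren_up_wk, h.eq i hi]

/-- `A` may be the type of something over `D` -/
def TyOkF (P : Spec S) (D : ℕ → Term S) (A : Term S) : Prop :=
  (∃ s, A = sort s) ∨ ∃ s, TyF P D A (sort s)

theorem fconv_to {D : ℕ → Term S} {M A B : Term S} (w : WfF P D) (h : TyF P D M A)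
    (e : BetaEq A B) (hB : TyOkF P D B) : TyF P D M B := by
  rcases hB with ⟨s, rfl⟩ | ⟨s, hB⟩
  · exact tyf_sort_of_eq w h e
  · exact .conv h hB e

/-- inference form of strengthening -/
def InfF (P : Spec S) (M : Term S) : Prop :=
  ∀ {ρ : ℕ → ℕ} {X : Set ℕ} {D D' : ℕ → Term S} {A' : Term S}, RenX ρ X D D' →
    WfF P D → Fv M X → TyF P D' (ren ρ M) A' →
    ∃ A, TyF P D M A ∧ Fv A X ∧ BetaEq A' (ren ρ A)

/-- checking form of strengthening -/
def ChkF (P : Spec S) (M : Term S) : Prop :=
  ∀ {ρ : ℕ → ℕ} {X : Set ℕ} {D D' : ℕ → Term S} {A' A : Term S}, RenX ρ X D D' →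
    WfF P D → Fv M X → TyF P D' (ren ρ M) A' → TyOkF P D A → Fv A X → BetaEq A' (ren ρ A) →
    TyF P D M A

theorem InfF.chk {M : Term S} (h : InfF P M) : ChkF P M := by
  intro ρ X D D' A' A hr w fv ht hA fA e
  obtain ⟨A0, h0, f0, e0⟩ := h hr w fv ht
  exact fconv_to w h0 (eq_ren_inv_on hr.inj f0 fA (BetaEq.trans (BetaEq.symm e0) e)) hA

theorem strF_aux (M : Term S) : Normal M →
    ((∀ A0 M0, M ≠ lam A0 M0) → InfF P M) ∧ ChkF P M := by
  induction M with
  | var i =>
      intro _
      have hI : InfF P (var i : Term S) := by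
        intro ρ X D D' A' hr w fv ht
        obtain ⟨_, e⟩ := fgen_var ht _ rfl
        rw [hr.eq i fv] at e
        exact ⟨D i, tyf_var w i, hr.fv i fv, e⟩
      exact ⟨fun _ => hI, hI.chk⟩
  | sort s =>
      intro _
      have hI : InfF P (sort s : Term S) := by
        intro ρ X D D' A' hr w fv ht
        obtain ⟨s', a, e⟩ := fgen_sort ht _ rfl
        exact ⟨sort s', .ax a, trivial, e⟩
      exact ⟨fun _ => hI, hI.chk⟩
  | app M1 N ih1 ih2 =>
      intro hn
      obtain ⟨n1, n2, n3⟩ := normal_app hn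
      have hI : InfF P (app M1 N : Term S) := by
        intro ρ X D D' A' hr w fv ht
        obtain ⟨A1, B1, hM, hN, e⟩ := fgen_app ht _ _ rfl
        obtain ⟨T1, t1, f1, e1⟩ := (ih1 n1).1 n3 hr w fv.1 hM
        obtain ⟨A2, B2, r2, ra, rb⟩ := red_of_eq_pi (BetaEq.symm e1)
        obtain ⟨T2, r3, e3⟩ := TyF452.red_ren_inv r2
        have f3 := fv_red r3 f1
        cases T2 with
        | pi A3 B3 =>
            simp only [ren_pi] at e3
            injection e3 with e4 e5
            subst e4; subst e5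
            have t3 := tyf_red_type w t1 r3
            obtain ⟨s, hp⟩ := fpi_typed w t3
            obtain ⟨s₁, s₂, s₃, a, b, c, d⟩ := fgen_pi hp _ _ rfl
            have hN' := (ih2 n2).2 hr w fv.2 hN (.inr ⟨_, a⟩) f3.1 (Red.eq ra)
            refine ⟨_, .appl t3 hN', fv_inst f3.2 fv.2, BetaEq.trans e ?_⟩
            rw [ren_inst]
            exact BetaEq.inst (BetaEq.refl _) (Red.eq rb)
        | _ => cases e3
      exact ⟨fun _ => hI, hI.chk⟩
  | pi E F ih1 ih2 =>
      intro hn
      obtain ⟨n1, n2⟩ := normal_pi hn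
      have hI : InfF P (pi E F : Term S) := by
        intro ρ X D D' A' hr w fv ht
        obtain ⟨s₁, s₂, s₃, a, b, c, d⟩ := fgen_pi ht _ _ rfl
        have a' := (ih1 n1).2 hr w fv.1 a (.inl ⟨s₁, rfl⟩) trivial (BetaEq.refl _)
        have b' := (ih2 n2).2 (hr.up fv.1) (w.cons a') fv.2 b (.inl ⟨s₂, rfl⟩) trivial
          (BetaEq.refl _)
        exact ⟨sort s₃, .prod a' b' c, trivial, d⟩
      exact ⟨fun _ => hI, hI.chk⟩
  | lam E M0 ih1 ih2 =>
      intro hn
      obtain ⟨n1, n2⟩ := normal_lam hn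
      refine ⟨fun h => absurd rfl (h E M0), ?_⟩
      intro ρ X D D' A' A hr w fv ht hA fA e
      obtain ⟨B', s', hM, hp, e1⟩ := fgen_lam ht _ _ rfl
      obtain ⟨A2, B2, r2, ra, rb⟩ := red_of_eq_pi (BetaEq.trans (BetaEq.symm e) e1)
      have hA2 : A2 = ren ρ E := normal_red (TyF452.normal_ren n1 ρ) ra
      subst hA2
      obtain ⟨T2, r3, e3⟩ := TyF452.red_ren_inv r2
      have f3 := fv_red r3 fA
      cases T2 with
      | pi A3 B3 =>
          simp only [ren_pi] at e3
          injection e3 with e4 e5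
          have hA3 : A3 = E := (ren_inj_on hr.inj fv.1 f3.1 e4).symm
          subst hA3; subst e5
          have hAs : ∃ s, TyF P D A (sort s) := by
            rcases hA with ⟨s, rfl⟩ | h
            · have := red_sort r3
              cases this
            · exact h
          obtain ⟨s, hAs⟩ := hAs
          have hpi := FSR w hAs r3
          obtain ⟨s₁, s₂, s₃, a, b, c, d⟩ := fgen_pi hpi _ _ rfl
          have hM0 := (ih2 n2).2 (hr.up fv.1) (w.cons a) fv.2 hM (.inr ⟨_, b⟩) f3.2
            (Red.eq rb)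
          exact .conv (.abs hM0 hpi) hAs (BetaEq.symm (Red.eq r3))
      | _ => cases e3

/-- strengthening for normal subjects, checking form -/
theorem strF_chk {M : Term S} (hn : Normal M) {ρ : ℕ → ℕ} {X : Set ℕ} {D D' : ℕ → Term S}
    {A : Term S} (hr : RenX ρ X D D') (w : WfF P D) (fv : Fv M X) (hA : TyOkF P D A)
    (fA : Fv A X) (h : TyF P D' (ren ρ M) (ren ρ A)) : TyF P D M A :=
  (strF_aux M hn).2 hr w fv h hA fA (BetaEq.refl _)

/-- strengthening for normal types -/
theorem strF_sort {M : Term S} (hn : Normal M) {ρ : ℕ → ℕ} {X : Set ℕ} {D D' : ℕ → Term S}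
    {s : S} (hr : RenX ρ X D D') (w : WfF P D) (fv : Fv M X)
    (h : TyF P D' (ren ρ M) (sort s)) : TyF P D M (sort s) :=
  strF_chk hn hr w fv (.inl ⟨s, rfl⟩) trivial h


/-- STRENGTHENING for all subjects, when the legal terms are weakly normalising -/
theorem strF (hP : ∀ (Γ : List (Term S)) (M : Term S), Legal P Γ M → WN M) (M : Term S) :
    ∀ {ρ : ℕ → ℕ} {X : Set ℕ} {D D' : ℕ → Term S} {A' : Term S}, RenX ρ X D D' →
      Good P D → WfF P D' → Fv M X → TyF P D' (ren ρ M) A' →
      ∃ A, TyF P D M A ∧ Fv A X ∧ BetaEq A' (ren ρ A) := by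
  induction M with
  | var i =>
      intro ρ X D D' A' hr g _ fv ht
      obtain ⟨_, e⟩ := fgen_var ht _ rfl
      rw [hr.eq i fv] at e
      exact ⟨D i, tyf_var g.wf i, hr.fv i fv, e⟩
  | sort s =>
      intro ρ X D D' A' hr g _ fv ht
      obtain ⟨s', a, e⟩ := fgen_sort ht _ rfl
      exact ⟨sort s', .ax a, trivial, e⟩
  | app M1 N ih1 ih2 =>
      intro ρ X D D' A' hr g w' fv ht
      obtain ⟨A1, B1, hM, hN, e⟩ := fgen_app ht _ _ rfl
      obtain ⟨T1, t1, f1, e1⟩ := ih1 hr g w' fv.1 hM
      obtain ⟨A2, B2, r2, ra, rb⟩ := red_of_eq_pi (BetaEq.symm e1)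
      obtain ⟨T2, r3, e3⟩ := TyF452.red_ren_inv r2
      have f3 := fv_red r3 f1
      cases T2 with
      | pi A3 B3 =>
          simp only [ren_pi] at e3
          injection e3 with e4 e5
          subst e4; subst e5
          have t3 := tyf_red_type g.wf t1 r3
          obtain ⟨s, hp⟩ := fpi_typed g.wf t3
          obtain ⟨s₁, s₂, s₃, a, b, c, d⟩ := fgen_pi hp _ _ rfl
          obtain ⟨A4, t4, f4, e4⟩ := ih2 hr g w' fv.2 hN
          have e5 : BetaEq A4 A3 := eq_ren_inv_on hr.inj f4 f3.1
            (BetaEq.trans (BetaEq.symm e4) (Red.eq ra))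
          refine ⟨_, .appl t3 (.conv t4 a e5), fv_inst f3.2 fv.2, BetaEq.trans e ?_⟩
          rw [ren_inst]
          exact BetaEq.inst (BetaEq.refl _) (Red.eq rb)
      | _ => cases e3
  | pi E F ih1 ih2 =>
      intro ρ X D D' A' hr g w' fv ht
      obtain ⟨s₁, s₂, s₃, a, b, c, d⟩ := fgen_pi ht _ _ rfl
      obtain ⟨A1, t1, f1, e1⟩ := ih1 hr g w' fv.1 a
      have a' : TyF P D E (sort s₁) := tyf_sort_of_eq g.wf t1
        (eq_ren_inv_on (N := sort s₁) hr.inj f1 trivial (BetaEq.symm e1))
      obtain ⟨A2, t2, f2, e2⟩ := ih2 (hr.up fv.1) (g.cons a') (w'.cons a) fv.2 b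
      have b' : TyF P (fcons E D) F (sort s₂) := tyf_sort_of_eq (g.wf.cons a') t2
        (eq_ren_inv_on (N := sort s₂) (hr.up fv.1).inj f2 trivial (BetaEq.symm e2))
      exact ⟨sort s₃, .prod a' b' c, trivial, d⟩
  | lam E M0 ih1 ih2 =>
      intro ρ X D D' A' hr g w' fv ht
      obtain ⟨B', s', hM, hp, e1⟩ := fgen_lam ht _ _ rfl
      obtain ⟨t₁, t₂, t₃, hE, _, _, _⟩ := fgen_pi hp _ _ rfl
      obtain ⟨A1, u1, f1, e2⟩ := ih1 hr g w' fv.1 hE
      have a' : TyF P D E (sort t₁) := tyf_sort_of_eq g.wf u1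
        (eq_ren_inv_on (N := sort t₁) hr.inj f1 trivial (BetaEq.symm e2))
      obtain ⟨B1, u2, f2, e3⟩ := ih2 (hr.up fv.1) (g.cons a') (w'.cons hE) fv.2 hM
      obtain ⟨B2, r2, nB2⟩ := ((g.cons a').wn hP u2).2
      have u3 := tyf_red_type (g.cons a').wf u2 r2
      have f3 := fv_red r2 f2
      have e4 : BetaEq B' (ren (up ρ) B2) := BetaEq.trans e3 (Red.eq (Red.ren r2 _))
      have r4 : Red B' (ren (up ρ) B2) := red_of_eq_normal e4 (TyF452.normal_ren nB2 _)
      have hp2 := FSR w' hp (Red.pi (.refl : Red (ren ρ E) (ren ρ E)) r4)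
      obtain ⟨s₁, s₂, s₃, a2, b2, c2, d2⟩ := fgen_pi hp2 _ _ rfl
      obtain ⟨A3, u4, f4, e5⟩ := ih1 hr g w' fv.1 a2
      have a3 : TyF P D E (sort s₁) := tyf_sort_of_eq g.wf u4
        (eq_ren_inv_on (N := sort s₁) hr.inj f4 trivial (BetaEq.symm e5))
      have b3 : TyF P (fcons E D) B2 (sort s₂) :=
        strF_sort nB2 (hr.up fv.1) (g.wf.cons a3) f3 b2
      refine ⟨pi E B2, .abs u3 (.prod a3 b3 c2), ⟨fv.1, f3⟩, BetaEq.trans e1 ?_⟩
      exact BetaEq.pi (BetaEq.refl _) e4



end Crest.Agent.R298.StrF657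
end

-- ▼ part R298/WorldF_657

/-!
R298 (S0452), helper657: the WORLD over function contexts: `exists_world`, lists inside the world,
embedding of every well formed list context by an injective renaming, fresh names.
-/

set_option autoImplicit false

namespace Crest.Agent.R298.World657

open Crest.LogicCS.PTS Crest.LogicCS.PTS.Term Relation
open Crest.Agent.R298.Sub452 Crest.Agent.R298.Par452 Crest.Agent.R298.Ty452
open Crest.Agent.R298.TyF452 Crest.Agent.R298.StrF657
open Crest.Agent.R298.Str657 (Fb exists_fb ren_congr fb_ren typed_fb lk_fb)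

universe u
variable {S : Type u} {P : Spec S}

/-! ### `Fb` and `Fv` -/

theorem upS_lt (n : ℕ) : upS {i | i < n} = {i | i < n + 1} := by
  ext i
  cases i with
  | zero => simp
  | succ i => simp

theorem fb_iff_fv {M : Term S} {n : ℕ} : Fb M n ↔ Fv M {i | i < n} := by
  induction M generalizing n with
  | var i => exact Iff.rfl
  | sort s => exact Iff.rfl
  | app M N h1 h2 => exact and_congr h1 h2
  | lam A M h1 h2 => exact and_congr h1 (by rw [upS_lt]; exact h2)
  | pi A M h1 h2 => exact and_congr h1 (by rw [upS_lt]; exact h2)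

/-! ### an injective extension of `rv n` -/

/-- the involution exchanging names and indices below `n`, the identity above -/
def rw' (n i : ℕ) : ℕ := if i < n then n - 1 - i else i

theorem rw'_inj (n : ℕ) : Function.Injective (rw' n) := by
  intro i j h
  unfold rw' at h
  split_ifs at h <;> omega

theorem rw'_eq {n i : ℕ} (h : i < n) : rw' n i = rv n i := by simp [rw', rv, h]

theorem ren_rw' {M : Term S} {n : ℕ} (h : Fb M n) : ren (rw' n) M = ren (rv n) M :=
  ren_congr h (fun _ hi => rw'_eq hi)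

/-! ### from the list form to function contexts -/

theorem WD.tyf {D : ℕ → Term S} (h : WD P D) {n : ℕ} {M A : Term S} (t : At P D n M A) :
    TyF P D M A := by
  have := typed_tyf t.ty (D := D) (ρ := rv n) (fun i B hl => by
    obtain ⟨hi, rfl⟩ := lk_lst_inv (fun n => (h n).1) hl
    rw [ren_rv_rv]
    exact ((h _).1).mono (le_of_lt (rv_lt hi)))
  rwa [ren_rv_rv t.fm, ren_rv_rv t.fa] at this

theorem WD.wff {D : ℕ → Term S} (h : WD P D) : WfF P D := by
  intro n
  obtain ⟨f, s, hs⟩ := h n
  exact ⟨s, h.tyf (n := n) ⟨f, trivial, hs⟩⟩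

theorem WD.good {D : ℕ → Term S} (h : WD P D) : Good P D := by
  refine ⟨h.wff, fun n => ⟨lst D n, rw' n, h.wf n, rw'_inj n, fun i hi => ?_⟩⟩
  rw [rw'_eq hi, ren_rw' (((h i).1).mono (le_of_lt hi))]
  exact lk_lst (fun n => (h n).1) hi

/-- a typed term over the world lives over all sufficiently long lists -/
theorem WD.ev {D : ℕ → Term S} (h : WD P D) {M A : Term S} (t : TyF P D M A) :
    ∃ n₀, ∀ n, n₀ ≤ n → At P D n M A := by
  obtain ⟨n₀, h₀⟩ := tyf_fin t
  obtain ⟨n₁, h₁⟩ := exists_fb M
  obtain ⟨n₂, h₂⟩ := exists_fb A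
  refine ⟨max n₀ (max n₁ n₂), fun n hn => ?_⟩
  have l0 : n₀ ≤ n := le_trans (le_max_left _ _) hn
  have l1 : n₁ ≤ n := le_trans (le_trans (le_max_left _ _) (le_max_right _ _)) hn
  have l2 : n₂ ≤ n := le_trans (le_trans (le_max_right _ _) (le_max_right _ _)) hn
  refine ⟨h₁.mono l1, h₂.mono l2, ?_⟩
  exact h₀ (lst D n) (rv n) (h.wf n)
    (fun i hi => lk_lst (fun n => (h n).1) (lt_of_lt_of_le hi l0))


/-- a WORLD: a good function context with types in level form, in which every legal type has
arbitrarily late names -/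
structure World (P : Spec S) (D : ℕ → Term S) : Prop where
  good : Good P D
  lev : ∀ k, Fb (D k) k
  lst : WD P D
  full : ∀ (A : Term S) (s : S), TyF P D A (sort s) → ∀ m, ∃ k, m ≤ k ∧ D k = A

/-- EXISTENCE OF THE WORLD -/
theorem exists_world (P : Spec S) [Countable S] (h0 : ∃ s t, P.ax s t) :
    ∃ D : ℕ → Term S, World P D := by
  obtain ⟨D, hD, hF⟩ := exists_wlist P h0
  refine ⟨D, hD.good, fun k => (hD k).1, hD, ?_⟩
  intro A s t m
  obtain ⟨n, hn⟩ := hD.ev t
  obtain ⟨k, h1, _, h3⟩ := hF A s n (hn n le_rfl) m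
  exact ⟨k, h1, h3⟩

/-- some axiom is used in every derivation -/
theorem exists_ax {Γ : List (Term S)} {M A : Term S} (h : Typed P Γ M A) : ∃ s t, P.ax s t := by
  induction h with
  | ax a => exact ⟨_, _, a⟩
  | start _ ih => exact ih
  | weak _ _ ih _ => exact ih
  | prod _ _ _ ih _ => exact ih
  | abs _ _ ih _ => exact ih
  | appl _ _ ih _ => exact ih
  | conv _ _ _ ih _ => exact ih


/-- a name of type `A` that does not occur in finitely many given terms -/
theorem World.fresh {D : ℕ → Term S} (w : World P D) {A : Term S} {s : S}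
    (h : TyF P D A (sort s)) (m : ℕ) : ∃ k, m ≤ k ∧ D k = A ∧ TyF P D (var k) A := by
  obtain ⟨k, h1, h2⟩ := w.full A s h m
  refine ⟨k, h1, h2, ?_⟩
  have := tyf_var w.good.wf k
  rwa [h2] at this

theorem exists_bound (n : ℕ) (ρ : ℕ → ℕ) : ∃ m, ∀ i, i < n → ρ i < m := by
  induction n with
  | zero => exact ⟨0, fun i hi => by omega⟩
  | succ n ih =>
      obtain ⟨m, hm⟩ := ih
      refine ⟨max m (ρ n + 1), fun i hi => ?_⟩
      rcases Nat.lt_succ_iff_lt_or_eq.1 hi with h | rfl
      · exact lt_of_lt_of_le (hm i h) (le_max_left _ _)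
      · exact lt_of_lt_of_le (Nat.lt_succ_self _) (le_max_right _ _)

/-- EMBEDDING of a well formed list context into the world by an injective renaming -/
theorem World.embed {D : ℕ → Term S} (w : World P D) {Γ : List (Term S)} (hΓ : Wf P Γ) :
    ∃ ρ : ℕ → ℕ, Function.Injective ρ ∧ ∀ i B, Lk Γ i B → D (ρ i) = ren ρ B := by
  induction hΓ with
  | nil => exact ⟨fun i => i, fun _ _ h => h, fun i B hl => by cases hl⟩
  | @cons Γ A s hw hA ih =>
      obtain ⟨ρ, hρ, hl⟩ := ih
      have hA' : TyF P D (ren ρ A) (sort s) := typed_tyf hA hl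
      obtain ⟨m, hm⟩ := exists_bound Γ.length ρ
      obtain ⟨k, hk, e⟩ := w.full _ _ hA' m
      let τ : ℕ → ℕ := fun i => if i = 0 then k else
        if i ≤ Γ.length then ρ (i - 1) else k + i
      have τ0 : τ 0 = k := by simp [τ]
      have τs : ∀ i, i < Γ.length → τ (i + 1) = ρ i := by
        intro i hi
        have h1 : i + 1 ≤ Γ.length := hi
        simp [τ, h1]
      have τc : ∀ {M : Term S}, Fb M Γ.length → ren τ (wk M) = ren ρ M := by
        intro M hM
        rw [wk, ren_ren]
        exact ren_congr hM (fun i hi => τs i hi)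
      refine ⟨τ, ?_, ?_⟩
      · intro i j h
        by_cases hi : i = 0
        · by_cases hj : j = 0
          · rw [hi, hj]
          · subst hi
            by_cases hj' : j ≤ Γ.length
            · have := hm (j - 1) (by omega)
              simp only [τ, hj, hj', if_true, if_false] at h
              omega
            · simp only [τ, hj, hj', if_true, if_false] at h
              omega
        · by_cases hi' : i ≤ Γ.length
          · have h1 := hm (i - 1) (by omega)
            by_cases hj : j = 0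
            · subst hj
              simp only [τ, hi, hi', if_true, if_false] at h
              omega
            · by_cases hj' : j ≤ Γ.length
              · simp only [τ, hi, hi', hj, hj', if_true, if_false] at h
                have := hρ h
                omega
              · simp only [τ, hi, hi', hj, hj', if_true, if_false] at h
                omega
          · by_cases hj : j = 0
            · subst hj
              simp only [τ, hi, hi', if_true, if_false] at h
              omega
            · by_cases hj' : j ≤ Γ.length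
              · have h1 := hm (j - 1) (by omega)
                simp only [τ, hi, hi', hj, hj', if_true, if_false] at h
                omega
              · simp only [τ, hi, hi', hj, hj', if_false] at h
                omega
      · intro i B hlk
        cases hlk with
        | zero _ _ =>
            have hfA : Fb A Γ.length := (typed_fb hA).1
            rw [τc hfA, τ0, e]
        | @succ _ i B _ hlk =>
            rw [τc (lk_fb hw hlk), τs i hlk.lt]
            exact hl _ _ hlk



/-! ### fresh names -/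

/-- the renaming `0 ↦ k`, `i + 1 ↦ i` -/
def nm (k : ℕ) : ℕ → ℕ
  | 0 => k
  | i + 1 => i

@[simp] theorem nm_zero (k : ℕ) : nm k 0 = k := rfl
@[simp] theorem nm_succ (k i : ℕ) : nm k (i + 1) = i := rfl


/-- the variables of a term under one binder whose names are below `k` -/
def below (k : ℕ) : Set ℕ := {i | i < k + 1}

theorem renX_nm {D : ℕ → Term S} (lev : ∀ k, Fb (D k) k) {k : ℕ} {A : Term S} (e : D k = A) :
    RenX (nm k) (below k) (fcons A D) D := by
  have hA : Fb A k := e ▸ lev k
  refine ⟨?_, ?_, ?_⟩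
  · intro i hi j hj h
    simp only [below, Set.mem_ofPred_eq] at hi hj
    cases i with
    | zero => cases j with
      | zero => rfl
      | succ j => simp only [nm_zero, nm_succ] at h; omega
    | succ i => cases j with
      | zero => simp only [nm_zero, nm_succ] at h; omega
      | succ j => simp only [nm_succ] at h; omega
  · intro i hi
    simp only [below, Set.mem_ofPred_eq] at hi
    rw [below, ← fb_iff_fv]
    cases i with
    | zero => exact fb_ren hA (fun _ h => Nat.succ_lt_succ h)
    | succ i =>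
        exact fb_ren ((lev i).mono (by omega)) (fun _ h => Nat.succ_lt_succ h)
  · intro i hi
    cases i with
    | zero =>
        simp only [nm_zero, fcons_zero, wk, ren_ren, Nat.succ_eq_add_one, nm_succ, ren_id, e]
    | succ i =>
        simp only [fcons_succ, wk, ren_ren, Nat.succ_eq_add_one, nm_succ, ren_id]





end Crest.Agent.R298.World657
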