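import Crest.Agent.R298.SeamA_865_Mg
import Crest.Agent.R298.Tw3_987_Mg
import Crest.Agent.R298.Sub_893
import Crest.Agent.R298.Vt_786
import Crest.Agent.R298.Md2_254
import Crest.Agent.R298.MainF_865
import Crest.Agent.R298.Uniq_452
import Crest.Agent.R298.WorldF_657
import Crest.Agent.R298.Ok_599
import Crest.Agent.R298.MainW_865

-- ▼ part R298/BlockA_488
section

/-!
R298 (S0452), helper488: block (a) (unipolar levels) in the forms `BlockA961` and `BlockAW`
used by the assembly of helper865.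
-/

set_option autoImplicit false

namespace Crest.Agent.R298.BlockA488

open Crest.LogicCS.PTS Crest.Agent.R298.Jd961 Crest.Agent.R298.Main865

/-- **block (a)** -/
theorem blockA961 : BlockA961 := by
  intro n P idx N hS hi i _ hu
  refine G2S488.wni_unipolar (J := lst P) ?_ (fun a b c r => ⟨hi.rule_left r, hi.rule_right r⟩) hu
  intro G A s w h
  exact hS.wn _ _ ⟨_, .inl h⟩

/-- **block (a)**, world form -/
theorem blockAW : BlockAW := blockA961.w

end Crest.Agent.R298.BlockA488
end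

-- ▼ part R298/BlockP_705
section

/-!
R298 (S0452), part P, helper705: **block (P)**: a standard specification has no bipolar strongly
connected component with a fat configuration.
-/

set_option autoImplicit false

namespace Crest.Agent.R298.BlockP705

open Crest.LogicCS.PTS

/-- the tower theorem, from `Tw3_987` -/
theorem tower : BlkQ705.Tower := by
  intro S P Δ L u au b c y db dy A hV al xi p q hb hy par hp hq hbo hyo bdb bdy
  exact Tw987.false_of_fat L ⟨u, au, b, c, y, db, dy, A, hV, al, xi, par, p, hp, q, hq,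
    hb, hbo, bdb, hy, hyo, bdy⟩

/-- **block (P), walk form** -/
theorem blockP : Main865.BlockPW := BlkQ705.blockPW_of tower


end Crest.Agent.R298.BlockP705
end

-- ▼ part R298/Cod2_893
section

/-!
R298 (S0452), helper893: the laws of `entry` / `look` for a validity predicate `vt` of path shapes
at declared closed types (clamp = default off `vt`), and the unfolding equations of `den` when the
clamp by closed terms is the identity.
-/

set_option autoImplicit false

namespace Crest.Agent.R298.Cod893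

open Crest.LogicCS.PTS Crest.LogicCS.PTS.Term Crest.Agent.R298.Sub452

variable {S Q SI C : Type}

/-- validity of shapes at declared closed types -/
structure VLaws (F : Frame S Q SI C) (vt : Q → Sh Q SI C → Prop) : Prop where
  nt_pos : ∀ A s c, vt A s → F.nt A s c = c
  nt_neg : ∀ A s c, ¬ vt A s → F.nt A s c = F.b
  nz_id : ∀ q s c, F.nz q s c = c
  /-- valid paths of minus types have no minus infos -/
  vm : ∀ A, F.mode A = Mode.minus → ∀ p : UPath Q SI C, vt A (sh p) → toM p ≠ none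
  /-- valid paths of plus types have no codes -/
  vp : ∀ A, F.mode A = Mode.plus → ∀ p : UPath Q SI C, vt A (sh p) → IsP p
  /-- valid paths of small types have only small infos -/
  vs : ∀ A, F.mode A = Mode.small → ∀ p : UPath Q SI C, vt A (sh p) → toS p ≠ none
  get_put : ∀ A, F.mode A = Mode.small → ∀ (v : List (Q × SI) → C) (l : List (Q × SI)),
    vt A (sh (embS l : UPath Q SI C)) → F.get (F.put A v) l = v l

section
variable {F : Frame S Q SI C} {vt : Q → Sh Q SI C → Prop}

theorem VLaws.ntu_congr (L : VLaws F vt) {A : Q} {u v : UF Q SI C}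
    (h : ∀ p, vt A (sh p) → u p = v p) : ntu F A u = ntu F A v := by
  funext p
  by_cases hp : vt A (sh p)
  · simp only [ntu, h p hp]
  · simp only [ntu, L.nt_neg _ _ _ hp]

/-- the packed argument only depends on the values at valid paths -/
theorem VLaws.entry_congr (L : VLaws F vt) {A : Q} {u v : UF Q SI C}
    (h : ∀ p, vt A (sh p) → u p = v p) : entry F A u = entry F A v := by
  simp only [entry, L.ntu_congr h]

/-- faithfulness of the packed argument -/
theorem VLaws.look_entry (L : VLaws F vt) {A : Q} {u : UF Q SI C} (hu : Good u)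
    {p : UPath Q SI C} (hp : vt A (sh p)) : look F (entry F A u) p = u p := by
  have hv : ∀ q : UPath Q SI C, q = p → ntu F A u q = u q := by
    intro q hq
    subst hq
    exact L.nt_pos _ _ _ hp
  cases h : F.mode A with
  | small =>
      cases hs : toS p with
      | none => exact absurd hs (L.vs A h p hp)
      | some l =>
          have e : embS l = p := embS_toS hs
          have e2 : look F (entry F A u) p =
              F.get (F.put A (fun l => ntu F A u (embS l))) l := by
            simp only [entry, h, look, hs]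
          rw [e2, L.get_put A h _ l (by rw [e]; exact hp), hv _ e, e]
  | minus =>
      cases hs : toM p with
      | none => exact absurd hs (L.vm A h p hp)
      | some l =>
          have e : emb l = p := emb_toM hs
          have e2 : look F (entry F A u) p = ntu F A u (emb l) := by
            simp only [entry, h, look, hs]
          rw [e2, hv _ e, e]
  | plus =>
      have e2 : look F (entry F A u) p = dec F.b (enc F.b (ntu F A u)) p := by
        simp only [entry, h, look]
      rw [e2, dec_enc F.b ((ntu_good F A hu).coded F.b) (L.vp A h p hp), hv _ rfl]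

/-! ### unfolding equations of `den` when `nz` is the identity -/







end

/-! ### fill / shape facts for validity predicates -/




end Crest.Agent.R298.Cod893
end

-- ▼ part R298/Vt2_786
section

/-!
# R298: `VLaws` of standard frames, wide validity (helper786)

* `Std.vlaws`: the standard frames satisfy 893's `VLaws` for `vt K sg`;
* `vtW K sg st`: WIDE validity of paths (captain, 02:01): `st T a` = `T` is a product and
  `a : dom T` (no relevance); it contains `vt`, and agrees with it on "alive" types.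
-/

set_option autoImplicit false
set_option linter.unusedSectionVars false

namespace Crest.Agent.R298.Vt786

open Crest.Agent.R298.Dom201 (X Val Args codeF app_codeF Supp ArgLt AgA up up_lt up_dn dn_up)
open Crest.Agent.R298.Inf786
open Crest.Agent.R298.Cod893

variable {Q C : Type} [Inhabited C]

section frames

variable {S : Type} {K : Skel Q Q} {sg : Q → Prop} {F : Frame S Q (SI K C) C}






end frames

section wide

variable (K : Skel Q Q) (sg : Q → Prop) (st : Q → Q → Prop)

/-- wide validity: no relevance in the steps -/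
def vtW : Q → Sh Q (SI K C) C → Prop
  | A, [] => K.leaf A
  | A, x :: s => st A x.1 ∧ rngS K sg (K.dom A) x.2 ∧ vtW (K.cod A x.1) s

variable {K sg st}

@[simp] theorem vtW_nil {A : Q} : vtW K sg st A ([] : Sh Q (SI K C) C) ↔ K.leaf A := Iff.rfl

@[simp] theorem vtW_cons {A : Q} {x : Q × ESh Q (SI K C) C} {s : Sh Q (SI K C) C} :
    vtW K sg st A (x :: s) ↔
      st A x.1 ∧ rngS K sg (K.dom A) x.2 ∧ vtW K sg st (K.cod A x.1) s := Iff.rfl



/-- relevance through wide steps: some wide path of cod steps ends in a leaf -/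
inductive RelW (K : Skel Q Q) (st : Q → Q → Prop) : Q → Prop
  | leaf {T : Q} : K.leaf T → RelW K st T
  | step {T a : Q} : st T a → RelW K st (K.cod T a) → RelW K st T



end wide

end Crest.Agent.R298.Vt786
namespace Crest.Agent.R298.Vt786.Std
end Crest.Agent.R298.Vt786.Std
end

-- ▼ part R298/Fr_201
section

/-!
# R298: domain types of closed functions, the frame of a world (helper201)

`Q := Term S`, `cl := Md254.cl`, `rep := id`; the product operation `op` and the value of a sort
`sv` are arbitrary.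
-/

set_option autoImplicit false
set_option linter.unusedSectionVars false

namespace Crest.Agent.R298.Fr201

open Crest.LogicCS.PTS Crest.LogicCS.PTS.Term Relation
open Crest.Agent.R298.Sub452 Crest.Agent.R298.Par452 Crest.Agent.R298.TyF452
open Crest.Agent.R298.Uniq452 (FS funiq)
open Crest.Agent.R298.Md254
open Crest.Agent.R298.Inf786 (Skel Cd Dm Thin tame_of_dead)
open Crest.Agent.R298.Cod893
open Crest.Agent.R298.Vt786

variable {S : Type} {P : Spec S} {D : Set S} {W : ℕ → Term S}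

open Classical in
/-- the domain type of a closed function -/
noncomputable def dtQ (P : Spec S) (W : ℕ → Term S) (q : Term S) : Term S :=
  if h : ∃ x : Term S × Term S, TyF P W q (pi x.1 x.2) then cl (Classical.choose h).1 else q

theorem dtQ_pi {q A B : Term S} (h : TyF P W q (pi A B)) : dtQ P W q = cl A := by
  have hex : ∃ x : Term S × Term S, TyF P W q (pi x.1 x.2) := ⟨(A, B), h⟩
  unfold dtQ
  rw [dif_pos hex]
  exact cl_congr (funiq (Classical.choose_spec hex) h).pi_inv.1

theorem dtQ_cl (w : WfF P W) (hwn : ∀ M A, TyF P W M A → WN M) {M A B : Term S}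
    (h : TyF P W M (pi A B)) : dtQ P W (cl M) = cl A := dtQ_pi (cl_typed w hwn h)

section frame

variable {C : Type} [Inhabited C]

/-- small infos of the world -/
abbrev SIw (P : Spec S) (D : Set S) (W : ℕ → Term S) (C : Type) [Inhabited C] : Type :=
  Vt786.SI (skel P D W) C

/-- the frame of a world, over an arbitrary product operation -/
noncomputable def fr (P : Spec S) (D : Set S) (W : ℕ → Term S) (sv : S → C)
    (op : Term S → Term S → C → (Term S → PEnt (Term S) (SIw P D W C) C → C) → C) :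
    Frame S (Term S) (SIw P D W C) C :=
  stdFrame (skel P D W) (sgQ P D W) cl id (fun _ _ c => c) (dtQ P W) sv op

variable {sv : S → C}
  {op : Term S → Term S → C → (Term S → PEnt (Term S) (SIw P D W C) C → C) → C}

theorem fr_std : Std (skel P D W) (sgQ P D W) (fr P D W sv op) := ⟨rfl, rfl, rfl, rfl, rfl⟩


end frame

end Crest.Agent.R298.Fr201
end

-- ▼ part R298/Cand_704
section

/-!
R298 (S0452), helper704: candidates over a function context `D` (realizers are typed terms with
memory which reduce to a term without redexes of class `≤ i`).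

`Wn`     : `M` reduces (by arbitrary steps) to an `NFF (i+1)` term,
`NeF`    : neutral terms with arguments and memories in `Wn`,
`Fr`, `plug` : spine contexts `hole | E Q | mem E N`,
`Cand`   : closure conditions of doc 2282 (R0),
`cand_wt`, `cand_pi`, `Cand.conv`, `cst`, `cand_cst`.
-/

set_option autoImplicit false
set_option linter.unusedVariables false

namespace Crest.Agent.R298.Cand704

open Crest.LogicCS.PTS Relation
open Crest.Agent.R298.Sub452 Crest.Agent.R298.Par452 Crest.Agent.R298.Ty452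
open Crest.Agent.R298.Mem360 Crest.Agent.R298.TyF452 Crest.Agent.R298.TyMF452
open Crest.Agent.R298.Main865
open Crest.Agent.R298.Mem360.MT (er emb er_emb IsL isL_of_dist dist)

universe u

variable {S : Type u}

/-! ### terms which can be normalised up to class `k` -/

/-- `M` reduces to a term without redexes of class `< k` -/
def Wn (P : Spec S) (idx : S → ℕ) (k : ℕ) (D : ℕ → Term S) (M : MT S) : Prop :=
  ∃ M', MRed M M' ∧ NFF P idx k D M'

variable {P : Spec S} {idx : S → ℕ} {k : ℕ} {D : ℕ → Term S}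

theorem Wn.of_red {M M' : MT S} (h : MRed M M') (w : Wn P idx k D M') : Wn P idx k D M := by
  obtain ⟨M'', h1, h2⟩ := w
  exact ⟨M'', h.trans h1, h2⟩

theorem Wn.of_step {M M' : MT S} (h : MStep M M') (w : Wn P idx k D M') : Wn P idx k D M :=
  Wn.of_red (.single h) w


/-- neutral shape: a variable under applications and memories -/
inductive NeS : MT S → Prop
  | var (n : ℕ) : NeS (.var n)
  | app {M N : MT S} : NeS M → NeS (.app M N)
  | mem {M N : MT S} : NeS M → NeS (.mem M N)

theorem NeS.not_isL {M : MT S} (h : NeS M) : ¬ IsL M := by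
  induction h with
  | var n => exact fun h => h
  | app _ _ => exact fun h => h
  | mem _ ih => exact ih

theorem NeS.dist {M Q R : MT S} (h : NeS M) : ¬ MT.dist M Q = some R := fun e =>
  h.not_isL (isL_of_dist e)

theorem NeS.step {M M' : MT S} (h : NeS M) (s : MStep M M') : NeS M' := by
  induction h generalizing M' with
  | var n => cases s
  | app h ih =>
      cases s with
      | beta hd => exact (h.dist hd).elim
      | appL _ b => exact .app (ih b)
      | appR _ b => exact .app h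
  | mem h ih =>
      cases s with
      | memP _ b => exact .mem (ih b)
      | memN _ b => exact .mem h

theorem NeS.red {M M' : MT S} (h : NeS M) (s : MRed M M') : NeS M' := by
  induction s with
  | refl => exact h
  | tail _ b ih => exact ih.step b

/-- neutral terms with arguments and memories in `Wn` -/
inductive NeF (P : Spec S) (idx : S → ℕ) (k : ℕ) (D : ℕ → Term S) : MT S → Prop
  | var (n : ℕ) : NeF P idx k D (.var n)
  | app {M N : MT S} : NeF P idx k D M → Wn P idx k D N → NeF P idx k D (.app M N)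
  | mem {M N : MT S} : NeF P idx k D M → Wn P idx k D N → NeF P idx k D (.mem M N)

theorem NeF.nes {M : MT S} (h : NeF P idx k D M) : NeS M := by
  induction h with
  | var n => exact .var n
  | app _ _ ih => exact .app ih
  | mem _ _ ih => exact .mem ih

theorem NeF.wn {M : MT S} (h : NeF P idx k D M) : Wn P idx k D M := by
  induction h with
  | var n => exact ⟨_, .refl, trivial⟩
  | @app M N h hN ih =>
      obtain ⟨M', h1, h2⟩ := ih
      obtain ⟨N', h3, h4⟩ := hN
      exact ⟨.app M' N', MRed.app h1 h3, h2, h4, fun hl => ((h.nes.red h1).not_isL hl).elim⟩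
  | @mem M N h hN ih =>
      obtain ⟨M', h1, h2⟩ := ih
      obtain ⟨N', h3, h4⟩ := hN
      exact ⟨.mem M' N', MRed.mem h1 h3, h2, h4⟩

/-! ### spine contexts -/

/-- frames of spine contexts -/
inductive Fr (S : Type u) : Type u
  | ap : MT S → Fr S
  | me : MT S → Fr S

/-- plug a term into a spine context (outermost frame first) -/
def plug : List (Fr S) → MT S → MT S
  | [], v => v
  | .ap Q :: E, v => .app (plug E v) Q
  | .me N :: E, v => .mem (plug E v) N

@[simp] theorem plug_nil (v : MT S) : plug [] v = v := rfl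
@[simp] theorem plug_ap (Q : MT S) (E : List (Fr S)) (v : MT S) :
    plug (.ap Q :: E) v = .app (plug E v) Q := rfl
@[simp] theorem plug_me (Q : MT S) (E : List (Fr S)) (v : MT S) :
    plug (.me Q :: E) v = .mem (plug E v) Q := rfl


theorem plug_step {v v' : MT S} (h : MStep v v') (E : List (Fr S)) :
    MStep (plug E v) (plug E v') := by
  induction E with
  | nil => exact h
  | cons f E ih =>
      cases f with
      | ap Q => exact .appL _ ih
      | me Q => exact .memP _ ih

theorem plug_red {v v' : MT S} (h : MRed v v') (E : List (Fr S)) :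
    MRed (plug E v) (plug E v') := by
  induction h with
  | refl => exact .refl
  | tail _ b ih => exact ih.tail (plug_step b E)

theorem er_plug_mem (E : List (Fr S)) (v n : MT S) :
    er (plug E (.mem v n)) = er (plug E v) := by
  induction E with
  | nil => rfl
  | cons f E ih => cases f <;> simp [ih]

theorem isL_plug_mem {E : List (Fr S)} {v n : MT S} :
    IsL (plug E (.mem v n)) ↔ IsL (plug E v) := by
  induction E with
  | nil => rfl
  | cons f E ih =>
      cases f with
      | ap Q => simp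
      | me Q => simpa using ih

/-- contraction through a spine context consisting of memories only -/
theorem dist_plug {E : List (Fr S)} {v Q R : MT S} (h : MT.dist (plug E v) Q = some R) :
    ∃ v', R = plug E v' ∧ ∀ n, MT.dist (plug E (.mem v n)) Q = some (plug E (.mem v' n)) := by
  induction E generalizing R with
  | nil => exact ⟨R, rfl, fun n => by simp [show MT.dist v Q = some R from h]⟩
  | cons f E ih =>
      cases f with
      | ap N => simp at h
      | me N =>
          simp only [plug_me, MT.dist_mem, Option.map_eq_some_iff] at h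
          obtain ⟨R', hR', rfl⟩ := h
          obtain ⟨v', rfl, h2⟩ := ih hR'
          exact ⟨v', rfl, fun n => by simp [h2 n]⟩

/-- a step of `plug E v` is simulated by `plug E (mem v n)` -/
theorem plug_mem_step {E : List (Fr S)} {v Y : MT S} (h : MStep (plug E v) Y) :
    ∃ E' v', Y = plug E' v' ∧ ∀ n, MStep (plug E (.mem v n)) (plug E' (.mem v' n)) := by
  induction E generalizing Y with
  | nil => exact ⟨[], Y, rfl, fun n => .memP _ h⟩
  | cons f E ih =>
      cases f with
      | ap Q =>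
          cases h with
          | beta hd =>
              obtain ⟨v', e, h2⟩ := dist_plug hd
              exact ⟨E, v', e, fun n => .beta (h2 n)⟩
          | appL _ b =>
              obtain ⟨E', v', rfl, h2⟩ := ih b
              exact ⟨.ap Q :: E', v', rfl, fun n => .appL _ (h2 n)⟩
          | appR _ b => exact ⟨.ap _ :: E, v, rfl, fun n => .appR _ b⟩
      | me N =>
          cases h with
          | memP _ b =>
              obtain ⟨E', v', rfl, h2⟩ := ih b
              exact ⟨.me N :: E', v', rfl, fun n => .memP _ (h2 n)⟩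
          | memN _ b => exact ⟨.me _ :: E, v, rfl, fun n => .memN _ b⟩

theorem plug_mem_red {E : List (Fr S)} {v Y : MT S} (h : MRed (plug E v) Y) :
    ∃ E' v', Y = plug E' v' ∧ ∀ n, MRed (plug E (.mem v n)) (plug E' (.mem v' n)) := by
  induction h with
  | refl => exact ⟨E, v, rfl, fun n => .refl⟩
  | tail _ b ih =>
      obtain ⟨E', v', rfl, h2⟩ := ih
      obtain ⟨E'', v'', rfl, h3⟩ := plug_mem_step b
      exact ⟨E'', v'', rfl, fun n => (h2 n).tail (h3 n)⟩

theorem nff_plug_mem {E : List (Fr S)} {v n : MT S} (h : NFF P idx k D (plug E v))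
    (hn : NFF P idx k D n) : NFF P idx k D (plug E (.mem v n)) := by
  induction E with
  | nil => exact ⟨h, hn⟩
  | cons f E ih =>
      cases f with
      | ap Q =>
          obtain ⟨h1, h2, h3⟩ := h
          refine ⟨ih h1, h2, fun hl => ?_⟩
          obtain ⟨T, s, a, b, c⟩ := h3 (isL_plug_mem.1 hl)
          exact ⟨T, s, by rw [er_plug_mem]; exact a, b, c⟩
      | me Q => exact ⟨ih h.1, h.2⟩

/-- `Wn` is closed under insertion of memories in spine contexts -/
theorem Wn.ins {E : List (Fr S)} {v n : MT S} (h : Wn P idx k D (plug E v))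
    (hn : Wn P idx k D n) : Wn P idx k D (plug E (.mem v n)) := by
  obtain ⟨Y, h1, h2⟩ := h
  obtain ⟨n', h3, h4⟩ := hn
  obtain ⟨E', v', rfl, h5⟩ := plug_mem_red h1
  refine ⟨plug E' (.mem v' n'), (h5 n).trans (plug_red ?_ E'), nff_plug_mem h2 h4⟩
  exact MRed.mem .refl h3

/-- `Wn` is closed under head expansion in spine contexts -/
theorem Wn.exp {E : List (Fr S)} {F Q R : MT S} (hd : MT.dist F Q = some R)
    (h : Wn P idx k D (plug E R)) : Wn P idx k D (plug E (.app F Q)) :=
  Wn.of_step (plug_step (.beta hd) E) h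

theorem Wn.mem {v n : MT S} (h : Wn P idx k D v) (hn : Wn P idx k D n) :
    Wn P idx k D (.mem v n) := Wn.ins (E := []) h hn

/-! ### candidates -/

/-- typed members of `Wn` -/
def Wt (P : Spec S) (idx : S → ℕ) (k : ℕ) (D : ℕ → Term S) (T : Term S) : Set (MT S) :=
  {v | TMF P D v T ∧ Wn P idx k D v}

/-- candidates for the type `T` -/
structure Cand (P : Spec S) (idx : S → ℕ) (k : ℕ) (D : ℕ → Term S) (T : Term S)
    (X : Set (MT S)) : Prop where
  sub : ∀ v ∈ X, TMF P D v T ∧ Wn P idx k D v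
  ne : ∀ v, NeF P idx k D v → TMF P D v T → v ∈ X
  exp : ∀ E F Q R, MT.dist F Q = some R → plug E R ∈ X → TMF P D (plug E (.app F Q)) T →
    plug E (.app F Q) ∈ X
  ins : ∀ E v n, plug E v ∈ X → Wn P idx k D n → TMF P D (plug E (.mem v n)) T →
    plug E (.mem v n) ∈ X

theorem cand_wt (P : Spec S) (idx : S → ℕ) (k : ℕ) (D : ℕ → Term S) (T : Term S) :
    Cand P idx k D T (Wt P idx k D T) where
  sub v h := h
  ne v h ht := ⟨ht, h.wn⟩
  exp E F Q R hd h ht := ⟨ht, Wn.exp hd h.2⟩
  ins E v n h hn ht := ⟨ht, Wn.ins h.2 hn⟩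

/-- change of the type along conversion -/
theorem Cand.conv {T T' : Term S} {X : Set (MT S)} (h : Cand P idx k D T X)
    (hc : ∀ v, TMF P D v T ↔ TMF P D v T') : Cand P idx k D T' X where
  sub v hv := ⟨(hc v).1 (h.sub v hv).1, (h.sub v hv).2⟩
  ne v hv ht := h.ne v hv ((hc v).2 ht)
  exp E F Q R hd hR ht := h.exp E F Q R hd hR ((hc _).2 ht)
  ins E v n hv hn ht := h.ins E v n hv hn ((hc _).2 ht)

theorem tmf_conv_iff (w : WfF P D) {T T' : Term S} {s s' : S} (hT : TyF P D T (.sort s))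
    (hT' : TyF P D T' (.sort s')) (e : BetaEq T T') (v : MT S) :
    TMF P D v T ↔ TMF P D v T' :=
  ⟨fun h => .conv h e hT', fun h => .conv h (BetaEq.symm e) hT⟩

theorem Cand.conv' {T T' : Term S} {X : Set (MT S)} (w : WfF P D) (h : Cand P idx k D T X)
    {s s' : S} (hT : TyF P D T (.sort s)) (hT' : TyF P D T' (.sort s')) (e : BetaEq T T') :
    Cand P idx k D T' X :=
  h.conv (tmf_conv_iff w hT hT' e)

theorem wt_conv (w : WfF P D) {T T' : Term S} {s s' : S} (hT : TyF P D T (.sort s))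
    (hT' : TyF P D T' (.sort s')) (e : BetaEq T T') : Wt P idx k D T = Wt P idx k D T' := by
  ext v
  exact and_congr_left fun _ => tmf_conv_iff w hT hT' e v

theorem Cand.mem {T : Term S} {X : Set (MT S)} (h : Cand P idx k D T X) {v n : MT S}
    (hv : v ∈ X) (hn : Wn P idx k D n) {C : Term S} (ht : TMF P D n C) : .mem v n ∈ X :=
  h.ins [] v n hv hn (.mem (h.sub v hv).1 ht)

theorem Cand.var {T : Term S} {X : Set (MT S)} (h : Cand P idx k D T X) {n : ℕ}
    (ht : TMF P D (.var n) T) : .var n ∈ X := h.ne _ (.var n) ht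

/-- the product of candidates: `XA` realizers of the domain, `Al w j` the allowed semantic
values `j` of the realizer `w`, `Y w j` the candidate of the instance of the codomain -/
def PiSet (P : Spec S) (idx : S → ℕ) (k : ℕ) (D : ℕ → Term S) (T : Term S) {J : Type*}
    (XA : Set (MT S)) (Al : MT S → J → Prop) (Y : MT S → J → Set (MT S)) : Set (MT S) :=
  {v | TMF P D v T ∧ Wn P idx k D v ∧ ∀ w ∈ XA, ∀ j, Al w j → .app v w ∈ Y w j}

theorem cand_pi {J : Type*} {A B : Term S} {XA : Set (MT S)} {Al : MT S → J → Prop}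
    {Y : MT S → J → Set (MT S)}
    (hA : ∀ w ∈ XA, TMF P D w A ∧ Wn P idx k D w)
    (hY : ∀ w ∈ XA, ∀ j, Al w j → Cand P idx k D (inst (er w) B) (Y w j)) :
    Cand P idx k D (.pi A B) (PiSet P idx k D (.pi A B) XA Al Y) where
  sub v h := ⟨h.1, h.2.1⟩
  ne v h ht := ⟨ht, h.wn, fun w hw j hj =>
    (hY w hw j hj).ne _ (.app h (hA w hw).2) (.app ht (hA w hw).1)⟩
  exp E F Q R hd h ht := ⟨ht, Wn.exp hd h.2.1, fun w hw j hj =>
    (hY w hw j hj).exp (.ap w :: E) F Q R hd (h.2.2 w hw j hj) (.app ht (hA w hw).1)⟩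
  ins E v n h hn ht := ⟨ht, Wn.ins h.2.1 hn, fun w hw j hj =>
    (hY w hw j hj).ins (.ap w :: E) v n (h.2.2 w hw j hj) hn (.app ht (hA w hw).1)⟩



/-- clamp a set of terms to a candidate of `T` -/
noncomputable def cst (P : Spec S) (idx : S → ℕ) (k : ℕ) (D : ℕ → Term S) (T : Term S)
    (X : Set (MT S)) : Set (MT S) := by
  classical exact if Cand P idx k D T X then X else Wt P idx k D T

theorem cand_cst (P : Spec S) (idx : S → ℕ) (k : ℕ) (D : ℕ → Term S) (T : Term S)
    (X : Set (MT S)) : Cand P idx k D T (cst P idx k D T X) := by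
  unfold cst
  split_ifs with h
  · exact h
  · exact cand_wt P idx k D T

theorem cst_of_cand {T : Term S} {X : Set (MT S)} (h : Cand P idx k D T X) :
    cst P idx k D T X = X := by
  unfold cst
  rw [if_pos h]


/-- the least candidate -/
inductive Bot (P : Spec S) (idx : S → ℕ) (k : ℕ) (D : ℕ → Term S) (T : Term S) : MT S → Prop
  | ne {v : MT S} : NeF P idx k D v → TMF P D v T → Bot P idx k D T v
  | exp {E : List (Fr S)} {F Q R : MT S} : MT.dist F Q = some R → Bot P idx k D T (plug E R) →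
      TMF P D (plug E (.app F Q)) T → Bot P idx k D T (plug E (.app F Q))
  | ins {E : List (Fr S)} {v n : MT S} : Bot P idx k D T (plug E v) → Wn P idx k D n →
      TMF P D (plug E (.mem v n)) T → Bot P idx k D T (plug E (.mem v n))

theorem Bot.le {T : Term S} {X : Set (MT S)} (h : Cand P idx k D T X) {v : MT S}
    (hv : Bot P idx k D T v) : v ∈ X := by
  induction hv with
  | ne hn ht => exact h.ne _ hn ht
  | exp hd _ ht ih => exact h.exp _ _ _ _ hd ih ht
  | ins _ hn ht ih => exact h.ins _ _ _ ih hn ht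



end Crest.Agent.R298.Cand704
end

-- ▼ part R298/SM1_646
section

/-!
R298 (S0452), helper646: STAGE MODEL IN ONE WORLD (T6), part 1: normal forms, classes, the record
`TyEval` (type evaluator), environments `Env`, realizer sets `RR`, `R`, and (R0)-(R3), (R5)-(R8).

Everything is over one world `D`. `θ x = er (sig x)` are the closed terms of the environment,
`inf x` the infos.
-/

set_option autoImplicit false

namespace Crest.Agent.R298.SM646

open Crest.LogicCS.PTS Relation
open Crest.Agent.R298.Sub452 Crest.Agent.R298.Par452 Crest.Agent.R298.Ty452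
open Crest.Agent.R298.Mem360 Crest.Agent.R298.TyF452 Crest.Agent.R298.TyMF452
open Crest.Agent.R298.Uniq452 Crest.Agent.R298.Main865 Crest.Agent.R298.Cand704
open Crest.Agent.R298.StrF657
open Crest.Agent.R298.Mem360.MT (er emb er_emb IsL isL_of_dist dist mren mwk mups msub mscons
  minst er_mren er_mups er_msub er_minst)

universe u v

variable {S : Type u}

/-! ### normal forms -/

open Classical in
/-- the normal form of a weakly normalising term (the term itself otherwise) -/
noncomputable def nf (T : Term S) : Term S := if h : WN T then Classical.choose h else T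

theorem nf_spec {T : Term S} (h : WN T) : Red T (nf T) ∧ Normal (nf T) := by
  classical
  have e : nf T = Classical.choose h := by rw [nf, dif_pos h]
  rw [e]
  exact Classical.choose_spec h

theorem nf_red {T : Term S} (h : WN T) : Red T (nf T) := (nf_spec h).1

theorem nf_normal {T : Term S} (h : WN T) : Normal (nf T) := (nf_spec h).2

theorem nf_betaEq {T : Term S} (h : WN T) : BetaEq T (nf T) := (nf_red h).eq

theorem wn_of_normal {T : Term S} (h : Normal T) : WN T := ⟨T, .refl, h⟩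

theorem nf_of_normal {T : Term S} (h : Normal T) : nf T = T :=
  normal_red h (nf_red (wn_of_normal h))

theorem wn_conv {T T' : Term S} (h : WN T) (e : BetaEq T T') : WN T' :=
  ⟨nf T, red_of_eq_normal (BetaEq.trans (BetaEq.symm e) (nf_betaEq h)) (nf_normal h),
    nf_normal h⟩

theorem nf_eq {T T' : Term S} (h : WN T) (e : BetaEq T T') : nf T = nf T' := by
  have h' := wn_conv h e
  exact normal_unique (BetaEq.trans (BetaEq.symm (nf_betaEq h)) (BetaEq.trans e (nf_betaEq h')))
    (nf_normal h) (nf_normal h')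

theorem nf_unique {T N : Term S} (h : Normal N) (e : BetaEq T N) : nf T = N := by
  rw [← nf_of_normal h]
  exact (nf_eq (wn_of_normal h) (BetaEq.symm e)).symm

theorem nf_ren (r : ℕ → ℕ) (T : Term S) : nf (ren r T) = ren r (nf T) := by
  classical
  by_cases h : WN T
  · exact nf_unique (normal_ren (nf_normal h) r) (BetaEq.ren (nf_betaEq h) r)
  · have h' : ¬ WN (ren r T) := fun k => h (wn_of_ren k)
    rw [nf, dif_neg h', nf, dif_neg h]

theorem normal_sort (s : S) : Normal (Term.sort s : Term S) := by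
  intro N b
  cases b

theorem nf_sort (s : S) : nf (.sort s : Term S) = .sort s := nf_of_normal (normal_sort s)

theorem normal_pi {A B : Term S} (hA : Normal A) (hB : Normal B) : Normal (.pi A B) := by
  intro N b
  cases b with
  | piA _ b => exact hA _ b
  | piB _ b => exact hB _ b

theorem normal_pi_inv {A B : Term S} (h : Normal (.pi A B)) : Normal A ∧ Normal B :=
  ⟨fun _ b => h _ (.piA _ b), fun _ b => h _ (.piB _ b)⟩

theorem nf_pi {A B : Term S} (hA : WN A) (hB : WN B) : nf (.pi A B) = .pi (nf A) (nf B) :=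
  nf_unique (normal_pi (nf_normal hA) (nf_normal hB))
    (BetaEq.pi (nf_betaEq hA) (nf_betaEq hB))

theorem wn_pi_inv {A B : Term S} (h : WN (.pi A B)) : WN A ∧ WN B := by
  obtain ⟨N, r, n⟩ := h
  obtain ⟨A', B', rfl, rA, rB⟩ := red_pi r
  obtain ⟨nA, nB⟩ := normal_pi_inv n
  exact ⟨⟨A', rA, nA⟩, ⟨B', rB, nB⟩⟩

/-! ### classes -/

/-- the type `T` has class at least `i` in `G` -/
def Cl (P : Spec S) (idx : S → ℕ) (i : ℕ) (G : ℕ → Term S) (T : Term S) : Prop :=
  ∃ s, Sg P G T s ∧ i ≤ idx s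

/-- the type `T` is high in `G`: some sort of class above `i` -/
def Hi (P : Spec S) (idx : S → ℕ) (i : ℕ) (G : ℕ → Term S) (T : Term S) : Prop :=
  ∃ s, Sg P G T s ∧ i < idx s

variable {P : Spec S} {idx : S → ℕ} {i : ℕ}

theorem Cl.conv {G : ℕ → Term S} {T T' : Term S} (h : Cl P idx i G T) (e : BetaEq T T') :
    Cl P idx i G T' := by
  obtain ⟨s, h1, h2⟩ := h
  exact ⟨s, h1.conv (BetaEq.symm e), h2⟩

theorem Hi.conv {G : ℕ → Term S} {T T' : Term S} (h : Hi P idx i G T) (e : BetaEq T T') :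
    Hi P idx i G T' := by
  obtain ⟨s, h1, h2⟩ := h
  exact ⟨s, h1.conv (BetaEq.symm e), h2⟩


theorem Cl.ren {G G' : ℕ → Term S} {T : Term S} {r : ℕ → ℕ} (h : Cl P idx i G T)
    (hr : RenF r G G') : Cl P idx i G' (Sub452.ren r T) := by
  obtain ⟨s, h1, h2⟩ := h
  exact ⟨s, h1.ren hr, h2⟩

theorem Cl.sub {G G' : ℕ → Term S} {T : Term S} {σ : ℕ → Term S} (h : Cl P idx i G T)
    (hs : SubF P σ G G') : Cl P idx i G' (Sub452.sub σ T) := by
  obtain ⟨s, h1, h2⟩ := h
  exact ⟨s, h1.sub hs, h2⟩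

/-- strengthening of the sorts of a type -/
theorem sg_wk_inv {G : ℕ → Term S} (w : WfF P G) {A T : Term S} {s a : S}
    (hA : TyF P G A (.sort a)) (hT : WN T)
    (h : Sg P (fcons A G) (wk T) s) : Sg P G T s := by
  have n : Normal (wk (nf T)) := normal_ren (nf_normal hT) _
  have h0 : TyF P (fcons A G) (wk (nf T)) (.sort s) :=
    (Sg.normal (w.cons hA) n).1 (h.conv (BetaEq.symm (BetaEq.ren (nf_betaEq hT) _)))
  have hr : RenX Nat.succ Set.univ G (fcons A G) :=
    ⟨fun i _ j _ e => Nat.succ_injective e, fun i _ => fv_univ _, fun i _ => rfl⟩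
  exact ⟨nf T, nf_betaEq hT, strF_sort (nf_normal hT) hr w (fv_univ _) h0⟩

theorem Cl.wk_inv {G : ℕ → Term S} (w : WfF P G) {A T : Term S} {a : S}
    (hA : TyF P G A (.sort a)) (hT : WN T) (h : Cl P idx i (fcons A G) (wk T)) :
    Cl P idx i G T := by
  obtain ⟨s, h1, h2⟩ := h
  exact ⟨s, sg_wk_inv w hA hT h1, h2⟩

/-! ### type evaluators -/

/-- extension of an environment of infos -/
def isc {X : Type v} (j : X) (ν : ℕ → X) : ℕ → X
  | 0 => j
  | n + 1 => ν n

@[simp] theorem isc_zero {X : Type v} (j : X) (ν : ℕ → X) : isc j ν 0 = j := rfl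
@[simp] theorem isc_succ {X : Type v} (j : X) (ν : ℕ → X) (n : ℕ) : isc j ν (n + 1) = ν n := rfl

open Classical in
/-- realizer set of the source type `T` at closed terms `θ` and infos `ν`: all typed members of
`Wn` if the closed type is high, the value clamped to a candidate otherwise -/
noncomputable def RRof (P : Spec S) (idx : S → ℕ) (i : ℕ) (D : ℕ → Term S) {Inf : Type v}
    (ev : Term S → (ℕ → Term S) → (ℕ → Inf) → Set (MT S)) (T : Term S) (θ : ℕ → Term S)
    (ν : ℕ → Inf) : Set (MT S) :=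
  if Hi P idx i D (sub θ T) then Wt P idx (i + 1) D (sub θ T)
  else cst P idx (i + 1) D (sub θ T) (ev T θ ν)

/-- TYPE EVALUATOR at stage `i` over the world `D`: `ev T θ ν` = value of the source type `T` at
the empty argument list, for closed terms `θ` and infos `ν` of the variables; `IQ K j`: the info
`j` is admitted for variables of the closed type `K`. -/
structure TyEval (P : Spec S) (idx : S → ℕ) (i : ℕ) (D : ℕ → Term S) where
  /-- infos of variables -/
  Inf : Type v
  /-- infos over which a product with closed domain `K` ranges -/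
  IQ : Term S → Inf → Prop
  ne : ∀ K, ∃ j, IQ K j
  iq_conv : ∀ {K K' : Term S} {j : Inf}, BetaEq K K' → IQ K j → IQ K' j
  /-- info of the variables of types of low class -/
  dfl : Inf
  /-- value of a raw type at the empty argument list -/
  ev : Term S → (ℕ → Term S) → (ℕ → Inf) → Set (MT S)
  ev_ren : ∀ (T : Term S) (r : ℕ → ℕ) (θ : ℕ → Term S) (ν : ℕ → Inf),
    ev (ren r T) θ ν = ev T (fun k => θ (r k)) (fun k => ν (r k))
  ev_sort : ∀ (s : S) (θ : ℕ → Term S) (ν : ℕ → Inf), (∀ v, v ∉ ev (.sort s) θ ν) ∨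
    ev (.sort s) θ ν = Wt P idx (i + 1) D (.sort s)
  ev_pi : ∀ (A B : Term S) (θ : ℕ → Term S) (ν : ℕ → Inf) (c : S),
    TyF P D (sub θ (.pi A B)) (.sort c) → idx c = i → ¬ Hi P idx i D (sub θ (.pi A B)) →
    ev (.pi A B) θ ν = PiSet P idx (i + 1) D (sub θ (.pi A B)) (RRof P idx i D ev A θ ν)
      (fun _ j => IQ (sub θ A) j) (fun w j => RRof P idx i D ev B (scons (er w) θ) (isc j ν))

variable {D : ℕ → Term S}

namespace TyEval

variable (Z : TyEval.{u, v} P idx i D)

/-- realizer sets -/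
noncomputable def RR (T : Term S) (θ : ℕ → Term S) (ν : ℕ → Z.Inf) : Set (MT S) :=
  RRof P idx i D Z.ev T θ ν

theorem rr_high {T : Term S} {θ : ℕ → Term S} {ν : ℕ → Z.Inf}
    (h : Hi P idx i D (sub θ T)) : Z.RR T θ ν = Wt P idx (i + 1) D (sub θ T) := by
  unfold RR RRof
  rw [if_pos h]

theorem rr_low {T : Term S} {θ : ℕ → Term S} {ν : ℕ → Z.Inf}
    (h : ¬ Hi P idx i D (sub θ T)) :
    Z.RR T θ ν = cst P idx (i + 1) D (sub θ T) (Z.ev T θ ν) := by
  unfold RR RRof
  rw [if_neg h]

theorem rr_cand (T : Term S) (θ : ℕ → Term S) (ν : ℕ → Z.Inf) :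
    Cand P idx (i + 1) D (sub θ T) (Z.RR T θ ν) := by
  by_cases h : Hi P idx i D (sub θ T)
  · rw [Z.rr_high h]; exact cand_wt _ _ _ _ _
  · rw [Z.rr_low h]; exact cand_cst _ _ _ _ _ _

theorem rr_ren (T : Term S) (r : ℕ → ℕ) (θ : ℕ → Term S) (ν : ℕ → Z.Inf) :
    Z.RR (ren r T) θ ν = Z.RR T (fun k => θ (r k)) (fun k => ν (r k)) := by
  unfold RR RRof
  rw [sub_ren, Z.ev_ren]

theorem rr_pi {A B : Term S} {θ : ℕ → Term S} {ν : ℕ → Z.Inf} {c : S}
    (h : TyF P D (sub θ (.pi A B)) (.sort c)) (hc : idx c = i)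
    (hn : ¬ Hi P idx i D (sub θ (.pi A B))) :
    Z.RR (.pi A B) θ ν = PiSet P idx (i + 1) D (sub θ (.pi A B)) (Z.RR A θ ν)
      (fun _ j => Z.IQ (sub θ A) j) (fun w j => Z.RR B (scons (er w) θ) (isc j ν)) := by
  rw [Z.rr_low hn, Z.ev_pi A B θ ν c h hc hn]
  refine cst_of_cand ?_
  refine cand_pi (A := sub θ A) (B := sub (ups θ) B) ?_ ?_
  · intro w hw
    exact (Z.rr_cand A θ ν).sub w hw
  · intro w _ j _
    have := Z.rr_cand B (scons (er w) θ) (isc j ν)
    rwa [sub_scons] at this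

theorem rr_sort {θ : ℕ → Term S} {ν : ℕ → Z.Inf} {s : S} {k : ℕ} (hk : TMF P D (.var k) (.sort s)) :
    Z.RR (.sort s) θ ν = Wt P idx (i + 1) D (.sort s) := by
  by_cases h : Hi P idx i D (sub θ (.sort s))
  · exact Z.rr_high h
  · rw [Z.rr_low h]
    rcases Z.ev_sort s θ ν with h' | h'
    · show cst P idx (i + 1) D (.sort s) (Z.ev (.sort s) θ ν) = _
      unfold cst
      rw [if_neg]
      intro hc
      exact h' _ (hc.var hk)
    · rw [h']
      exact cst_of_cand (cand_wt _ _ _ _ _)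

end TyEval

/-! ### environments -/

/-- environments of the source context `G` in the world `D` -/
structure Env (Z : TyEval.{u, v} P idx i D) (G : ℕ → Term S) where
  /-- substitution -/
  sig : ℕ → MT S
  /-- infos -/
  inf : ℕ → Z.Inf
  typ : MSubF P sig G D
  mem : ∀ x, Cl P idx i G (G x) → sig x ∈ Z.RR (nf (G x)) (fun k => er (sig k)) inf
  iq : ∀ x, Cl P idx i G (G x) → Z.IQ (sub (fun k => er (sig k)) (G x)) (inf x)
  low : ∀ x, ¬ Cl P idx i G (G x) → (∃ k, sig x = .var k) ∧ inf x = Z.dfl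

namespace Env

variable {Z : TyEval.{u, v} P idx i D} {G : ℕ → Term S}

/-- the closed terms of an environment -/
def th (ρ : Env Z G) : ℕ → Term S := fun k => er (ρ.sig k)

/-- realizers of the source type `T` -/
noncomputable def R (ρ : Env Z G) (T : Term S) : Set (MT S) := Z.RR (nf T) ρ.th ρ.inf

/-- `ρ'` extends `ρ` -/
def Ext {A : Term S} (ρ : Env Z G) (ρ' : Env Z (fcons A G)) : Prop :=
  (∀ n, ρ'.sig (n + 1) = ρ.sig n) ∧ ∀ n, ρ'.inf (n + 1) = ρ.inf n

theorem subF (ρ : Env Z G) : SubF P ρ.th G D := ρ.typ.subF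

theorem Ext.th {A : Term S} {ρ : Env Z G} {ρ' : Env Z (fcons A G)} (h : ρ.Ext ρ') :
    ρ'.th = scons (er (ρ'.sig 0)) ρ.th := by
  funext n
  cases n with
  | zero => rfl
  | succ n => show er (ρ'.sig (n + 1)) = er (ρ.sig n); rw [h.1]

theorem Ext.sig {A : Term S} {ρ : Env Z G} {ρ' : Env Z (fcons A G)} (h : ρ.Ext ρ') :
    ρ'.sig = mscons (ρ'.sig 0) ρ.sig := by
  funext n
  cases n with
  | zero => rfl
  | succ n => exact h.1 n

theorem Ext.inf {A : Term S} {ρ : Env Z G} {ρ' : Env Z (fcons A G)} (h : ρ.Ext ρ') :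
    ρ'.inf = isc (ρ'.inf 0) ρ.inf := by
  funext n
  cases n with
  | zero => rfl
  | succ n => exact h.2 n


/-- an extension assigns a realizer with an admitted info to the new variable -/
theorem Ext.zero {ρ : Env Z G} {A : Term S} {ρ' : Env Z (fcons A G)} (h : ρ.Ext ρ')
    (hc : Cl P idx i G A) : ρ'.sig 0 ∈ ρ.R A ∧ Z.IQ (sub ρ.th A) (ρ'.inf 0) := by
  have hc' : Cl P idx i (fcons A G) (wk A) := hc.ren (RenF.wk G A)
  have e1 : (fun n => ρ'.th (n + 1)) = ρ.th := by
    funext n; exact congrArg er (h.1 n)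
  have e2 : (fun n => ρ'.inf (n + 1)) = ρ.inf := by
    funext n; exact h.2 n
  constructor
  · have := ρ'.mem 0 hc'
    rw [fcons_zero, wk, nf_ren, Z.rr_ren] at this
    change ρ'.sig 0 ∈ Z.RR (nf A) (fun n => ρ'.th (n + 1)) (fun n => ρ'.inf (n + 1)) at this
    rwa [e1, e2] at this
  · have := ρ'.iq 0 hc'
    rw [fcons_zero, wk, sub_ren] at this
    change Z.IQ (sub (fun n => ρ'.th (n + 1)) A) (ρ'.inf 0) at this
    rwa [e1] at this

theorem cl_dom {A B : Term S} (hr : ∀ a b c, P.rule a b c → idx c ≤ idx a ∧ idx c ≤ idx b)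
    (w : WfF P G) (hc : Cl P idx i G (.pi A B)) : Cl P idx i G A := by
  obtain ⟨c, h1, h2⟩ := hc
  obtain ⟨a, b, ru, h3, _⟩ := h1.pi_inv w
  exact ⟨a, h3, h2.trans (hr a b c ru).1⟩


/-- (R7) sorts -/
theorem R_sort (w : World657.World P D) (ρ : Env Z G) {s t : S}
    (hT : TyF P G (.sort s) (.sort t)) :
    ρ.R (.sort s) = Wt P idx (i + 1) D (.sort s) := by
  have h : TyF P D (.sort s) (.sort t) := tyf_sub hT ρ.subF
  obtain ⟨k, -, hk⟩ := w.full _ _ h 0
  have hv : TMF P D (.var k) (.sort s) := by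
    have := tmf_var w.good.wf k
    rwa [hk] at this
  unfold R
  rw [nf_sort]
  exact Z.rr_sort hv

section
variable (hP : ∀ (Γ : List (Term S)) (M : Term S), Legal P Γ M → WN M)
include hP

/-- (R0) realizer sets are candidates -/
theorem cand (w : WfF P D) (g : Good P G) (ρ : Env Z G) {T : Term S} {s : S}
    (hT : TyF P G T (.sort s)) :
    Cand P idx (i + 1) D (sub ρ.th T) (ρ.R T) := by
  have hw : WN T := (g.wn hP hT).1
  have h1 : TyF P D (sub ρ.th T) (.sort s) := tyf_sub hT ρ.subF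
  have h2 : TyF P D (sub ρ.th (nf T)) (.sort s) := tyf_sub (FSR g.wf hT (nf_red hw)) ρ.subF
  exact (Z.rr_cand (nf T) ρ.th ρ.inf).conv' w h2 h1 (BetaEq.symm (BetaEq.sub (nf_betaEq hw) _))

/-- (R1) conversion -/
theorem R_conv (g : Good P G) (ρ : Env Z G) {T T' : Term S} {s : S}
    (hT : TyF P G T (.sort s)) (e : BetaEq T T') : ρ.R T = ρ.R T' := by
  unfold R
  rw [nf_eq (g.wn hP hT).1 e]

/-- (R2) types which are high at run time -/
theorem R_high (w : WfF P D) (g : Good P G) (ρ : Env Z G) {T : Term S} {s : S}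
    (hT : TyF P G T (.sort s)) (h : Hi P idx i D (sub ρ.th T)) :
    ρ.R T = Wt P idx (i + 1) D (sub ρ.th T) := by
  have hw : WN T := (g.wn hP hT).1
  have h1 : TyF P D (sub ρ.th T) (.sort s) := tyf_sub hT ρ.subF
  have h2 : TyF P D (sub ρ.th (nf T)) (.sort s) := tyf_sub (FSR g.wf hT (nf_red hw)) ρ.subF
  have e : BetaEq (sub ρ.th T) (sub ρ.th (nf T)) := BetaEq.sub (nf_betaEq hw) _
  unfold R
  rw [Z.rr_high (h.conv e)]
  exact (wt_conv w h1 h2 e).symm

/-- (R3) products, in terms of values -/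
theorem mem_pi (w : WfF P D) (g : Good P G) (ρ : Env Z G) {A B : Term S} {s : S}
    (hT : TyF P G (.pi A B) (.sort s)) (hc : Cl P idx i G (.pi A B))
    (hn : ¬ Hi P idx i D (sub ρ.th (.pi A B))) (v : MT S) :
    v ∈ ρ.R (.pi A B) ↔ TMF P D v (sub ρ.th (.pi A B)) ∧ Wn P idx (i + 1) D v ∧
      ∀ x ∈ ρ.R A, ∀ j, Z.IQ (sub ρ.th A) j →
        .app v x ∈ Z.RR (nf B) (scons (er x) ρ.th) (isc j ρ.inf) := by
  have hw : WN (Term.pi A B) := (g.wn hP hT).1
  obtain ⟨hA, hB⟩ := wn_pi_inv hw
  have e0 : nf (Term.pi A B) = .pi (nf A) (nf B) := nf_pi hA hB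
  have e : BetaEq (sub ρ.th (.pi A B)) (sub ρ.th (.pi (nf A) (nf B))) := by
    rw [← e0]; exact BetaEq.sub (nf_betaEq hw) _
  obtain ⟨c, h1, h2⟩ := hc
  have h3 : TyF P G (.pi (nf A) (nf B)) (.sort c) := by
    rw [← e0]
    exact (Sg.normal g.wf (nf_normal hw)).1 (h1.conv (BetaEq.symm (nf_betaEq hw)))
  have h4 : TyF P D (sub ρ.th (.pi (nf A) (nf B))) (.sort c) := tyf_sub h3 ρ.subF
  have hn' : ¬ Hi P idx i D (sub ρ.th (.pi (nf A) (nf B))) := fun h =>
    hn (h.conv (BetaEq.symm e))
  have h5 : idx c = i := by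
    refine le_antisymm ?_ h2
    by_contra h
    exact hn' ⟨c, Sg.of h4, not_le.1 h⟩
  have h6 : TyF P D (sub ρ.th (.pi A B)) (.sort s) := tyf_sub hT ρ.subF
  unfold R
  rw [e0, Z.rr_pi h4 h5 hn']
  show (TMF P D v (sub ρ.th (.pi (nf A) (nf B))) ∧ Wn P idx (i + 1) D v ∧
      ∀ x ∈ Z.RR (nf A) ρ.th ρ.inf, ∀ j, Z.IQ (sub ρ.th (nf A)) j →
        .app v x ∈ Z.RR (nf B) (scons (er x) ρ.th) (isc j ρ.inf)) ↔ _
  have eA : BetaEq (sub ρ.th A) (sub ρ.th (nf A)) := BetaEq.sub (nf_betaEq hA) _
  constructor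
  · rintro ⟨a, b, c⟩
    exact ⟨(tmf_conv_iff w h6 h4 e v).2 a, b, fun x hx j hj => c x hx j (Z.iq_conv eA hj)⟩
  · rintro ⟨a, b, c⟩
    exact ⟨(tmf_conv_iff w h6 h4 e v).1 a, b,
      fun x hx j hj => c x hx j (Z.iq_conv (BetaEq.symm eA) hj)⟩

/-- extension of an environment -/
noncomputable def extend (g : Good P G) (ρ : Env Z G) {A : Term S} {a : S}
    (hA : TyF P G A (.sort a)) (m : MT S) (j : Z.Inf) (hm : TMF P D m (sub ρ.th A))
    (h1 : Cl P idx i G A → m ∈ ρ.R A ∧ Z.IQ (sub ρ.th A) j)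
    (h2 : ¬ Cl P idx i G A → (∃ k, m = .var k) ∧ j = Z.dfl) : Env Z (fcons A G) where
  sig := mscons m ρ.sig
  inf := isc j ρ.inf
  typ := ρ.typ.scons hm
  mem := by
    intro x hx
    cases x with
    | zero =>
        rw [fcons_zero] at hx ⊢
        have := (h1 (hx.wk_inv g.wf hA (g.wn hP hA).1)).1
        unfold R at this
        rw [wk, nf_ren, Z.rr_ren]
        exact this
    | succ x =>
        rw [fcons_succ] at hx ⊢
        obtain ⟨s, hs⟩ := g.wf x
        have := ρ.mem x (hx.wk_inv g.wf hA (g.wn hP hs).1)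
        rw [wk, nf_ren, Z.rr_ren]
        exact this
  iq := by
    intro x hx
    cases x with
    | zero =>
        rw [fcons_zero] at hx ⊢
        have := (h1 (hx.wk_inv g.wf hA (g.wn hP hA).1)).2
        rw [wk, sub_ren]
        exact this
    | succ x =>
        rw [fcons_succ] at hx ⊢
        obtain ⟨s, hs⟩ := g.wf x
        have := ρ.iq x (hx.wk_inv g.wf hA (g.wn hP hs).1)
        rw [wk, sub_ren]
        exact this
  low := by
    intro x hx
    cases x with
    | zero =>
        rw [fcons_zero] at hx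
        exact h2 (fun h => hx (h.ren (RenF.wk G A)))
    | succ x =>
        rw [fcons_succ] at hx
        exact ρ.low x (fun h => hx (h.ren (RenF.wk G A)))

theorem extend_ext (g : Good P G) (ρ : Env Z G) {A : Term S} {a : S}
    (hA : TyF P G A (.sort a)) (m : MT S) (j : Z.Inf) (hm : TMF P D m (sub ρ.th A))
    (h1 : Cl P idx i G A → m ∈ ρ.R A ∧ Z.IQ (sub ρ.th A) j)
    (h2 : ¬ Cl P idx i G A → (∃ k, m = .var k) ∧ j = Z.dfl) :
    ρ.Ext (extend hP g ρ hA m j hm h1 h2) := ⟨fun _ => rfl, fun _ => rfl⟩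

/-- (R3) products, in terms of extensions -/
theorem mem_pi_ext (hr : ∀ a b c, P.rule a b c → idx c ≤ idx a ∧ idx c ≤ idx b)
    (w : WfF P D) (g : Good P G) (ρ : Env Z G) {A B : Term S} {s : S}
    (hT : TyF P G (.pi A B) (.sort s)) (hc : Cl P idx i G (.pi A B))
    (hn : ¬ Hi P idx i D (sub ρ.th (.pi A B))) (v : MT S) :
    v ∈ ρ.R (.pi A B) ↔ TMF P D v (sub ρ.th (.pi A B)) ∧ Wn P idx (i + 1) D v ∧
      ∀ ρ' : Env Z (fcons A G), ρ.Ext ρ' → .app v (ρ'.sig 0) ∈ ρ'.R B := by
  obtain ⟨a, b, c, hA, hB, ru, _⟩ := fgen_pi hT _ _ rfl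
  have hcA : Cl P idx i G A := cl_dom hr g.wf hc
  rw [mem_pi hP w g ρ hT hc hn]
  constructor
  · rintro ⟨h1, h2, h3⟩
    refine ⟨h1, h2, fun ρ' he => ?_⟩
    obtain ⟨h4, h5⟩ := he.zero hcA
    have := h3 _ h4 _ h5
    unfold R
    rw [he.th, he.inf]
    exact this
  · rintro ⟨h1, h2, h3⟩
    refine ⟨h1, h2, fun x hx j hj => ?_⟩
    have hx' : TMF P D x (sub ρ.th A) := ((cand hP w g ρ hA).sub x hx).1
    have he := extend_ext hP g ρ hA x j hx' (fun _ => ⟨hx, hj⟩) (fun h => absurd hcA h)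
    have := h3 _ he
    unfold R at this
    rw [he.th, he.inf] at this
    exact this

/-- (R5) fresh variables -/
theorem fresh (w : World657.World P D) (g : Good P G) (ρ : Env Z G) {A : Term S} {a : S}
    (hA : TyF P G A (.sort a)) (m : ℕ) : ∃ (k : ℕ) (ρ' : Env Z (fcons A G)),
    m ≤ k ∧ D k = sub ρ.th A ∧ ρ.Ext ρ' ∧ ρ'.sig 0 = .var k := by
  have h : TyF P D (sub ρ.th A) (.sort a) := tyf_sub hA ρ.subF
  obtain ⟨k, hm, hk⟩ := w.full _ _ h m
  have hv : TMF P D (.var k) (sub ρ.th A) := by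
    have := tmf_var w.good.wf k
    rwa [hk] at this
  by_cases hc : Cl P idx i G A
  · obtain ⟨j, hj⟩ := Z.ne (sub ρ.th A)
    have hR := (cand hP w.good.wf g ρ hA).var hv
    exact ⟨k, _, hm, hk, extend_ext hP g ρ hA (.var k) j hv (fun _ => ⟨hR, hj⟩)
      (fun h => absurd hc h), rfl⟩
  · exact ⟨k, _, hm, hk, extend_ext hP g ρ hA (.var k) Z.dfl hv (fun h => absurd h hc)
      (fun _ => ⟨⟨k, rfl⟩, rfl⟩), rfl⟩

open Classical in
/-- (R8) the identity environment -/
theorem exists_ident (Z : TyEval.{u, v} P idx i D) (g : Good P D) :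
    ∃ ρ : Env Z D, ρ.sig = .var := by
  refine ⟨⟨.var, fun x => if Cl P idx i D (D x) then Classical.choose (Z.ne (D x)) else Z.dfl,
    MSubF.var g.wf, ?_, ?_, ?_⟩, rfl⟩
  · intro x hx
    obtain ⟨s, hs⟩ := g.wf x
    have hw := (g.wn hP hs).1
    have h1 := Z.rr_cand (nf (D x)) (fun k => er (MT.var k))
      (fun x => if Cl P idx i D (D x) then Classical.choose (Z.ne (D x)) else Z.dfl)
    refine h1.var ?_
    show TMF P D (.var x) (sub Term.var (nf (D x)))
    rw [sub_id]
    exact tmf_red_type g.wf (tmf_var g.wf x) (nf_red hw)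
  · intro x hx
    show Z.IQ (sub Term.var (D x)) _
    rw [sub_id, if_pos hx]
    exact Classical.choose_spec (Z.ne (D x))
  · intro x hx
    exact ⟨⟨x, rfl⟩, by rw [if_neg hx]⟩

end

end Env

/-- **(R4)**: the one semantic statement about the evaluator `Z` -/
def TyEval.Inst (Z : TyEval.{u, v} P idx i D) : Prop :=
  ∀ (G : ℕ → Term S) (ρ : Env Z G) (A B : Term S) (N : MT S) (s : S), Good P G →
    TyF P G (.pi A B) (.sort s) → Cl P idx i G (.pi A B) →
    ¬ Hi P idx i D (sub ρ.th (.pi A B)) → TMF P G N A → MT.msub ρ.sig N ∈ ρ.R A →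
    ∃ j, Z.IQ (sub ρ.th A) j ∧
      ∀ v, v ∈ Z.RR (nf B) (scons (sub ρ.th (er N)) ρ.th) (isc j ρ.inf) →
        v ∈ Z.RR (nf (inst (er N) B)) ρ.th ρ.inf

end Crest.Agent.R298.SM646
end

-- ▼ part R298/Sys_254
section

/-!
R298 (S0452), helper254: the frame of stage `i` over a world `W` (values = sets of m-terms) and its
`Ok599.Sys` instance.
-/

set_option autoImplicit false

namespace Crest.Agent.R298.Z254

open Crest.LogicCS.PTS Crest.LogicCS.PTS.Term Relation
open Crest.Agent.R298.Sub452 Crest.Agent.R298.Par452 Crest.Agent.R298.Ty452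
open Crest.Agent.R298.Mem360 Crest.Agent.R298.TyF452 Crest.Agent.R298.TyMF452
open Crest.Agent.R298.Uniq452 Crest.Agent.R298.Main865 Crest.Agent.R298.Cand704
open Crest.Agent.R298.Md254 Crest.Agent.R298.Fr201 Crest.Agent.R298.SM646
open Crest.Agent.R298.Fl113 (Rl RelS)
open Crest.Agent.R298.Cod893 Crest.Agent.R298.Vt786
open Crest.Agent.R298.Mem360.MT (er)

variable {S : Type}

/-- values -/
abbrev Val (S : Type) : Type := Set (MT S)

section defs

variable (P : Spec S) (idx : S → ℕ) (i : ℕ) (W : ℕ → Term S)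

/-- infos of small types -/
abbrev SIz : Type := SIw P (Lvl idx i) W (Val S)

/-- entries of products -/
abbrev PEz := PEnt (Term S) (SIz P idx i W) (Val S)

/-- path functions -/
abbrev UFz := UF (Term S) (SIz P idx i W) (Val S)

open Classical in
/-- realizer set of a closed type with a given value -/
noncomputable def RRq (q : Term S) (X : Val S) : Val S :=
  if Hi P idx i W q then Wt P idx (i + 1) W q else cst P idx (i + 1) W q X

/-- entries admitted for the variables of a closed type -/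
def adm (q : Term S) (e : PEz P idx i W) : Prop :=
  rngS (skel P (Lvl idx i) W) (sgQ P (Lvl idx i) W) q e.ent.sh ∨
    ((∀ e' : PEz P idx i W,
      ¬ rngS (skel P (Lvl idx i) W) (sgQ P (Lvl idx i) W) q e'.ent.sh) ∧
      e = Sum.inr (fun _ => default))

/-- product operation -/
noncomputable def opz (qA qPi : Term S) (v : Val S) (f : Term S → PEz P idx i W → Val S) :
    Val S :=
  PiSet P idx (i + 1) W qPi (RRq P idx i W qA v) (fun _ e => adm P idx i W qA e)
    (fun w e => RRq P idx i W (kcod qPi (er w)) (f (cl (er w)) e))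

/-- the frame -/
noncomputable def frz : Frame S (Term S) (SIz P idx i W) (Val S) :=
  fr P (Lvl idx i) W (fun _ => ∅) (opz P idx i W)

end defs

variable {P : Spec S} {idx : S → ℕ} {i : ℕ} {W : ℕ → Term S}

theorem frz_std : Std (skel P (Lvl idx i) W) (sgQ P (Lvl idx i) W) (frz P idx i W) := fr_std

@[simp] theorem frz_cl : (frz P idx i W).cl = cl := rfl
@[simp] theorem frz_b : (frz P idx i W).b = default := rfl

theorem adm_ne (q : Term S) : ∃ e, adm P idx i W q e := by
  by_cases h : ∃ e' : PEz P idx i W,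
      rngS (skel P (Lvl idx i) W) (sgQ P (Lvl idx i) W) q e'.ent.sh
  · obtain ⟨e, he⟩ := h
    exact ⟨e, .inl he⟩
  · exact ⟨_, .inr ⟨fun e' h' => h ⟨e', h'⟩, rfl⟩⟩

/-- monotonicity of the index along rules -/
def Mon (P : Spec S) (idx : S → ℕ) : Prop :=
  ∀ a b c, P.rule a b c → idx c ≤ idx a ∧ idx c ≤ idx b

/-- the instance of the codomain is not high: the domain is `D`-bound -/
theorem bound_of (hm : Mon P idx) (w : WfF P W) {A B N : Term S} {c : S}
    (h : TyF P W (pi A B) (sort c)) (hc : c ∈ Lvl idx i) (hN : TyF P W N A)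
    (hn : ¬ Hi P idx i W (inst N B)) :
    ∃ a b, P.rule a b c ∧ b ∈ Lvl idx i ∧ TyF P W A (sort a) ∧
      TyF P (fcons A W) B (sort b) := by
  obtain ⟨a, b, c', hA, hB, r, e⟩ := fgen_pi h _ _ rfl
  obtain rfl : c = c' := sort_inj e
  refine ⟨a, b, r, ?_, hA, hB⟩
  have h1 : idx c ≤ idx b := (hm a b c r).2
  have h2 : TyF P W (inst N B) (sort b) := tyf_inst w hB hN
  have h3 : ¬ i < idx b := fun h => hn ⟨b, Sg.of h2, h⟩
  have h4 : idx c = i := hc
  show idx b = i
  omega

/-- no valid path: the entries look constant -/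
theorem look_dead {q : Term S} (h1 : ∀ a, ¬ klive P (Lvl idx i) W q a)
    (h2 : ¬ kleaf (Lvl idx i) q) {e : Ent (Term S) (SIz P idx i W) (Val S)}
    (he : rngS (skel P (Lvl idx i) W) (sgQ P (Lvl idx i) W) q e.sh) :
    look (frz P idx i W) e = fun _ => (frz P idx i W).b := by
  have hT : Inf786.Tame (skel P (Lvl idx i) W) q := Inf786.tame_of_dead h1
  cases e with
  | co c => exact absurd hT he.1
  | mi f => exact absurd hT he.1
  | sm s =>
    obtain ⟨_, hs⟩ := he
    rw [Inf786.info_eq (fun _ => True) hT] at hs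
    obtain ⟨F, hF, hs⟩ := hs
    have hF0 : F = fun _ => default := by
      funext l
      refine hF l ?_
      cases l with
      | nil => exact h2
      | cons x l => exact fun h => h1 _ h.1
    funext p
    cases ht : toS p with
    | none => simp only [look, ht]
    | some l =>
      simp only [look, ht]
      show getS (skel P (Lvl idx i) W) s l = default
      unfold getS
      rw [hs, Dom201.app_codeF (supp_tame hT hF), hF0]

/-- the same for the admitted entries of products -/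
theorem look_adm_dead {q : Term S} (h1 : ∀ a, ¬ klive P (Lvl idx i) W q a)
    (h2 : ¬ kleaf (Lvl idx i) q) {e : PEz P idx i W} (he : adm P idx i W q e) :
    look (frz P idx i W) e.ent = fun _ => (frz P idx i W).b := by
  rcases he with he | ⟨_, rfl⟩
  · exact look_dead h1 h2 he
  · funext p
    cases ht : toM p with
    | none => simp only [PEnt.ent, look, ht]
    | some l =>
      simp only [PEnt.ent, look, ht]
      rfl

/-- **the laws of the frame** -/
noncomputable def sysz (w : WfF P W) (hwn : ∀ M A, TyF P W M A → WN M)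
    (hF : TF P (Lvl idx i) W) (hm : Mon P idx) : Ok599.Sys P W (frz P idx i W) where
  D := Lvl idx i
  vt := vt (skel P (Lvl idx i) W) (sgQ P (Lvl idx i) W)
  Live := Live P (Lvl idx i) W
  Rel := Rl P (Lvl idx i) W
  Strict q := ¬ Hi P idx i W q
  eok := rngS (skel P (Lvl idx i) W) (sgQ P (Lvl idx i) W)
  PR qA qPi a e := TyF P W a qA ∧ adm P idx i W qA e ∧ ¬ Hi P idx i W (kcod qPi a)
  wf := w
  nz_id _ _ _ := rfl
  cl_eq h := cl_congr h
  rep_cl M := cl_eq M
  rep_ty h := cl_typed w hwn h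
  dty_eq h := dtQ_cl w hwn h
  vt_pi_nil A B h := not_kleaf_pi (cl_eq (pi A B)) h
  vt_sort_cons c x s h := by
    obtain ⟨⟨_, A, B, e, _⟩, _⟩ := h
    exact not_sort_pi (BetaEq.trans (BetaEq.symm (cl_eq (sort c))) e)
  vt_sort c := by
    constructor
    · rintro ⟨s, hs, e⟩
      have e2 : BetaEq (sort c : Term S) (sort s) :=
        BetaEq.trans (BetaEq.symm (cl_eq (sort c))) e
      rw [sort_inj e2]
      exact hs
    · intro h
      exact ⟨c, h, cl_eq (sort c)⟩
  vt_cons := by
    intro A B a e s hT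
    obtain ⟨t, hT⟩ := hT
    obtain ⟨a', b', c', hA, hB, r, _⟩ := fgen_pi hT _ _ rfl
    have h1 : BetaEq (cl (pi A B)) (pi A B) := cl_eq _
    show (klive P (Lvl idx i) W (cl (pi A B)) a ∧
      rngS _ _ (kdom (cl (pi A B))) e ∧ vt _ _ (kcod (cl (pi A B)) a) s) ↔
      Live P (Lvl idx i) W (cl (pi A B)) ∧ TyF P W a A ∧ rngS _ _ (cl A) e ∧
        vt _ _ (cl (inst a B)) s
    rw [kdom_pi h1, kcod_pi h1, klive_pi w h1 hA]
    constructor
    · rintro ⟨⟨g1, g2, _⟩, g4, g5⟩
      exact ⟨g1, g2, g4, g5⟩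
    · rintro ⟨g1, g2, g4, g5⟩
      exact ⟨⟨g1, g2, rl_conv w (rl_of_vt w g5) (cl_eq _)⟩, g4, g5⟩
  rel_vt q s h := rl_of_vt w h
  rel_pi := by
    intro A B N _ hN h
    exact rl_conv w (rl_of_inst w (.refl _) hN (rl_conv w h (cl_eq _)))
      (BetaEq.symm (cl_eq _))
  live_inst := by
    intro A B N A' B' _ hl hN _ hr
    have h1 : Live P (Lvl idx i) W (pi A B) := (live_iff w (cl_eq _)).1 hl
    exact (live_iff w (cl_eq _)).2
      (h1.cod w (.refl _) hN (rl_conv w hr (cl_eq _)))
  live_dom := by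
    intro A B A' B' _ hl _ hr
    have h1 : Live P (Lvl idx i) W (pi A B) := (live_iff w (cl_eq _)).1 hl
    exact (live_iff w (cl_eq _)).2 (h1.dom w (.refl _) (rl_conv w hr (cl_eq _)))
  eok_entry u _ _ := frz_std.entry_ok _ u
  look_entry := by
    intro A u p _ hu hp
    exact frz_std.look_entry (thin w hF) _ hu hp
  entry_congr := by
    intro A u v _ h
    exact frz_std.entry_congr h
  op_congr := by
    intro A B v v' f f' hv hf
    have e1 : RRq P idx i W (cl A) v = RRq P idx i W (cl A) v' := by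
      unfold RRq
      by_cases h : Hi P idx i W (cl A)
      · rw [if_pos h, if_pos h]
      · rw [hv h]
    show opz P idx i W (cl A) (cl (pi A B)) v f = opz P idx i W (cl A) (cl (pi A B)) v' f'
    unfold opz
    rw [e1]
    ext m
    refine and_congr_right fun _ => and_congr_right fun _ => ?_
    refine forall_congr' fun x => imp_congr_right fun hx => forall_congr' fun e =>
      imp_congr_right fun he => ?_
    have e2 : RRq P idx i W (kcod (cl (pi A B)) (er x)) (f (cl (er x)) e) =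
        RRq P idx i W (kcod (cl (pi A B)) (er x)) (f' (cl (er x)) e) := by
      by_cases h : Hi P idx i W (kcod (cl (pi A B)) (er x))
      · unfold RRq
        rw [if_pos h, if_pos h]
      · have hx1 : TMF P W x (cl A) := by
          unfold RRq at hx
          split_ifs at hx
          · exact hx.1
          · exact ((cand_cst P idx (i + 1) W (cl A) v').sub x hx).1
        rw [hf (cl (er x)) e ⟨cl_typed w hwn hx1.typed, he, ?_⟩]
        intro h'
        refine h ?_
        have e3 : kcod (cl (pi A B)) (cl (er x)) = kcod (cl (pi A B)) (er x) := by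
          rw [kcod_pi (cl_eq (pi A B)), kcod_pi (cl_eq (pi A B))]
          exact cl_congr (BetaEq.inst (cl_eq (er x)) (.refl _))
        have h2 : Hi P idx i W (kcod (cl (pi A B)) (cl (er x))) := h'
        rwa [e3] at h2
    show _ ∈ RRq P idx i W (kcod (cl (pi A B)) (er x)) (f (cl (er x)) e) ↔
      _ ∈ RRq P idx i W (kcod (cl (pi A B)) (er x)) (f' (cl (er x)) e)
    rw [e2]
  pr := by
    intro A B c a e hT hc ⟨h1, h2, h3⟩
    obtain ⟨a', b', c', hA, hB, r, _⟩ := fgen_pi hT _ _ rfl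
    have ha : TyF P W a A := .conv h1 hA (cl_eq A)
    have hn : ¬ Hi P idx i W (cl (inst a B)) := by
      have h3' : ¬ Hi P idx i W (kcod (cl (pi A B)) a) := h3
      rwa [kcod_pi (cl_eq (pi A B))] at h3'
    refine ⟨ha, ?_, hn⟩
    rintro ⟨_, g1, g2⟩
    refine (g2 ?_).elim
    obtain ⟨a1, b1, r1, hb1, hA1, _⟩ := bound_of hm w hT hc ha
      (fun h => hn (h.conv (BetaEq.symm (cl_eq _))))
    have h4 : NotO P (Lvl idx i) W A := notO_bound w r1 hb1 hc (Sg.of hA1)
    exact (live_iff w (cl_eq A)).2 (h4 (rl_conv w g1 (cl_eq A)))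
  strict_dom := by
    intro A a b c hA r hc hs
    have h1 : idx c ≤ idx a := (hm a b c r).1
    have h3 : ¬ i < idx a := fun h => hs ⟨a, (Sg.of hA).conv (cl_eq A), h⟩
    have h4 : idx c = i := hc
    show idx a = i
    omega
  strict_cod := by
    intro B a b c hB r hc hs
    have h1 : idx c ≤ idx b := (hm a b c r).2
    have h3 : ¬ i < idx b := fun h => hs ⟨b, (Sg.of hB).conv (cl_eq B), h⟩
    have h4 : idx c = i := hc
    show idx b = i
    omega

end Crest.Agent.R298.Z254
end

-- ▼ part R298/Z_254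
section

/-!
R298 (S0452), helper254: the TYPE EVALUATOR of stage `i` (record `SM646.TyEval`) from `Cod893.den`
over the frame `frz`, and `Inst` (R4) from helper599's `den_nf_inst`.
-/

set_option autoImplicit false

namespace Crest.Agent.R298.Z254

open Crest.LogicCS.PTS Crest.LogicCS.PTS.Term Relation
open Crest.Agent.R298.Sub452 Crest.Agent.R298.Par452 Crest.Agent.R298.Ty452
open Crest.Agent.R298.Mem360 Crest.Agent.R298.TyF452 Crest.Agent.R298.TyMF452
open Crest.Agent.R298.Uniq452 Crest.Agent.R298.Main865 Crest.Agent.R298.Cand704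
open Crest.Agent.R298.Md254 Crest.Agent.R298.Fr201 Crest.Agent.R298.SM646
open Crest.Agent.R298.Fl113 (Rl RelS)
open Crest.Agent.R298.Cod893 Crest.Agent.R298.Vt786
open Crest.Agent.R298.Mem360.MT (er)

variable {S : Type}

section defs

variable (P : Spec S) (idx : S → ℕ) (i : ℕ) (W : ℕ → Term S)

/-- values of types -/
noncomputable def evz (T : Term S) (θ : ℕ → Term S) (ν : ℕ → UFz P idx i W) : Set (MT S) :=
  den (frz P idx i W) T θ ν []

/-- infos over which the variables of a closed type range -/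
def IQz (K : Term S) (j : UFz P idx i W) : Prop :=
  ∃ e : PEz P idx i W, adm P idx i W (cl K) e ∧ j = look (frz P idx i W) e.ent

end defs

variable {P : Spec S} {idx : S → ℕ} {i : ℕ} {W : ℕ → Term S}

theorem cst_conv (w : WfF P W) {k : ℕ} {q q' : Term S} {s s' : S} (h : TyF P W q (sort s))
    (h' : TyF P W q' (sort s')) (e : BetaEq q q') (X : Set (MT S)) :
    cst P idx k W q X = cst P idx k W q' X := by
  unfold cst
  by_cases hX : Cand P idx k W q X
  · rw [if_pos hX, if_pos (hX.conv' w h h' e)]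
  · have hX' : ¬ Cand P idx k W q' X := fun g => hX (g.conv' w h' h (BetaEq.symm e))
    rw [if_neg hX, if_neg hX', wt_conv w h h' e]

theorem rrq_conv (w : WfF P W) {q q' : Term S} {s s' : S} (h : TyF P W q (sort s))
    (h' : TyF P W q' (sort s')) (e : BetaEq q q') (X : Set (MT S)) :
    RRq P idx i W q X = RRq P idx i W q' X := by
  unfold RRq
  by_cases hH : Hi P idx i W q
  · rw [if_pos hH, if_pos (hH.conv e), wt_conv w h h' e]
  · rw [if_neg hH, if_neg (fun g => hH (g.conv (BetaEq.symm e))), cst_conv w h h' e]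

theorem rrq_typed {q : Term S} {X : Set (MT S)} {v : MT S} (h : v ∈ RRq P idx i W q X) :
    TMF P W v q := by
  unfold RRq at h
  split_ifs at h
  · exact h.1
  · exact ((cand_cst P idx (i + 1) W q X).sub v h).1

theorem rrof_eq (T : Term S) (θ : ℕ → Term S) (ν : ℕ → UFz P idx i W) :
    RRof P idx i W (evz P idx i W) T θ ν =
      RRq P idx i W (sub θ T) (evz P idx i W T θ ν) := rfl

theorem evz_congr (T : Term S) {θ θ' : ℕ → Term S} (ν : ℕ → UFz P idx i W)
    (h : ∀ x, BetaEq (θ x) (θ' x)) : evz P idx i W T θ ν = evz P idx i W T θ' ν := by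
  unfold evz
  rw [den_congr (frz P idx i W) (fun _ _ e => cl_congr e) T h fun x => ?_]
  rfl

theorem isc_eq (j : UFz P idx i W) (ν : ℕ → UFz P idx i W) : isc j ν = icons j ν := by
  funext x
  cases x <;> rfl

/-- the product law -/
theorem evz_pi (w : WfF P W) (hwn : ∀ M A, TyF P W M A → WN M) (A B : Term S)
    (θ : ℕ → Term S) (ν : ℕ → UFz P idx i W) (c : S)
    (hT : TyF P W (sub θ (.pi A B)) (.sort c)) :
    evz P idx i W (.pi A B) θ ν = PiSet P idx (i + 1) W (sub θ (.pi A B))
      (RRof P idx i W (evz P idx i W) A θ ν) (fun _ j => IQz P idx i W (sub θ A) j)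
      (fun v j => RRof P idx i W (evz P idx i W) B (scons (er v) θ) (isc j ν)) := by
  obtain ⟨a, b, c', hA, hB, r, _⟩ := fgen_pi hT _ _ rfl
  have hTc : TyF P W (cl (sub θ (.pi A B))) (sort c) := cl_typed w hwn hT
  have hAc : TyF P W (cl (sub θ A)) (sort a) := cl_typed w hwn hA
  have e0 : evz P idx i W (.pi A B) θ ν = opz P idx i W (cl (sub θ A))
      (cl (sub θ (.pi A B))) (evz P idx i W A θ ν)
      (fun q e => den (frz P idx i W) B (scons q θ)
        (icons (look (frz P idx i W) e.ent) ν) []) := rfl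
  rw [e0]
  unfold opz
  have e1 : RRq P idx i W (cl (sub θ A)) (evz P idx i W A θ ν) =
      RRof P idx i W (evz P idx i W) A θ ν := by
    rw [rrof_eq]
    exact rrq_conv w hAc hA (cl_eq _) _
  rw [e1]
  have key : ∀ x : MT S, TMF P W x (sub θ A) → ∀ e : PEz P idx i W,
      RRq P idx i W (kcod (cl (sub θ (.pi A B))) (er x))
        (den (frz P idx i W) B (scons (cl (er x)) θ)
          (icons (look (frz P idx i W) e.ent) ν) []) =
      RRof P idx i W (evz P idx i W) B (scons (er x) θ)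
        (isc (look (frz P idx i W) e.ent) ν) := by
    intro x hx e
    have hx' : TyF P W (er x) (sub θ A) := hx.typed
    have h1 : TyF P W (inst (er x) (sub (ups θ) B)) (sort b) := tyf_inst w hB hx'
    have h2 : kcod (cl (sub θ (.pi A B))) (er x) = cl (inst (er x) (sub (ups θ) B)) :=
      kcod_pi (cl_eq (sub θ (.pi A B))) (er x)
    have h3 : sub (scons (er x) θ) B = inst (er x) (sub (ups θ) B) := by rw [sub_scons]
    rw [h2, rrof_eq, h3, isc_eq]
    rw [rrq_conv w (cl_typed w hwn h1) h1 (cl_eq _)]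
    congr 1
    refine evz_congr B _ fun n => ?_
    cases n with
    | zero => exact cl_eq (er x)
    | succ n => exact .refl _
  have hsub : ∀ x ∈ RRof P idx i W (evz P idx i W) A θ ν, TMF P W x (sub θ A) := by
    intro x hx
    rw [rrof_eq] at hx
    exact rrq_typed hx
  ext v
  constructor
  · rintro ⟨g1, g2, g3⟩
    refine ⟨(tmf_conv_iff w hTc hT (cl_eq _) v).1 g1, g2, fun x hx j hj => ?_⟩
    obtain ⟨e, he, rfl⟩ := hj
    have := g3 x hx e he
    show _ ∈ RRof P idx i W (evz P idx i W) B (scons (er x) θ)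
        (isc (look (frz P idx i W) e.ent) ν)
    rwa [← key x (hsub x hx) e]
  · rintro ⟨g1, g2, g3⟩
    refine ⟨(tmf_conv_iff w hTc hT (cl_eq _) v).2 g1, g2, fun x hx e he => ?_⟩
    have := g3 x hx _ ⟨e, he, rfl⟩
    show _ ∈ RRq P idx i W (kcod (cl (sub θ (.pi A B))) (er x))
        (den (frz P idx i W) B (scons (cl (er x)) θ)
          (icons (look (frz P idx i W) e.ent) ν) [])
    rwa [key x (hsub x hx) e]

/-- **the type evaluator** -/
noncomputable def tyz (w : WfF P W) (hwn : ∀ M A, TyF P W M A → WN M) :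
    TyEval.{0, 1} P idx i W where
  Inf := UFz P idx i W
  IQ := IQz P idx i W
  ne K := by
    obtain ⟨e, he⟩ := adm_ne (P := P) (idx := idx) (i := i) (W := W) (cl K)
    exact ⟨_, e, he, rfl⟩
  iq_conv := by
    rintro K K' j e ⟨x, hx, rfl⟩
    exact ⟨x, by rwa [← cl_congr e], rfl⟩
  dfl := fun _ => default
  ev := evz P idx i W
  ev_ren T r θ ν := by
    unfold evz
    rw [den_ren (frz P idx i W) T r (fun k => θ (r k)) θ (fun k => ν (r k)) ν
      (fun _ => rfl) (fun _ => rfl)]
  ev_sort s θ ν := Or.inl fun v h => h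
  ev_pi A B θ ν c h _ _ := evz_pi w hwn A B θ ν c h

/-- environments of the stage model are environments of helper599 -/
theorem env_ok (w : WfF P W) (hwn : ∀ M A, TyF P W M A → WN M) (hF : TF P (Lvl idx i) W)
    (hm : Mon P idx) {G : ℕ → Term S} (wG : WfF P G)
    (ρ : SM646.Env (tyz (P := P) (idx := idx) (i := i) w hwn) G) :
    Ok599.Env (sysz w hwn hF hm) G ρ.th ρ.inf where
  wf := wG
  sub := ρ.subF
  good x := by
    by_cases hx : Cl P idx i G (G x)
    · obtain ⟨e, _, he⟩ := ρ.iq x hx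
      rw [he]
      exact look_good _ _
    · rw [(ρ.low x hx).2]
      exact fun s => SS.const _
  dead x hd := by
    obtain ⟨⟨A, B, e⟩, h1, h2⟩ := hd
    by_cases hx : Cl P idx i G (G x)
    · obtain ⟨e', he, hj⟩ := ρ.iq x hx
      rw [hj]
      refine look_adm_dead (q := cl (sub ρ.th (G x))) ?_ ?_ he
      · intro a ha
        exact h2 ha.1
      · exact not_kleaf_pi (BetaEq.trans (cl_eq _) e)
    · rw [(ρ.low x hx).2]
      rfl

/-- **(R4)** -/
theorem inst_tyz (hP : ∀ (Γ : List (Term S)) (M : Term S), Legal P Γ M → WN M)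
    (w : WfF P W) (hwn : ∀ M A, TyF P W M A → WN M) (hF : TF P (Lvl idx i) W)
    (hm : Mon P idx) : (tyz (P := P) (idx := idx) (i := i) w hwn).Inst := by
  intro G ρ A B N s g hT hc hn hN hR
  have hθ : SubF P ρ.th G W := ρ.subF
  have hw : WN (Term.pi A B) := (g.wn hP hT).1
  obtain ⟨hA, hB⟩ := wn_pi_inv hw
  have e0 : nf (Term.pi A B) = .pi (nf A) (nf B) := nf_pi hA hB
  obtain ⟨c, h1, h2⟩ := hc
  have h3 : TyF P G (.pi (nf A) (nf B)) (.sort c) := by
    rw [← e0]
    exact (Sg.normal g.wf (nf_normal hw)).1 (h1.conv (BetaEq.symm (nf_betaEq hw)))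
  obtain ⟨a, b, c', hA', hB', r, ec⟩ := fgen_pi h3 _ _ rfl
  obtain rfl : c = c' := sort_inj ec
  -- the argument
  have hNt : TyF P G (er N) A := hN.typed
  have hNw : WN (er N) := (g.wn hP hNt).1
  have hN1 : TyF P G (nf (er N)) A := FSR g.wf hNt (nf_red hNw)
  have hN2 : TyF P G (nf (er N)) (nf A) := tyf_red_type g.wf hN1 (nf_red hA)
  have hN3 : TyF P G (er N) (nf A) := tyf_red_type g.wf hNt (nf_red hA)
  -- the instance
  have hI : TyF P G (inst (er N) (nf B)) (sort b) := tyf_inst g.wf hB' hN3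
  have eI : BetaEq (inst (er N) B) (inst (er N) (nf B)) := BetaEq.sub (nf_betaEq hB) _
  have hIw : WN (inst (er N) B) := wn_conv (g.wn hP hI).1 (BetaEq.symm eI)
  have eK : BetaEq (inst (er N) (nf B)) (nf (inst (er N) B)) :=
    BetaEq.trans (BetaEq.symm eI) (nf_betaEq hIw)
  have hKr : Red (inst (er N) (nf B)) (nf (inst (er N) B)) :=
    red_of_eq_normal eK (nf_normal hIw)
  have hK : TyF P G (nf (inst (er N) B)) (sort b) := FSR g.wf hI hKr
  -- closed
  have hAc : TyF P W (sub ρ.th (nf A)) (sort a) := tyf_sub hA' hθ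
  have hTi0 : sub (scons (sub ρ.th (er N)) ρ.th) (nf B) = sub ρ.th (inst (er N) (nf B)) := by
    rw [sub_scons, sub_inst]
  have hTi : TyF P W (sub (scons (sub ρ.th (er N)) ρ.th) (nf B)) (sort b) := by
    rw [hTi0]; exact tyf_sub hI hθ
  have hKc : TyF P W (sub ρ.th (nf (inst (er N) B))) (sort b) := tyf_sub hK hθ
  have eTK : BetaEq (sub (scons (sub ρ.th (er N)) ρ.th) (nf B))
      (sub ρ.th (nf (inst (er N) B))) := by
    rw [hTi0]; exact BetaEq.sub eK _
  have eA : BetaEq (sub ρ.th A) (sub ρ.th (nf A)) := BetaEq.sub (nf_betaEq hA) _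
  by_cases hH : Hi P idx i W (sub (scons (sub ρ.th (er N)) ρ.th) (nf B))
  · obtain ⟨j, hj⟩ := (tyz (P := P) (idx := idx) (i := i) w hwn).ne (sub ρ.th A)
    refine ⟨j, hj, fun v hv => ?_⟩
    rw [TyEval.rr_high _ hH] at hv
    rw [TyEval.rr_high _ (hH.conv eTK), ← wt_conv w hTi hKc eTK]
    exact hv
  · -- `A` is `D`-bound
    have hcT : TyF P W (sub ρ.th (.pi (nf A) (nf B))) (sort c) := tyf_sub h3 hθ
    have hn' : ¬ Hi P idx i W (sub ρ.th (.pi (nf A) (nf B))) := fun h => by
      refine hn (h.conv ?_)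
      rw [← e0]
      exact BetaEq.symm (BetaEq.sub (nf_betaEq hw) _)
    have hci : idx c = i := by
      refine le_antisymm ?_ h2
      by_contra h
      exact hn' ⟨c, Sg.of hcT, not_le.1 h⟩
    have hbi : idx b = i := by
      have k1 : idx c ≤ idx b := (hm a b c r).2
      have k2 : ¬ i < idx b := fun h => hH ⟨b, Sg.of hTi, h⟩
      omega
    have hcD : c ∈ Lvl idx i := hci
    have hbD : b ∈ Lvl idx i := hbi
    have hNO : NotO P (Lvl idx i) W (sub ρ.th (nf A)) := notO_bound w r hbD hcD (Sg.of hAc)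
    have E := env_ok w hwn hF hm g.wf ρ
    -- the entry
    obtain ⟨e1, he1⟩ : ∃ e1 : PEz P idx i W,
        e1.ent = entry (frz P idx i W) (cl (sub ρ.th (nf A)))
          (den (frz P idx i W) (nf (er N)) ρ.th ρ.inf) := by
      have hr : rngS (skel P (Lvl idx i) W) (sgQ P (Lvl idx i) W) (cl (sub ρ.th (nf A)))
          (entry (frz P idx i W) (cl (sub ρ.th (nf A)))
            (den (frz P idx i W) (nf (er N)) ρ.th ρ.inf)).sh := frz_std.entry_ok _ _
      cases hent : entry (frz P idx i W) (cl (sub ρ.th (nf A)))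
          (den (frz P idx i W) (nf (er N)) ρ.th ρ.inf) with
      | sm x => exact ⟨.inl x, rfl⟩
      | mi f => exact ⟨.inr f, rfl⟩
      | co x =>
        rw [hent] at hr
        exact absurd (bound_sg w r hbD hcD ((Sg.of hAc).conv (cl_eq _)) hr.1) hr.2
    have hadm : adm P idx i W (cl (sub ρ.th (nf A))) e1 := by
      refine .inl ?_
      rw [he1]
      exact frz_std.entry_ok _ _
    refine ⟨look (frz P idx i W) e1.ent, ⟨e1, by rwa [cl_congr eA], rfl⟩, fun v hv => ?_⟩
    -- B4
    have hd : ¬ (sysz w hwn hF hm).Dead (sub ρ.th (nf A)) := by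
      rintro ⟨_, k1, k2⟩
      exact k2 ((live_iff w (cl_eq _)).2 (hNO (rl_conv w k1 (cl_eq _))))
    have hr2 : Red (inst (nf (er N)) (nf B)) (nf (inst (er N) B)) := by
      refine red_of_eq_normal (BetaEq.trans ?_ eK) (nf_normal hIw)
      exact BetaEq.inst (BetaEq.symm (nf_betaEq hNw)) (.refl _)
    have hp : (sysz w hwn hF hm).vt ((frz P idx i W).cl
        (sub ρ.th (inst (nf (er N)) (sort b)))) (sh ([] : UPath (Term S) (SIz P idx i W)
          (Val S))) := ((sysz w hwn hF hm).vt_sort b).2 hbD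
    have h4 := Ok599.den_nf_inst E hA' hB' hN2 (nf_normal hB) (nf_normal hNw) hd hp hr2
    have h5 : evz P idx i W (nf (inst (er N) B)) ρ.th ρ.inf =
        evz P idx i W (nf B) (scons (sub ρ.th (er N)) ρ.th)
          (isc (look (frz P idx i W) e1.ent) ρ.inf) := by
      rw [isc_eq, he1]
      refine (h4.trans ?_)
      refine evz_congr (nf B) _ fun n => ?_
      cases n with
      | zero => exact BetaEq.trans (cl_eq _) (BetaEq.sub (BetaEq.symm (nf_betaEq hNw)) _)
      | succ n => exact .refl _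
    have hv' : v ∈ RRq P idx i W (sub (scons (sub ρ.th (er N)) ρ.th) (nf B))
        (evz P idx i W (nf B) (scons (sub ρ.th (er N)) ρ.th)
          (isc (look (frz P idx i W) e1.ent) ρ.inf)) := hv
    show v ∈ RRq P idx i W (sub ρ.th (nf (inst (er N) B)))
      (evz P idx i W (nf (inst (er N) B)) ρ.th ρ.inf)
    rw [h5, ← rrq_conv w hTi hKc eTK]
    exact hv'

end Crest.Agent.R298.Z254
end

-- ▼ part R298/AAI1_833
section

/-!
R298 (S0452), helper833: insurance (I2), abstract adequacy over function contexts, part 1: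
free variables of terms with memory, reduction and renaming, the class of a type,
the sets `Wn` (terms which reduce to a term without redexes of class `< k`) and `Ne`.
-/

set_option autoImplicit false

namespace Crest.Agent.R298.AAI833

open Crest.LogicCS.PTS Relation
open Crest.Agent.R298.Sub452 Crest.Agent.R298.Par452 Crest.Agent.R298.Ty452
open Crest.Agent.R298.Mem360 Crest.Agent.R298.TyF452 Crest.Agent.R298.TyMF452
open Crest.Agent.R298.Main865 Crest.Agent.R298.StrF657 Crest.Agent.R298.World657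
open Crest.Agent.R298.Str657 (Fb)
open Crest.Agent.R298.Mem360.MT (er emb er_emb IsL isL_of_dist dist mren msub mups mwk mscons minst
  er_mren er_msub er_mups er_mscons er_minst mren_mren msub_msub mren_eq_msub exists_dist
  dist_mren msub_mscons msub_mren mren_msub mren_minst)

universe u v
variable {S : Type u} {P : Spec S}

/-! ### free variables of terms with memory -/

/-- all free variables (also those of the memories) are in `X` -/
def MFv : MT S → Set ℕ → Prop
  | .var i, X => i ∈ X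
  | .sort _, _ => True
  | .app M N, X => MFv M X ∧ MFv N X
  | .lam A M, X => MFv A X ∧ MFv M (upS X)
  | .pi A B, X => MFv A X ∧ MFv B (upS X)
  | .mem M N, X => MFv M X ∧ MFv N X

theorem MFv.fv {M : MT S} {X : Set ℕ} (h : MFv M X) : Fv (er M) X := by
  induction M generalizing X with
  | var i => exact h
  | sort s => trivial
  | app M N h1 h2 => exact ⟨h1 h.1, h2 h.2⟩
  | lam A M h1 h2 => exact ⟨h1 h.1, h2 h.2⟩
  | pi A M h1 h2 => exact ⟨h1 h.1, h2 h.2⟩
  | mem M N h1 h2 => exact h1 h.1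

theorem MFv.mono {M : MT S} {X Y : Set ℕ} (h : MFv M X) (hXY : X ⊆ Y) : MFv M Y := by
  induction M generalizing X Y with
  | var i => exact hXY h
  | sort s => trivial
  | app M N h1 h2 => exact ⟨h1 h.1 hXY, h2 h.2 hXY⟩
  | lam A M h1 h2 => exact ⟨h1 h.1 hXY, h2 h.2 (upS_mono hXY)⟩
  | pi A M h1 h2 => exact ⟨h1 h.1 hXY, h2 h.2 (upS_mono hXY)⟩
  | mem M N h1 h2 => exact ⟨h1 h.1 hXY, h2 h.2 hXY⟩

theorem mfv_ren {M : MT S} {X Y : Set ℕ} {ρ : ℕ → ℕ} (h : MFv M X) (e : ∀ i ∈ X, ρ i ∈ Y) :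
    MFv (mren ρ M) Y := by
  have hup : ∀ {X Y : Set ℕ} {ρ : ℕ → ℕ}, (∀ i ∈ X, ρ i ∈ Y) →
      ∀ i ∈ upS X, up ρ i ∈ upS Y := by
    intro X Y ρ e i hi
    cases i with
    | zero => simp
    | succ i => rw [succ_mem_upS] at hi; rw [up_succ, succ_mem_upS]; exact e i hi
  induction M generalizing X Y ρ with
  | var i => exact e i h
  | sort s => trivial
  | app M N h1 h2 => exact ⟨h1 h.1 e, h2 h.2 e⟩
  | lam A M h1 h2 => exact ⟨h1 h.1 e, h2 h.2 (hup e)⟩
  | pi A M h1 h2 => exact ⟨h1 h.1 e, h2 h.2 (hup e)⟩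
  | mem M N h1 h2 => exact ⟨h1 h.1 e, h2 h.2 e⟩

theorem mfv_sub {M : MT S} {X Y : Set ℕ} {σ : ℕ → MT S} (h : MFv M X)
    (e : ∀ i ∈ X, MFv (σ i) Y) : MFv (msub σ M) Y := by
  have hup : ∀ {X Y : Set ℕ} {σ : ℕ → MT S}, (∀ i ∈ X, MFv (σ i) Y) →
      ∀ i ∈ upS X, MFv (mups σ i) (upS Y) := by
    intro X Y σ e i hi
    cases i with
    | zero => exact zero_mem_upS _
    | succ i =>
        rw [succ_mem_upS] at hi
        exact mfv_ren (e i hi) (fun j hj => by rw [Nat.succ_eq_add_one, succ_mem_upS]; exact hj)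
  induction M generalizing X Y σ with
  | var i => exact e i h
  | sort s => trivial
  | app M N h1 h2 => exact ⟨h1 h.1 e, h2 h.2 e⟩
  | lam A M h1 h2 => exact ⟨h1 h.1 e, h2 h.2 (hup e)⟩
  | pi A M h1 h2 => exact ⟨h1 h.1 e, h2 h.2 (hup e)⟩
  | mem M N h1 h2 => exact ⟨h1 h.1 e, h2 h.2 e⟩

theorem mfv_minst {M N : MT S} {X : Set ℕ} (h : MFv M (upS X)) (h' : MFv N X) :
    MFv (minst N M) X := by
  refine mfv_sub h (fun i hi => ?_)
  cases i with
  | zero => exact h'
  | succ i => rw [succ_mem_upS] at hi; exact hi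

theorem mfv_dist {F Q R : MT S} {X : Set ℕ} (hF : MFv F X) (hQ : MFv Q X)
    (h : dist F Q = some R) : MFv R X := by
  induction F generalizing R with
  | lam A M _ _ =>
      simp only [MT.dist, Option.some.injEq] at h
      subst h
      exact ⟨⟨mfv_minst hF.2 hQ, hQ⟩, hF.1⟩
  | mem M N ih _ =>
      simp only [MT.dist, Option.map_eq_some_iff] at h
      obtain ⟨R', h, rfl⟩ := h
      exact ⟨ih hF.1 h, hF.2⟩
  | var i => cases h
  | sort i => cases h
  | app _ _ => cases h
  | pi _ _ => cases h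

theorem mfv_step {M N : MT S} (b : MStep M N) : ∀ {X : Set ℕ}, MFv M X → MFv N X := by
  induction b with
  | beta h => intro X hM; exact mfv_dist hM.1 hM.2 h
  | appL _ _ ih => intro X h; exact ⟨ih h.1, h.2⟩
  | appR _ _ ih => intro X h; exact ⟨h.1, ih h.2⟩
  | lamA _ _ ih => intro X h; exact ⟨ih h.1, h.2⟩
  | lamM _ _ ih => intro X h; exact ⟨h.1, ih h.2⟩
  | piA _ _ ih => intro X h; exact ⟨ih h.1, h.2⟩
  | piB _ _ ih => intro X h; exact ⟨h.1, ih h.2⟩
  | memP _ _ ih => intro X h; exact ⟨ih h.1, h.2⟩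
  | memN _ _ ih => intro X h; exact ⟨h.1, ih h.2⟩

theorem mfv_red {M N : MT S} {X : Set ℕ} (r : MRed M N) (h : MFv M X) : MFv N X := by
  induction r with
  | refl => exact h
  | tail _ b ih => exact mfv_step b ih

theorem exists_mfv (M : MT S) : ∃ m, ∀ n, m ≤ n → MFv M {i | i < n} := by
  induction M with
  | var i => exact ⟨i + 1, fun n hn => hn⟩
  | sort s => exact ⟨0, fun _ _ => trivial⟩
  | app M N h1 h2 =>
      obtain ⟨m1, h1⟩ := h1
      obtain ⟨m2, h2⟩ := h2
      exact ⟨max m1 m2, fun n hn => ⟨h1 n (le_trans (le_max_left _ _) hn),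
        h2 n (le_trans (le_max_right _ _) hn)⟩⟩
  | lam M N h1 h2 =>
      obtain ⟨m1, h1⟩ := h1
      obtain ⟨m2, h2⟩ := h2
      refine ⟨max m1 m2, fun n hn => ⟨h1 n (le_trans (le_max_left _ _) hn), ?_⟩⟩
      rw [upS_lt]
      exact h2 (n + 1) (le_trans (le_trans (le_max_right _ _) hn) (Nat.le_succ _))
  | pi M N h1 h2 =>
      obtain ⟨m1, h1⟩ := h1
      obtain ⟨m2, h2⟩ := h2
      refine ⟨max m1 m2, fun n hn => ⟨h1 n (le_trans (le_max_left _ _) hn), ?_⟩⟩
      rw [upS_lt]
      exact h2 (n + 1) (le_trans (le_trans (le_max_right _ _) hn) (Nat.le_succ _))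
  | mem M N h1 h2 =>
      obtain ⟨m1, h1⟩ := h1
      obtain ⟨m2, h2⟩ := h2
      exact ⟨max m1 m2, fun n hn => ⟨h1 n (le_trans (le_max_left _ _) hn),
        h2 n (le_trans (le_max_right _ _) hn)⟩⟩

/-! ### reduction and renaming -/

theorem isL_mren {F : MT S} {ρ : ℕ → ℕ} : IsL (mren ρ F) ↔ IsL F := by
  induction F with
  | mem F N ih _ => exact ih
  | var i => exact Iff.rfl
  | sort i => exact Iff.rfl
  | app _ _ => exact Iff.rfl
  | lam _ _ => exact Iff.rfl
  | pi _ _ => exact Iff.rfl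

theorem mstep_ren_inv {M : MT S} : ∀ {ρ : ℕ → ℕ} {N : MT S}, MStep (mren ρ M) N →
    ∃ M', MStep M M' ∧ N = mren ρ M' := by
  induction M with
  | var i => intro ρ N h; cases h
  | sort s => intro ρ N h; cases h
  | app M Q h1 h2 =>
      intro ρ N h
      rw [MT.mren_app] at h
      cases h with
      | beta h =>
          obtain ⟨R, hR⟩ := exists_dist (isL_mren.1 (isL_of_dist h)) Q
          have := dist_mren hR ρ
          rw [h] at this
          injection this with this
          exact ⟨R, .beta hR, this⟩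
      | appL _ h =>
          obtain ⟨M', b, rfl⟩ := h1 h
          exact ⟨_, .appL _ b, rfl⟩
      | appR _ h =>
          obtain ⟨M', b, rfl⟩ := h2 h
          exact ⟨_, .appR _ b, rfl⟩
  | lam A M h1 h2 =>
      intro ρ N h
      rw [MT.mren_lam] at h
      cases h with
      | lamA _ h =>
          obtain ⟨M', b, rfl⟩ := h1 h
          exact ⟨_, .lamA _ b, rfl⟩
      | lamM _ h =>
          obtain ⟨M', b, rfl⟩ := h2 h
          exact ⟨_, .lamM _ b, rfl⟩
  | pi A M h1 h2 =>
      intro ρ N h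
      rw [MT.mren_pi] at h
      cases h with
      | piA _ h =>
          obtain ⟨M', b, rfl⟩ := h1 h
          exact ⟨_, .piA _ b, rfl⟩
      | piB _ h =>
          obtain ⟨M', b, rfl⟩ := h2 h
          exact ⟨_, .piB _ b, rfl⟩
  | mem A M h1 h2 =>
      intro ρ N h
      rw [MT.mren_mem] at h
      cases h with
      | memP _ h =>
          obtain ⟨M', b, rfl⟩ := h1 h
          exact ⟨_, .memP _ b, rfl⟩
      | memN _ h =>
          obtain ⟨M', b, rfl⟩ := h2 h
          exact ⟨_, .memN _ b, rfl⟩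

theorem mred_ren_inv {M N : MT S} {ρ : ℕ → ℕ} (h : MRed (mren ρ M) N) :
    ∃ M', MRed M M' ∧ N = mren ρ M' := by
  generalize hK : mren ρ M = K at h
  induction h with
  | refl => exact ⟨M, .refl, hK.symm⟩
  | tail _ b ih =>
      obtain ⟨M', r, rfl⟩ := ih
      obtain ⟨M'', b', rfl⟩ := mstep_ren_inv b
      exact ⟨M'', r.tail b', rfl⟩

/-! ### retyping: the types of a term with memory are those of its erasure -/

theorem retype {M : MT S} : ∀ {D : ℕ → Term S} {A T : Term S}, WfF P D → TMF P D M A →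
    TyF P D (er M) T → TMF P D M T := by
  induction M with
  | var i =>
      intro D A T w h h'
      obtain ⟨⟨s, hs⟩, e⟩ := fgen_var h' i rfl
      rcases ftype_correct w h' with ⟨t, rfl⟩ | ⟨t, ht⟩
      · exact tmf_red_type w (TMF.var hs) (red_of_eq_sort (BetaEq.symm e))
      · exact .conv (TMF.var hs) (BetaEq.symm e) ht
  | sort s =>
      intro D A T w h h'
      obtain ⟨t, a, e⟩ := fgen_sort h' s rfl
      rcases ftype_correct w h' with ⟨t', rfl⟩ | ⟨t', ht⟩
      · have := sort_inj e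
        subst this
        exact .sort a
      · exact .conv (.sort a) (BetaEq.symm e) ht
  | app M N ih1 ih2 =>
      intro D A T w h h'
      obtain ⟨A1, B1, h1, h2, e⟩ := fgen_app h' _ _ rfl
      obtain ⟨A2, B2, h3, h4, e'⟩ := tmf_gen_app h _ _ rfl
      have k := TMF.app (ih1 w h3 h1) (ih2 w h4 h2)
      rcases ftype_correct w h' with ⟨t', rfl⟩ | ⟨t', ht⟩
      · exact tmf_red_type w k (red_of_eq_sort (BetaEq.symm e))
      · exact .conv k (BetaEq.symm e) ht
  | lam A0 M ih1 ih2 =>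
      intro D A T w h h'
      obtain ⟨B1, s1, h1, h2, e⟩ := fgen_lam h' _ _ rfl
      obtain ⟨B2, a, c, h3, h4, h5, e'⟩ := tmf_gen_lam h _ _ rfl
      have k := TMF.lam h3 (ih2 (w.cons h3.typed) h4 h1) h2
      rcases ftype_correct w h' with ⟨t', rfl⟩ | ⟨t', ht⟩
      · exact absurd e not_sort_pi
      · exact .conv k (BetaEq.symm e) ht
  | pi A0 M ih1 ih2 =>
      intro D A T w h h'
      obtain ⟨a, b, c, h1, h2, r, e⟩ := fgen_pi h' _ _ rfl
      obtain ⟨a', b', c', h3, h4, r', e'⟩ := tmf_gen_pi h _ _ rfl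
      have k := TMF.pi (ih1 w h3 h1) (ih2 (w.cons h3.typed) h4 h2) r
      rcases ftype_correct w h' with ⟨t', rfl⟩ | ⟨t', ht⟩
      · have := sort_inj e
        subst this
        exact k
      · exact .conv k (BetaEq.symm e) ht
  | mem M N ih1 ih2 =>
      intro D A T w h h'
      obtain ⟨h1, B, h2⟩ := tmf_gen_mem h _ _ rfl
      exact .mem (ih1 w h1 h') h2

/-! ### classes -/

/-- `T` has a sort of index at least `k` -/
def Ge (P : Spec S) (idx : S → ℕ) (k : ℕ) (D : ℕ → Term S) (T : Term S) : Prop :=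
  ∃ s, SigF P D T s ∧ k ≤ idx s

variable {idx : S → ℕ} {k : ℕ}

theorem Ge.conv {D : ℕ → Term S} {T T' : Term S} (h : Ge P idx k D T) (e : BetaEq T' T) :
    Ge P idx k D T' := by
  obtain ⟨s, ⟨T0, e0, h0⟩, hk⟩ := h
  exact ⟨s, ⟨T0, BetaEq.trans e e0, h0⟩, hk⟩


theorem Ge.mono {D : ℕ → Term S} {T : Term S} {j : ℕ} (h : Ge P idx k D T) (hj : j ≤ k) :
    Ge P idx j D T := by
  obtain ⟨s, h, hk⟩ := h
  exact ⟨s, h, hj.trans hk⟩

theorem Ge.sub {D D' : ℕ → Term S} {T : Term S} {σ : ℕ → Term S} (h : Ge P idx k D T)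
    (hs : SubF P σ D D') : Ge P idx k D' (sub σ T) := by
  obtain ⟨s, ⟨T0, e0, h0⟩, hk⟩ := h
  exact ⟨s, ⟨_, BetaEq.sub e0 σ, tyf_sub h0 hs⟩, hk⟩

theorem Ge.ren {D D' : ℕ → Term S} {T : Term S} {ρ : ℕ → ℕ} (h : Ge P idx k D T)
    (hs : RenF ρ D D') : Ge P idx k D' (ren ρ T) := by
  obtain ⟨s, ⟨T0, e0, h0⟩, hk⟩ := h
  exact ⟨s, ⟨_, BetaEq.ren e0 ρ, tyf_ren h0 hs⟩, hk⟩

theorem Ge.inst {D : ℕ → Term S} (w : WfF P D) {A B N : Term S} (h : Ge P idx k (fcons A D) B)
    (hN : TyF P D N A) : Ge P idx k D (inst N B) :=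
  h.sub ((SubF.var w).scons (by rwa [sub_id]))

/-- the components of a product of class `≥ k` have class `≥ k` -/
theorem Ge.pi_inv (hrk : ∀ a b c, P.rule a b c → idx c ≤ idx a ∧ idx c ≤ idx b)
    {D : ℕ → Term S} (w : WfF P D) {A B : Term S} {s : S} (hA : TyF P D A (.sort s))
    (h : Ge P idx k D (.pi A B)) : Ge P idx k D A ∧ Ge P idx k (fcons A D) B := by
  obtain ⟨c, ⟨T0, e0, h0⟩, hk⟩ := h
  obtain ⟨K, r1, r2⟩ := betaEq_iff.1 e0
  obtain ⟨A', B', rfl, rA, rB⟩ := red_pi r1
  have h1 := FSR w h0 r2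
  obtain ⟨a, b, c', ha, hb, ru, e⟩ := fgen_pi h1 _ _ rfl
  have hc : c = c' := sort_inj e
  subst hc
  obtain ⟨h3, h4⟩ := hrk _ _ _ ru
  refine ⟨⟨a, ⟨A', rA.eq, ha⟩, hk.trans h3⟩, b, ⟨B', rB.eq, ?_⟩, hk.trans h4⟩
  exact fctx_conv w hb ha hA (BetaEq.symm rA.eq)

end Crest.Agent.R298.AAI833
end

-- ▼ part R298/AAI2_833
section

/-!
R298 (S0452), helper833: insurance (I2), abstract adequacy over function contexts, part 2:
the sets `Wn` and `Ne`, reflection of `NFF` through renamings (strengthening), binders.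
-/

set_option autoImplicit false

namespace Crest.Agent.R298.AAI833

open Crest.LogicCS.PTS Relation
open Crest.Agent.R298.Sub452 Crest.Agent.R298.Par452 Crest.Agent.R298.Ty452
open Crest.Agent.R298.Mem360 Crest.Agent.R298.TyF452 Crest.Agent.R298.TyMF452
open Crest.Agent.R298.Main865 Crest.Agent.R298.StrF657 Crest.Agent.R298.World657
open Crest.Agent.R298.Str657 (Fb)
open Crest.Agent.R298.Mem360.MT (er emb er_emb IsL isL_of_dist dist mren msub mups mwk mscons minst
  er_mren er_msub er_mups er_mscons er_minst mren_mren msub_msub mren_eq_msub exists_dist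
  dist_mren msub_mscons msub_mren mren_msub mren_minst)

universe u v
variable {S : Type u} {P : Spec S} {idx : S → ℕ} {k : ℕ}

/-! ### `NFF` under conversion of contexts and renaming -/

/-- contexts with the same typings and convertible declarations give the same `NFF` -/
theorem NFF.ctx {M : MT S} : ∀ {D D' : ℕ → Term S}, (∀ i, BetaEq (D i) (D' i)) → WfF P D →
    WfF P D' → (∀ {K C : Term S}, TyF P D K C → TyF P D' K C) → NFF P idx k D M →
    (∃ A, TMF P D M A) → NFF P idx k D' M := by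
  induction M with
  | var i => intro _ _ _ _ _ _ _ _; trivial
  | sort s => intro _ _ _ _ _ _ _ _; trivial
  | app F Q ihF ihQ =>
      intro D D' e w w' ht ⟨h1, h2, h3⟩ ⟨A, hA⟩
      obtain ⟨A1, B1, hF, hQ, -⟩ := tmf_gen_app hA _ _ rfl
      refine ⟨ihF e w w' ht h1 ⟨_, hF⟩, ihQ e w w' ht h2 ⟨_, hQ⟩, fun hl => ?_⟩
      obtain ⟨T, s, hT, ⟨T', e', hs⟩, hk⟩ := h3 hl
      exact ⟨T, s, ht hT, ⟨T', e', ht hs⟩, hk⟩
  | lam A0 M ihA ihM =>
      intro D D' e w w' ht ⟨h1, h2⟩ ⟨A, hA⟩
      obtain ⟨B, a, c, h3, h4, -, -⟩ := tmf_gen_lam hA _ _ rfl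
      refine ⟨ihA e w w' ht h1 ⟨_, h3⟩, ihM ?_ (w.cons h3.typed) (w'.cons (ht h3.typed)) ?_ h2
        ⟨_, h4⟩⟩
      · intro i
        cases i with
        | zero => exact .refl _
        | succ i => exact BetaEq.ren (e i) _
      · intro K C hK
        have hs : SubF P Term.var (fcons (er A0) D) (fcons (er A0) D') := by
          intro i
          rw [sub_id]
          cases i with
          | zero => exact tyf_var (w'.cons (ht h3.typed)) 0
          | succ i =>
              obtain ⟨s, hs⟩ := w i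
              refine .conv (tyf_wk (tyf_var w' i) _) (tyf_wk (ht hs) _) ?_
              exact BetaEq.symm (BetaEq.ren (e i) _)
        have := tyf_sub hK hs
        rwa [sub_id, sub_id] at this
  | pi A0 M ihA ihM =>
      intro D D' e w w' ht ⟨h1, h2⟩ ⟨A, hA⟩
      obtain ⟨a, b, c, h3, h4, -, -⟩ := tmf_gen_pi hA _ _ rfl
      refine ⟨ihA e w w' ht h1 ⟨_, h3⟩, ihM ?_ (w.cons h3.typed) (w'.cons (ht h3.typed)) ?_ h2
        ⟨_, h4⟩⟩
      · intro i
        cases i with
        | zero => exact .refl _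
        | succ i => exact BetaEq.ren (e i) _
      · intro K C hK
        have hs : SubF P Term.var (fcons (er A0) D) (fcons (er A0) D') := by
          intro i
          rw [sub_id]
          cases i with
          | zero => exact tyf_var (w'.cons (ht h3.typed)) 0
          | succ i =>
              obtain ⟨s, hs⟩ := w i
              refine .conv (tyf_wk (tyf_var w' i) _) (tyf_wk (ht hs) _) ?_
              exact BetaEq.symm (BetaEq.ren (e i) _)
        have := tyf_sub hK hs
        rwa [sub_id, sub_id] at this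
  | mem M N ihM ihN =>
      intro D D' e w w' ht ⟨h1, h2⟩ ⟨A, hA⟩
      obtain ⟨h3, B, h4⟩ := tmf_gen_mem hA _ _ rfl
      exact ⟨ihM e w w' ht h1 ⟨_, h3⟩, ihN e w w' ht h2 ⟨_, h4⟩⟩

/-- conversion of the last declaration -/
theorem NFF.cconv {D : ℕ → Term S} {A A' : Term S} {s s' : S} {M : MT S} {C : Term S}
    (w : WfF P D) (hA : TyF P D A (.sort s)) (hA' : TyF P D A' (.sort s')) (e : BetaEq A A')
    (h : NFF P idx k (fcons A D) M) (hM : TMF P (fcons A D) M C) :
    NFF P idx k (fcons A' D) M := by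
  refine NFF.ctx ?_ (w.cons hA) (w.cons hA') (fun hK => fctx_conv w hK hA hA' e) h ⟨_, hM⟩
  intro i
  cases i with
  | zero => exact BetaEq.ren e _
  | succ i => exact .refl _

theorem sigF_of_ren (hP : ∀ (Γ : List (Term S)) (M : Term S), Legal P Γ M → WN M)
    {ρ : ℕ → ℕ} {X : Set ℕ} {D D' : ℕ → Term S} {A K : Term S} {s : S} (hr : RenX ρ X D D')
    (g : Good P D) (w' : WfF P D') (hK : TyF P D K A) (fA : Fv A X)
    (h : SigF P D' (ren ρ A) s) : SigF P D A s := by
  obtain ⟨T', e', hs⟩ := h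
  obtain ⟨N, r, hn⟩ := (g.wn hP hK).2
  have e1 : BetaEq T' (ren ρ N) := BetaEq.trans (BetaEq.symm e') (BetaEq.ren (Red.eq r) ρ)
  have hN : TyF P D' (ren ρ N) (.sort s) := by
    obtain ⟨Q, r1, r2⟩ := betaEq_iff.1 e1
    have hq : Q = ren ρ N := normal_red (TyF452.normal_ren hn ρ) r2
    subst hq
    exact FSR w' hs r1
  exact ⟨N, Red.eq r, strF_sort hn hr g.wf (fv_red r fA) hN⟩

/-- reflection of `NFF` through a renaming which is injective on the free variables -/
theorem NFF.of_ren (hP : ∀ (Γ : List (Term S)) (M : Term S), Legal P Γ M → WN M) {M : MT S} :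
    ∀ {ρ : ℕ → ℕ} {X : Set ℕ} {D D' : ℕ → Term S}, RenX ρ X D D' → RenF ρ D D' → Good P D →
      WfF P D' → MFv M X → (∃ A, TMF P D M A) → NFF P idx k D' (mren ρ M) → NFF P idx k D M := by
  induction M with
  | var i => intro _ _ _ _ _ _ _ _ _ _ _; trivial
  | sort s => intro _ _ _ _ _ _ _ _ _ _ _; trivial
  | app F Q ihF ihQ =>
      intro ρ X D D' hr hf g w' fv ⟨A, hA⟩ h
      rw [MT.mren_app] at h
      obtain ⟨h1, h2, h3⟩ := h
      obtain ⟨A1, B1, hF, hQ, -⟩ := tmf_gen_app hA _ _ rfl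
      refine ⟨ihF hr hf g w' fv.1 ⟨_, hF⟩ h1, ihQ hr hf g w' fv.2 ⟨_, hQ⟩ h2, fun hl => ?_⟩
      obtain ⟨T, s, hT, hs, hk⟩ := h3 (isL_mren.2 hl)
      rw [er_mren] at hT
      obtain ⟨A0, h0, f0, e0⟩ := strF hP (er F) hr g w' fv.1.fv hT
      refine ⟨A0, s, h0, sigF_of_ren hP hr g w' h0 f0 ?_, hk⟩
      obtain ⟨T', e', hs⟩ := hs
      exact ⟨T', BetaEq.trans (BetaEq.symm e0) e', hs⟩
  | lam A0 M ihA ihM =>
      intro ρ X D D' hr hf g w' fv ⟨A, hA⟩ h
      rw [MT.mren_lam] at h
      obtain ⟨h1, h2⟩ := h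
      obtain ⟨B, a, c, h3, h4, -, -⟩ := tmf_gen_lam hA _ _ rfl
      refine ⟨ihA hr hf g w' fv.1 ⟨_, h3⟩ h1, ihM (hr.up fv.1.fv) (hf.up _) (g.cons h3.typed) ?_
        fv.2 ⟨_, h4⟩ ?_⟩
      · exact w'.cons (tyf_ren h3.typed hf)
      · rw [er_mren] at h2; exact h2
  | pi A0 M ihA ihM =>
      intro ρ X D D' hr hf g w' fv ⟨A, hA⟩ h
      rw [MT.mren_pi] at h
      obtain ⟨h1, h2⟩ := h
      obtain ⟨a, b, c, h3, h4, -, -⟩ := tmf_gen_pi hA _ _ rfl
      refine ⟨ihA hr hf g w' fv.1 ⟨_, h3⟩ h1, ihM (hr.up fv.1.fv) (hf.up _) (g.cons h3.typed) ?_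
        fv.2 ⟨_, h4⟩ ?_⟩
      · exact w'.cons (tyf_ren h3.typed hf)
      · rw [er_mren] at h2; exact h2
  | mem M N ihM ihN =>
      intro ρ X D D' hr hf g w' fv ⟨A, hA⟩ h
      rw [MT.mren_mem] at h
      obtain ⟨h1, h2⟩ := h
      obtain ⟨h3, B, h4⟩ := tmf_gen_mem hA _ _ rfl
      exact ⟨ihM hr hf g w' fv.1 ⟨_, h3⟩ h1, ihN hr hf g w' fv.2 ⟨_, h4⟩ h2⟩

/-! ### the sets `Wn` and `Ne` -/

/-- `M` reduces to a term all of whose redexes have class `≥ k` -/
def Wn (P : Spec S) (idx : S → ℕ) (k : ℕ) (D : ℕ → Term S) (M : MT S) : Prop :=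
  ∃ M', MRed M M' ∧ NFF P idx k D M'

theorem Wn.exp {D : ℕ → Term S} {M N : MT S} (r : MRed M N) (h : Wn P idx k D N) :
    Wn P idx k D M := by
  obtain ⟨N', r', h'⟩ := h
  exact ⟨N', r.trans r', h'⟩

theorem Wn.mem {D : ℕ → Term S} {M N : MT S} (h : Wn P idx k D M) (h' : Wn P idx k D N) :
    Wn P idx k D (.mem M N) := by
  obtain ⟨M', r, h⟩ := h
  obtain ⟨N', r', h'⟩ := h'
  exact ⟨_, MRed.mem r r', h, h'⟩

theorem Wn.var (D : ℕ → Term S) (i : ℕ) : Wn P idx k D (.var i) := ⟨_, .refl, trivial⟩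

theorem Wn.sort (D : ℕ → Term S) (s : S) : Wn P idx k D (.sort s) := ⟨_, .refl, trivial⟩

/-- application of a function with a type of class `≥ k` -/
theorem Wn.app_ge {D : ℕ → Term S} (w : WfF P D) {F Q : MT S} {T : Term S}
    (h : Wn P idx k D F) (h' : Wn P idx k D Q) (hF : TMF P D F T) (hT : Ge P idx k D T) :
    Wn P idx k D (.app F Q) := by
  obtain ⟨F', r, h⟩ := h
  obtain ⟨Q', r', h'⟩ := h'
  refine ⟨_, MRed.app r r', h, h', fun _ => ?_⟩
  obtain ⟨s, hs, hk⟩ := hT
  exact ⟨T, s, (tmf_SR w hF r).typed, hs, hk⟩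

/-- neutral terms -/
inductive Ne (P : Spec S) (idx : S → ℕ) (k : ℕ) (D : ℕ → Term S) : MT S → Prop
  | var (i : ℕ) : Ne P idx k D (.var i)
  | app {F Q : MT S} : Ne P idx k D F → Wn P idx k D Q → Ne P idx k D (.app F Q)
  | mem {M N : MT S} : Ne P idx k D M → Wn P idx k D N → Ne P idx k D (.mem M N)

theorem Ne.aux {D : ℕ → Term S} {M : MT S} (h : Ne P idx k D M) :
    ∃ M', MRed M M' ∧ NFF P idx k D M' ∧ ¬ IsL M' := by
  induction h with
  | var i => exact ⟨_, .refl, trivial, fun h => h⟩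
  | app _ hQ ih =>
      obtain ⟨F', r, h, hl⟩ := ih
      obtain ⟨Q', r', h'⟩ := hQ
      exact ⟨_, MRed.app r r', ⟨h, h', fun h => absurd h hl⟩, fun h => h⟩
  | mem _ hQ ih =>
      obtain ⟨F', r, h, hl⟩ := ih
      obtain ⟨Q', r', h'⟩ := hQ
      exact ⟨_, MRed.mem r r', ⟨h, h'⟩, hl⟩

theorem Ne.wn {D : ℕ → Term S} {M : MT S} (h : Ne P idx k D M) : Wn P idx k D M := by
  obtain ⟨M', r, h, _⟩ := h.aux
  exact ⟨M', r, h⟩

/-! ### binders -/

theorem Wn.lam {D : ℕ → Term S} {A M : MT S} {s : S} {B : Term S} (w : WfF P D)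
    (h : Wn P idx k D A) (hA : TMF P D A (.sort s)) (h' : Wn P idx k (fcons (er A) D) M)
    (hM : TMF P (fcons (er A) D) M B) : Wn P idx k D (.lam A M) := by
  obtain ⟨A', r, h⟩ := h
  obtain ⟨M', r', h'⟩ := h'
  have hA' := tmf_SR w hA r
  refine ⟨_, MRed.lam r r', h, ?_⟩
  exact NFF.cconv w hA.typed hA'.typed (er_red r).eq h' (tmf_SR (w.cons hA.typed) hM r')

theorem Wn.pi {D : ℕ → Term S} {A M : MT S} {s : S} {B : Term S} (w : WfF P D)
    (h : Wn P idx k D A) (hA : TMF P D A (.sort s)) (h' : Wn P idx k (fcons (er A) D) M)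
    (hM : TMF P (fcons (er A) D) M B) : Wn P idx k D (.pi A M) := by
  obtain ⟨A', r, h⟩ := h
  obtain ⟨M', r', h'⟩ := h'
  have hA' := tmf_SR w hA r
  refine ⟨_, MRed.pi r r', h, ?_⟩
  exact NFF.cconv w hA.typed hA'.typed (er_red r).eq h' (tmf_SR (w.cons hA.typed) hM r')

theorem minst_var (k : ℕ) (M : MT S) : minst (.var k) M = mren (nm k) M := by
  rw [mren_eq_msub]
  show msub _ M = _
  congr 1
  funext i
  cases i with
  | zero => rfl
  | succ i => rfl

theorem renF_nm {D : ℕ → Term S} {k : ℕ} {A : Term S} (e : D k = A) :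
    RenF (nm k) (fcons A D) D := by
  intro i
  cases i with
  | zero => simp only [nm_zero, fcons_zero, wk, ren_ren, Nat.succ_eq_add_one, nm_succ, ren_id, e]
  | succ i => simp only [nm_succ, fcons_succ, wk, ren_ren, Nat.succ_eq_add_one, ren_id]

/-- abstraction of a fresh name -/
theorem Wn.bind (hP : ∀ (Γ : List (Term S)) (M : Term S), Legal P Γ M → WN M)
    {D : ℕ → Term S} (wD : World P D) {n : ℕ} {A B : Term S} {s : S} {M : MT S} (e : D n = A)
    (hA : TyF P D A (.sort s)) (hM : TMF P (fcons A D) M B) (fv : MFv M {i | i < n + 1})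
    (h : Wn P idx k D (minst (.var n) M)) : Wn P idx k (fcons A D) M := by
  obtain ⟨M', r, h⟩ := h
  rw [minst_var] at r
  obtain ⟨M'', r', rfl⟩ := mred_ren_inv r
  refine ⟨M'', r', ?_⟩
  exact NFF.of_ren hP (renX_nm wD.lev e) (renF_nm e) (wD.good.cons hA) wD.good.wf
    (mfv_red r' fv) ⟨_, tmf_SR (wD.good.wf.cons hA) hM r'⟩ h

end Crest.Agent.R298.AAI833
end

-- ▼ part R298/AAI3_833
section

/-!
R298 (S0452), helper833: insurance (I2), abstract adequacy over ONE WORLD `D0`, part 3:
the structure `WStage` (R0)-(R8), Lemma U, the fundamental lemma and `wniW_of_stage`.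
-/

set_option autoImplicit false

namespace Crest.Agent.R298.AAI833

open Crest.LogicCS.PTS Relation
open Crest.Agent.R298.Sub452 Crest.Agent.R298.Par452 Crest.Agent.R298.Ty452
open Crest.Agent.R298.Mem360 Crest.Agent.R298.TyF452 Crest.Agent.R298.TyMF452
open Crest.Agent.R298.Main865 Crest.Agent.R298.StrF657 Crest.Agent.R298.World657
open Crest.Agent.R298.Uniq452 (FS funiq)
open Crest.Agent.R298.Str657 (Fb)
open Crest.Agent.R298.Mem360.MT (er emb er_emb IsL isL_of_dist dist mren msub mups mwk mscons minst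
  er_mren er_msub er_mups er_mscons er_minst mren_mren msub_msub mren_eq_msub exists_dist
  dist_mren msub_mscons msub_mren mren_msub mren_minst)

universe u v w
variable {S : Type u} {P : Spec S} {idx : S → ℕ} {i : ℕ}

/-- the erased substitution -/
abbrev es (σ : ℕ → MT S) : ℕ → Term S := fun x => er (σ x)

/-- weak normalisation of stage `i` in the world `D0` -/
def WNiW (P : Spec S) (idx : S → ℕ) (i : ℕ) (D0 : ℕ → Term S) : Prop :=
  ∀ (M : MT S) (A : Term S), TMF P D0 M A → NFF P idx i D0 M →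
    ∃ M', MRed M M' ∧ NFF P idx (i + 1) D0 M'

/-- a stage model at level `i` in the world `D0` -/
structure WStage (P : Spec S) (idx : S → ℕ) (i : ℕ) (D0 : ℕ → Term S) where
  /-- environments -/
  Env : Type w
  /-- substitution -/
  sb : Env → ℕ → MT S
  /-- `Ok G ρ`: `ρ` is an environment for the source context `G` -/
  Ok : (ℕ → Term S) → Env → Prop
  /-- `Ext G A ρ ρ'`: `ρ'` extends `ρ` by an admissible value for a variable of type `A` -/
  Ext : (ℕ → Term S) → Term S → Env → Env → Prop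
  /-- realizers -/
  R : (ℕ → Term S) → Env → Term S → MT S → Prop
  msb : ∀ {G ρ}, Good P G → Ok G ρ → MSubF P (sb ρ) G D0
  ext_ok : ∀ {G A s ρ ρ'}, Good P G → Ok G ρ → TyF P G A (.sort s) → Ext G A ρ ρ' →
    Ok (fcons A G) ρ'
  ext_sb : ∀ {G A s ρ ρ'}, Good P G → Ok G ρ → TyF P G A (.sort s) → Ext G A ρ ρ' →
    ∀ x, sb ρ' (x + 1) = sb ρ x
  /-- realizers are weakly normalising -/
  R_W : ∀ {G ρ T v}, Good P G → Ok G ρ → TyOkF P G T → Ge P idx i G T → R G ρ T v →
    Wn P idx (i + 1) D0 v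
  /-- neutral terms are realizers -/
  R_ne : ∀ {G ρ T v}, Good P G → Ok G ρ → TyOkF P G T → Ge P idx i G T →
    TMF P D0 v (sub (es (sb ρ)) T) → Ne P idx (i + 1) D0 v → R G ρ T v
  /-- head expansion -/
  R_beta : ∀ {G ρ T F Q v}, Good P G → Ok G ρ → TyOkF P G T → Ge P idx i G T →
    TMF P D0 (.app F Q) (sub (es (sb ρ)) T) → dist F Q = some v → R G ρ T v →
    R G ρ T (.app F Q)
  /-- memory -/
  R_mem : ∀ {G ρ T v n B}, Good P G → Ok G ρ → TyOkF P G T → Ge P idx i G T →
    TMF P D0 n B → Wn P idx (i + 1) D0 n → R G ρ T v → R G ρ T (.mem v n)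
  /-- conversion of the type -/
  R_conv : ∀ {G ρ T T' v}, Good P G → Ok G ρ → TyOkF P G T → TyOkF P G T' → Ge P idx i G T →
    BetaEq T T' → R G ρ T v → R G ρ T' v
  /-- types which are high at run time -/
  R_high : ∀ {G ρ T v}, Good P G → Ok G ρ → TyOkF P G T → Ge P idx i G T →
    Ge P idx (i + 1) D0 (sub (es (sb ρ)) T) → TMF P D0 v (sub (es (sb ρ)) T) →
    Wn P idx (i + 1) D0 v → R G ρ T v
  /-- sorts -/
  R_sort : ∀ {G ρ s v}, Good P G → Ok G ρ → Ge P idx i G (.sort s) →
    TMF P D0 v (.sort s) → Wn P idx (i + 1) D0 v → R G ρ (.sort s) v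
  /-- products, introduction -/
  R_pi : ∀ {G ρ A B s v}, Good P G → Ok G ρ → TyF P G (.pi A B) (.sort s) →
    Ge P idx i G (.pi A B) → ¬ Ge P idx (i + 1) D0 (sub (es (sb ρ)) (.pi A B)) →
    TMF P D0 v (sub (es (sb ρ)) (.pi A B)) → Wn P idx (i + 1) D0 v →
    (∀ ρ', Ext G A ρ ρ' → R (fcons A G) ρ' B (.app v (sb ρ' 0))) → R G ρ (.pi A B) v
  /-- products, elimination -/
  R_app : ∀ {G ρ A B s v ρ'}, Good P G → Ok G ρ → TyF P G (.pi A B) (.sort s) →
    Ge P idx i G (.pi A B) → ¬ Ge P idx (i + 1) D0 (sub (es (sb ρ)) (.pi A B)) →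
    R G ρ (.pi A B) v → Ext G A ρ ρ' → R (fcons A G) ρ' B (.app v (sb ρ' 0))
  /-- instances: the semantic content -/
  R_inst : ∀ {G ρ A B s} {N : MT S}, Good P G → Ok G ρ → TyF P G (.pi A B) (.sort s) →
    Ge P idx i G (.pi A B) → ¬ Ge P idx (i + 1) D0 (sub (es (sb ρ)) (.pi A B)) →
    TMF P G N A → R G ρ A (msub (sb ρ) N) →
    ∃ ρ', Ext G A ρ ρ' ∧ sb ρ' 0 = msub (sb ρ) N ∧
      ∀ v, TMF P D0 v (sub (es (sb ρ)) (inst (er N) B)) → R (fcons A G) ρ' B v →
        R G ρ (inst (er N) B) v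
  /-- fresh variables, one term at a time -/
  fresh : ∀ {G ρ A s}, Good P G → Ok G ρ → TyF P G A (.sort s) → ∀ M : MT S,
    (∃ B, TMF P (fcons A G) M B) → ∃ ρ', Ok (fcons A G) ρ' ∧
      (Wn P idx (i + 1) D0 (msub (sb ρ') M) →
        Wn P idx (i + 1) (fcons (sub (es (sb ρ)) A) D0) (msub (mups (sb ρ)) M))
  /-- variables -/
  var_R : ∀ {G ρ x}, Good P G → Ok G ρ → Ge P idx i G (G x) → R G ρ (G x) (sb ρ x)
  var_Ne : ∀ {G ρ x}, Good P G → Ok G ρ → ¬ Ge P idx i G (G x) →
    Ne P idx (i + 1) D0 (sb ρ x)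
  /-- the identity environment, one term at a time -/
  ident : ∀ M : MT S, (∃ A, TMF P D0 M A) → ∃ ρ, Ok D0 ρ ∧
    (Wn P idx (i + 1) D0 (msub (sb ρ) M) → Wn P idx (i + 1) D0 M)

/-- the side condition on the index -/
def Mono (P : Spec S) (idx : S → ℕ) : Prop :=
  ∀ a b c, P.rule a b c → idx c ≤ idx a ∧ idx c ≤ idx b

theorem tyOk_of {D : ℕ → Term S} {T : Term S} {s : S} (h : TyF P D T (.sort s)) :
    TyOkF P D T := .inr ⟨s, h⟩

theorem tyOk_red {D : ℕ → Term S} {T T' : Term S} (w : WfF P D) (h : TyOkF P D T)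
    (r : Red T T') : TyOkF P D T' := by
  rcases h with ⟨s, rfl⟩ | ⟨s, h⟩
  · rw [red_sort r]; exact .inl ⟨s, rfl⟩
  · exact .inr ⟨s, FSR w h r⟩


variable {D0 : ℕ → Term S}

section

variable (St : WStage.{u, w} P idx i D0)

theorem es_ext {G : ℕ → Term S} {A : Term S} {s : S} {ρ ρ' : St.Env} (g : Good P G)
    (h : St.Ok G ρ) (hA : TyF P G A (.sort s)) (he : St.Ext G A ρ ρ') :
    es (St.sb ρ') = scons (er (St.sb ρ' 0)) (es (St.sb ρ)) := by
  funext x
  cases x with
  | zero => rfl
  | succ x => show er _ = er _; rw [St.ext_sb g h hA he]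

theorem sub_ext {G : ℕ → Term S} {A B : Term S} {s : S} {ρ ρ' : St.Env} (g : Good P G)
    (h : St.Ok G ρ) (hA : TyF P G A (.sort s)) (he : St.Ext G A ρ ρ') :
    sub (es (St.sb ρ')) B = inst (er (St.sb ρ' 0)) (sub (ups (es (St.sb ρ))) B) := by
  rw [es_ext St g h hA he, sub_scons]

theorem tmf_ext_zero {G : ℕ → Term S} {A : Term S} {s : S} {ρ ρ' : St.Env} (g : Good P G)
    (h : St.Ok G ρ) (hA : TyF P G A (.sort s)) (he : St.Ext G A ρ ρ') :
    TMF P D0 (St.sb ρ' 0) (sub (es (St.sb ρ)) A) := by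
  have := St.msb (g.cons hA) (St.ext_ok g h hA he) 0
  rw [fcons_zero] at this
  have e : sub (es (St.sb ρ')) (wk A) = sub (es (St.sb ρ)) A := by
    rw [wk, sub_ren, es_ext St g h hA he]
    rfl
  rwa [← e]


/-- **Lemma U**: types of the same term -/
theorem lemU (hrk : Mono P idx) (w0 : WfF P D0) {T1 T2 : Term S} (hfs : FS T1 T2) :
    ∀ {U1 U2 : Term S}, BetaEq U1 T1 → BetaEq U2 T2 → ∀ {G : ℕ → Term S} {ρ : St.Env} {v : MT S},
      Good P G → St.Ok G ρ → TyOkF P G U1 → TyOkF P G U2 → Ge P idx i G U1 →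
      TMF P D0 v (sub (es (St.sb ρ)) U1) → TMF P D0 v (sub (es (St.sb ρ)) U2) →
      ((Ge P idx i G U2 ∧ St.R G ρ U2 v) ∨
        (Wn P idx (i + 1) D0 v ∧ Ge P idx (i + 1) D0 (sub (es (St.sb ρ)) U2))) →
      St.R G ρ U1 v := by
  induction hfs with
  | @eq A B e =>
      intro U1 U2 e1 e2 G ρ v g ho t1 t2 h1 m1 m2 hd
      have e12 : BetaEq U2 U1 :=
        BetaEq.trans e2 (BetaEq.trans (BetaEq.symm e) (BetaEq.symm e1))
      rcases hd with ⟨h2, hR⟩ | ⟨hW, hH⟩
      · exact St.R_conv g ho t2 t1 h2 e12 hR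
      · exact St.R_high g ho t1 h1 (hH.conv (BetaEq.sub (BetaEq.symm e12) _)) m1 hW
  | @sort A B s t e e' =>
      intro U1 U2 e1 e2 G ρ v g ho t1 t2 h1 m1 m2 hd
      have hW : Wn P idx (i + 1) D0 v := by
        rcases hd with ⟨h2, hR⟩ | ⟨hW, -⟩
        · exact St.R_W g ho t2 h2 hR
        · exact hW
      have e3 : BetaEq U1 (.sort s) := BetaEq.trans e1 e
      have hs : Ge P idx i G (.sort s) := h1.conv (BetaEq.symm e3)
      have m3 : TMF P D0 v (.sort s) := tmf_sort_of_eq w0 m1 (BetaEq.sub e3 (es (St.sb ρ)))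
      exact St.R_conv g ho (.inl ⟨s, rfl⟩) t1 hs (BetaEq.symm e3) (St.R_sort g ho hs m3 hW)
  | @pi A B C A' B' e e' _ ih =>
      intro U1 U2 e1 e2 G ρ v g ho t1 t2 h1 m1 m2 hd
      have hW : Wn P idx (i + 1) D0 v := by
        rcases hd with ⟨h2, hR⟩ | ⟨hW, -⟩
        · exact St.R_W g ho t2 h2 hR
        · exact hW
      by_cases hi1 : Ge P idx (i + 1) D0 (sub (es (St.sb ρ)) U1)
      · exact St.R_high g ho t1 h1 hi1 m1 hW
      -- common forms
      obtain ⟨C1, A1, r1, rC1, rA1⟩ := red_of_eq_pi (BetaEq.trans e1 e)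
      obtain ⟨C2, B2, r2, rC2, rB2⟩ := red_of_eq_pi (BetaEq.trans e2 e')
      obtain ⟨C3, q1, q2⟩ : ∃ C3, Red C1 C3 ∧ Red C2 C3 :=
        CR (BetaEq.trans (BetaEq.symm (Red.eq rC1)) (Red.eq rC2))
      have r1' : Red U1 (.pi C3 A1) := r1.trans (Red.pi q1 .refl)
      have r2' : Red U2 (.pi C3 B2) := r2.trans (Red.pi q2 .refl)
      have k1 := tyOk_red g.wf t1 r1'
      have k2 := tyOk_red g.wf t2 r2'
      obtain ⟨s1, k1⟩ : ∃ s, TyF P G (.pi C3 A1) (.sort s) := by
        rcases k1 with ⟨s, e⟩ | h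
        · cases e
        · exact h
      obtain ⟨s2, k2⟩ : ∃ s, TyF P G (.pi C3 B2) (.sort s) := by
        rcases k2 with ⟨s, e⟩ | h
        · cases e
        · exact h
      obtain ⟨a1, b1, c1, j1, j2, -, -⟩ := fgen_pi k1 _ _ rfl
      obtain ⟨a2, b2, c2, j3, j4, -, -⟩ := fgen_pi k2 _ _ rfl
      have g1 : Ge P idx i G (.pi C3 A1) := h1.conv (BetaEq.symm (Red.eq r1'))
      obtain ⟨gC, gA⟩ := Ge.pi_inv hrk g.wf j1 g1
      have hi1' : ¬ Ge P idx (i + 1) D0 (sub (es (St.sb ρ)) (.pi C3 A1)) :=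
        fun h => hi1 (h.conv (BetaEq.sub (Red.eq r1') _))
      have hs := (St.msb g ho).subF
      have tyP1 := tyf_sub k1 hs
      have m1' : TMF P D0 v (sub (es (St.sb ρ)) (.pi C3 A1)) :=
        .conv m1 (BetaEq.sub (Red.eq r1') _) tyP1
      have m2' : TMF P D0 v (sub (es (St.sb ρ)) (.pi C3 B2)) :=
        .conv m2 (BetaEq.sub (Red.eq r2') _) (tyf_sub k2 hs)
      refine St.R_conv g ho (tyOk_of k1) t1 g1 (BetaEq.symm (Red.eq r1')) ?_
      refine St.R_pi g ho k1 g1 hi1' m1' hW ?_
      intro ρ' he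
      have g' := g.cons j1
      have ho' := St.ext_ok g ho j1 he
      have mw : TMF P D0 (St.sb ρ' 0) (sub (es (St.sb ρ)) C3) := tmf_ext_zero St g ho j1 he
      have hwk : Ge P idx i (fcons C3 G) (fcons C3 G 0) := by
        rw [fcons_zero]; exact gC.ren (RenF.wk G C3)
      have wW : Wn P idx (i + 1) D0 (St.sb ρ' 0) := by
        refine St.R_W g' ho' (T := fcons C3 G 0) ?_ hwk (St.var_R g' ho' hwk)
        rw [fcons_zero]
        exact .inr ⟨_, tyf_wk j1 C3⟩
      have n1 : TMF P D0 (.app v (St.sb ρ' 0)) (sub (es (St.sb ρ')) A1) := by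
        rw [sub_ext St g ho j1 he]
        exact .app m1' mw
      have n2 : TMF P D0 (.app v (St.sb ρ' 0)) (sub (es (St.sb ρ')) B2) := by
        rw [sub_ext St g ho j1 he]
        exact .app m2' mw
      refine ih (Red.eq rA1).symm (Red.eq rB2).symm g' ho' (tyOk_of j2) (tyOk_of j4) gA n1 n2 ?_
      by_cases hi2 : Ge P idx (i + 1) D0 (sub (es (St.sb ρ)) U2)
      · right
        have hi3 : Ge P idx (i + 1) D0 (sub (es (St.sb ρ)) (.pi C3 B2)) :=
          hi2.conv (BetaEq.sub (BetaEq.symm (Red.eq r2')) _)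
        refine ⟨Wn.app_ge w0 hW wW m2' hi3, ?_⟩
        rw [sub_ext St g ho j1 he]
        exact (Ge.pi_inv hrk w0 (tyf_sub j1 hs) hi3).2.inst w0 mw.typed
      · left
        rcases hd with ⟨h2, hR⟩ | ⟨-, hH⟩
        · have g2 : Ge P idx i G (.pi C3 B2) := h2.conv (BetaEq.symm (Red.eq r2'))
          refine ⟨(Ge.pi_inv hrk g.wf j3 g2).2, ?_⟩
          have hi3 : ¬ Ge P idx (i + 1) D0 (sub (es (St.sb ρ)) (.pi C3 B2)) :=
            fun h => hi2 (h.conv (BetaEq.sub (Red.eq r2') _))
          exact St.R_app g ho k2 g2 hi3 (St.R_conv g ho t2 (tyOk_of k2) h2 (Red.eq r2') hR) he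
        · exact absurd hH hi2

end

end Crest.Agent.R298.AAI833
end

-- ▼ part R298/AAI4_833
section

/-!
R298 (S0452), helper833: insurance (I2), abstract adequacy over ONE WORLD `D0`, part 4:
the fundamental lemma, `wniW_of_stage`, and the assembly of the stages over one world.
-/

set_option autoImplicit false

namespace Crest.Agent.R298.AAI833

open Crest.LogicCS.PTS Relation
open Crest.Agent.R298.Sub452 Crest.Agent.R298.Par452 Crest.Agent.R298.Ty452
open Crest.Agent.R298.Mem360 Crest.Agent.R298.TyF452 Crest.Agent.R298.TyMF452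
open Crest.Agent.R298.Main865 Crest.Agent.R298.StrF657 Crest.Agent.R298.World657
open Crest.Agent.R298.Uniq452 (FS funiq)
open Crest.Agent.R298.Str657 (Fb)
open Crest.Agent.R298.Mem360.MT (er emb er_emb IsL isL_of_dist dist mren msub mups mwk mscons minst
  er_mren er_msub er_mups er_mscons er_minst mren_mren msub_msub mren_eq_msub exists_dist
  dist_mren msub_mscons msub_mren mren_msub mren_minst)

universe u v w
variable {S : Type u} {P : Spec S} {idx : S → ℕ} {i : ℕ} {D0 : ℕ → Term S}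

/-- **the fundamental lemma** -/
theorem fund (St : WStage.{u, w} P idx i D0) (hrk : Mono P idx) (w0 : WfF P D0) (M : MT S) :
    ∀ {G : ℕ → Term S} {ρ : St.Env} {A0 : Term S}, Good P G → St.Ok G ρ → TMF P G M A0 →
      NFF P idx i G M →
      Wn P idx (i + 1) D0 (msub (St.sb ρ) M) ∧
      (∀ T, TyF P G (er M) T → Ge P idx i G T → St.R G ρ T (msub (St.sb ρ) M)) ∧
      ((∃ A B, TyF P G (er M) (.pi A B)) → (∀ T, TyF P G (er M) T → ¬ Ge P idx i G T) →
        ¬ IsL M → Ne P idx (i + 1) D0 (msub (St.sb ρ) M)) := by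
  induction M with
  | var x =>
      intro G ρ A0 g ho hM _
      obtain ⟨⟨s, hs⟩, -⟩ := fgen_var hM.typed x rfl
      have okx : TyOkF P G (G x) := .inr ⟨s, hs⟩
      by_cases hg : Ge P idx i G (G x)
      · have hR := St.var_R g ho hg
        refine ⟨St.R_W g ho okx hg hR, ?_, ?_⟩
        · intro T hT hgT
          obtain ⟨-, e⟩ := fgen_var hT x rfl
          exact St.R_conv g ho okx (ftype_correct g.wf hT) hg (BetaEq.symm e) hR
        · intro _ hlow _
          exact absurd hg (hlow _ (.var hs))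
      · have hN := St.var_Ne g ho hg
        refine ⟨hN.wn, ?_, fun _ _ _ => hN⟩
        intro T hT hgT
        obtain ⟨-, e⟩ := fgen_var hT x rfl
        exact absurd (hgT.conv (BetaEq.symm e)) hg
  | sort s =>
      intro G ρ A0 g ho hM _
      refine ⟨Wn.sort _ _, ?_, ?_⟩
      · intro T hT hgT
        obtain ⟨t, a, e⟩ := fgen_sort hT s rfl
        have hg : Ge P idx i G (.sort t) := hgT.conv (BetaEq.symm e)
        exact St.R_conv g ho (.inl ⟨t, rfl⟩) (ftype_correct g.wf hT) hg (BetaEq.symm e)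
          (St.R_sort g ho hg (.sort a) (Wn.sort _ _))
      · rintro ⟨A, B, h⟩ _ _
        obtain ⟨t, a, e⟩ := fgen_sort h s rfl
        exact absurd (BetaEq.symm e) not_sort_pi
  | pi A B ihA ihB =>
      intro G ρ A0 g ho hM hn
      obtain ⟨a, b, c, hA, hB, r, -⟩ := tmf_gen_pi hM _ _ rfl
      have hs := St.msb g ho
      have g' := g.cons hA.typed
      have hA' := tmf_sub hA hs
      have wA := (ihA g ho hA hn.1).1
      obtain ⟨ρ', ho', hf⟩ := St.fresh g ho hA.typed B ⟨_, hB⟩
      have wB := hf (ihB g' ho' hB hn.2).1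
      have e1 : er (msub (St.sb ρ) A) = sub (es (St.sb ρ)) (er A) := er_msub _ _
      have hB' : TMF P (fcons (er (msub (St.sb ρ) A)) D0) (msub (mups (St.sb ρ)) B)
          (.sort b) := by
        rw [e1]
        exact tmf_sub hB (hs.ups (by have := hA'.typed; rwa [e1] at this))
      have hW : Wn P idx (i + 1) D0 (msub (St.sb ρ) (.pi A B)) := by
        refine Wn.pi w0 wA hA' ?_ hB'
        rw [e1]; exact wB
      refine ⟨hW, ?_, ?_⟩
      · intro T hT hgT
        obtain ⟨a', b', c', hA1, hB1, r', e⟩ := fgen_pi hT _ _ rfl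
        have hg : Ge P idx i G (.sort c') := hgT.conv (BetaEq.symm e)
        have ht : TMF P G (.pi A B) (.sort c') :=
          retype g.wf hM (.prod hA1 hB1 r')
        exact St.R_conv g ho (.inl ⟨c', rfl⟩) (ftype_correct g.wf hT) hg (BetaEq.symm e)
          (St.R_sort g ho hg (tmf_sub ht hs) hW)
      · rintro ⟨A', B', h⟩ _ _
        obtain ⟨_, _, t, _, _, _, e⟩ := fgen_pi h _ _ rfl
        exact absurd (BetaEq.symm e) not_sort_pi
  | lam A M ihA ihM =>
      intro G ρ A0 g ho hM hn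
      obtain ⟨B, a, c, hA, hB, hp, -⟩ := tmf_gen_lam hM _ _ rfl
      have hs := St.msb g ho
      have g' := g.cons hA.typed
      have hA' := tmf_sub hA hs
      have wA := (ihA g ho hA hn.1).1
      obtain ⟨ρ1, ho1, hf⟩ := St.fresh g ho hA.typed M ⟨_, hB⟩
      have wB := hf (ihM g' ho1 hB hn.2).1
      have e1 : er (msub (St.sb ρ) A) = sub (es (St.sb ρ)) (er A) := er_msub _ _
      have hB' : TMF P (fcons (er (msub (St.sb ρ) A)) D0) (msub (mups (St.sb ρ)) M)
          (sub (ups (es (St.sb ρ))) B) := by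
        rw [e1]
        have := tmf_sub hB (hs.ups (by have := hA'.typed; rwa [e1] at this))
        rwa [er_mups] at this
      have hW : Wn P idx (i + 1) D0 (msub (St.sb ρ) (.lam A M)) := by
        refine Wn.lam w0 wA hA' ?_ hB'
        rw [e1]; exact wB
      refine ⟨hW, ?_, fun _ _ hl => absurd trivial hl⟩
      intro T hT hgT
      obtain ⟨B1, s1, hB1, hp1, e⟩ := fgen_lam hT _ _ rfl
      have okT := ftype_correct g.wf hT
      have hMT : TMF P G (.lam A M) T := retype g.wf hM hT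
      have hvT := tmf_sub hMT hs
      by_cases hh : Ge P idx (i + 1) D0 (sub (es (St.sb ρ)) T)
      · exact St.R_high g ho okT hgT hh hvT hW
      have hg : Ge P idx i G (.pi (er A) B1) := hgT.conv (BetaEq.symm e)
      have hh' : ¬ Ge P idx (i + 1) D0 (sub (es (St.sb ρ)) (.pi (er A) B1)) :=
        fun h => hh (h.conv (BetaEq.sub e _))
      have hvP : TMF P D0 (msub (St.sb ρ) (.lam A M)) (sub (es (St.sb ρ)) (.pi (er A) B1)) :=
        .conv hvT (BetaEq.sub e _) (tyf_sub hp1 hs.subF)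
      refine St.R_conv g ho (tyOk_of hp1) okT hg (BetaEq.symm e) ?_
      refine St.R_pi g ho hp1 hg hh' hvP hW ?_
      intro ρ' he
      have ho' := St.ext_ok g ho hA.typed he
      have gB := (Ge.pi_inv hrk g.wf hA.typed hg).2
      have gA := (Ge.pi_inv hrk g.wf hA.typed hg).1
      have okB : TyOkF P (fcons (er A) G) B1 := ftype_correct g'.wf hB1
      have ih2 := (ihM g' ho' hB hn.2).2.1 B1 hB1 gB
      have mw : TMF P D0 (St.sb ρ' 0) (sub (es (St.sb ρ)) (er A)) :=
        tmf_ext_zero St g ho hA.typed he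
      have hwk : Ge P idx i (fcons (er A) G) (fcons (er A) G 0) := by
        rw [fcons_zero]; exact gA.ren (RenF.wk G _)
      have wW : Wn P idx (i + 1) D0 (St.sb ρ' 0) := by
        refine St.R_W g' ho' (T := fcons (er A) G 0) ?_ hwk (St.var_R g' ho' hwk)
        rw [fcons_zero]
        exact .inr ⟨_, tyf_wk hA.typed _⟩
      have e2 : minst (St.sb ρ' 0) (msub (mups (St.sb ρ)) M) = msub (St.sb ρ') M := by
        rw [← msub_mscons]
        congr 1
        funext x
        cases x with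
        | zero => rfl
        | succ x => exact (St.ext_sb g ho hA.typed he x).symm
      have hd : dist (msub (St.sb ρ) (.lam A M)) (St.sb ρ' 0) =
          some (.mem (.mem (msub (St.sb ρ') M) (St.sb ρ' 0)) (msub (St.sb ρ) A)) := by
        rw [MT.msub_lam, MT.dist_lam, e2]
      refine St.R_beta g' ho' okB gB ?_ hd ?_
      · rw [sub_ext St g ho hA.typed he]
        exact .app hvP mw
      · exact St.R_mem g' ho' okB gB hA' wA (St.R_mem g' ho' okB gB mw wW ih2)
  | app F N ihF ihN =>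
      intro G ρ A0 g ho hM hn
      obtain ⟨A, B, hF, hN, -⟩ := tmf_gen_app hM _ _ rfl
      have hs := St.msb g ho
      obtain ⟨hn1, hn2, hn3⟩ := hn
      obtain ⟨wF, rF, nF⟩ := ihF g ho hF hn1
      obtain ⟨wN, rN, -⟩ := ihN g ho hN hn2
      by_cases hc : ∃ T, TyF P G (er F) T ∧ Ge P idx i G T
      · obtain ⟨TF, hTF, gTF⟩ := hc
        obtain ⟨B', e1, -⟩ := (funiq hF.typed hTF).pi_left
        obtain ⟨A2, B2, r2, rA, -⟩ := red_of_eq_pi e1
        have hF2 : TyF P G (er F) (.pi A2 B2) := tyf_red_type g.wf hTF r2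
        obtain ⟨s, hp⟩ := fpi_typed g.wf hF2
        have gp : Ge P idx i G (.pi A2 B2) := gTF.conv (BetaEq.symm (Red.eq r2))
        obtain ⟨a, b, c, hA2, hB2, -, -⟩ := fgen_pi hp _ _ rfl
        obtain ⟨gA, gB⟩ := Ge.pi_inv hrk g.wf hA2 gp
        have hN2 : TMF P G N A2 := .conv hN (Red.eq rA) hA2
        have hFm : TMF P G F (.pi A2 B2) := retype g.wf hF hF2
        have vF := tmf_sub hFm hs
        have vN := tmf_sub hN2 hs
        have tyI : TyF P G (inst (er N) B2) (.sort b) := tyf_inst g.wf hB2 hN2.typed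
        have gI : Ge P idx i G (inst (er N) B2) := gB.inst g.wf hN2.typed
        have happ : TMF P G (.app F N) (inst (er N) B2) := .app hFm hN2
        have vapp := tmf_sub happ hs
        have key : Wn P idx (i + 1) D0 (msub (St.sb ρ) (.app F N)) ∧
            ((Ge P idx i G (inst (er N) B2) ∧
                St.R G ρ (inst (er N) B2) (msub (St.sb ρ) (.app F N))) ∨
              (Wn P idx (i + 1) D0 (msub (St.sb ρ) (.app F N)) ∧
                Ge P idx (i + 1) D0 (sub (es (St.sb ρ)) (inst (er N) B2)))) := by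
          by_cases hh : Ge P idx (i + 1) D0 (sub (es (St.sb ρ)) (.pi A2 B2))
          · have hW : Wn P idx (i + 1) D0 (msub (St.sb ρ) (.app F N)) :=
              Wn.app_ge w0 wF wN vF hh
            refine ⟨hW, Or.inr ⟨hW, ?_⟩⟩
            have h4 := (Ge.pi_inv hrk w0 (tyf_sub hA2 hs.subF) hh).2.inst w0 vN.typed
            rw [sub_inst]
            rwa [er_msub] at h4
          · have hRp := rF _ hF2 gp
            obtain ⟨ρ', he, h0, hi⟩ := St.R_inst g ho hp gp hh hN2 (rN _ hN2.typed gA)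
            have h5 := St.R_app g ho hp gp hh hRp he
            rw [h0] at h5
            have h6 : St.R G ρ (inst (er N) B2) (msub (St.sb ρ) (.app F N)) := hi _ vapp h5
            exact ⟨St.R_W g ho (tyOk_of tyI) gI h6, Or.inl ⟨gI, h6⟩⟩
        refine ⟨key.1, ?_, ?_⟩
        · intro T hT hgT
          have hMT : TMF P G (.app F N) T := retype g.wf hM hT
          exact lemU St hrk w0 (funiq hT happ.typed) (.refl _) (.refl _) g ho
            (ftype_correct g.wf hT) (tyOk_of tyI) hgT (tmf_sub hMT hs) vapp key.2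
        · intro _ hlow _
          exact absurd gI (hlow _ happ.typed)
      · have hl : ¬ IsL F := by
          intro hl
          obtain ⟨T, s, hT, hs', hk⟩ := hn3 hl
          exact hc ⟨T, hT, s, hs', hk⟩
        have hNe := nF ⟨_, _, hF.typed⟩ (fun T hT hg => hc ⟨T, hT, hg⟩) hl
        have hNe' : Ne P idx (i + 1) D0 (msub (St.sb ρ) (.app F N)) := .app hNe wN
        refine ⟨hNe'.wn, ?_, fun _ _ _ => hNe'⟩
        intro T hT hgT
        exact St.R_ne g ho (ftype_correct g.wf hT) hgT (tmf_sub (retype g.wf hM hT) hs) hNe'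
  | mem M N ihM ihN =>
      intro G ρ A0 g ho hM hn
      obtain ⟨hM1, B, hN1⟩ := tmf_gen_mem hM _ _ rfl
      have hs := St.msb g ho
      obtain ⟨w1, r1, n1⟩ := ihM g ho hM1 hn.1
      obtain ⟨w2, -, -⟩ := ihN g ho hN1 hn.2
      refine ⟨w1.mem w2, ?_, ?_⟩
      · intro T hT hgT
        exact St.R_mem g ho (ftype_correct g.wf hT) hgT (tmf_sub hN1 hs) w2 (r1 T hT hgT)
      · intro hp hlow hl
        exact .mem (n1 hp hlow hl) w2

/-- **a stage model in the world gives the stage** -/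
theorem wniW_of_stage (St : WStage.{u, w} P idx i D0) (hrk : Mono P idx) (g0 : Good P D0) :
    WNiW P idx i D0 := by
  intro M A hM hn
  obtain ⟨ρ, ho, hi⟩ := St.ident M ⟨A, hM⟩
  exact hi (fund St hrk g0.wf M g0 ho hM hn).1





/-- block (T) over worlds -/
def BlockTW (Fat : FatPred) : Prop := ∀ (n : ℕ) (P : Spec (Fin n)) (idx : Fin n → ℕ) (N : ℕ),
  Std P → IsIdx P idx N → ∀ i, 0 < i → ¬ Fat n P (Lvl idx i) →
    ∀ D0, World P D0 → WNiW P idx i D0



end Crest.Agent.R298.AAI833
end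

-- ▼ part R298/SM2_646
section

/-!
R298 (S0452), helper646: STAGE MODEL IN ONE WORLD (T6), part 2: the structure `WStage` of
`AAI3_833` from a type evaluator `Z` with (R4) `Z.Inst`; hence `WNiAt`.
-/

set_option autoImplicit false

namespace Crest.Agent.R298.SM646

open Crest.LogicCS.PTS Relation
open Crest.Agent.R298.Sub452 Crest.Agent.R298.Par452 Crest.Agent.R298.Ty452
open Crest.Agent.R298.Mem360 Crest.Agent.R298.TyF452 Crest.Agent.R298.TyMF452
open Crest.Agent.R298.Uniq452 Crest.Agent.R298.Main865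
open Crest.Agent.R298.StrF657
open Crest.Agent.R298.Cand704 (Cand NeF)
open Crest.Agent.R298.AAI833 (WStage Ge Mono)
open Crest.Agent.R298.Mem360.MT (er emb er_emb IsL isL_of_dist dist mren mwk mups msub mscons
  minst er_mren er_mups er_msub er_mscons er_minst)

universe u v

variable {S : Type u} {P : Spec S} {idx : S → ℕ} {i : ℕ} {D : ℕ → Term S}

theorem neF_of_ne {k : ℕ} {v : MT S} (h : AAI833.Ne P idx k D v) : NeF P idx k D v := by
  induction h with
  | var i => exact .var i
  | app _ hQ ih => exact .app ih hQ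
  | mem _ hQ ih => exact .mem ih hQ


/-- a type of class at least `i` is legal -/
theorem legal_of_cl {G : ℕ → Term S} (w : WfF P G) {T : Term S} (h : TyOkF P G T)
    (hc : Ge P idx i G T) : ∃ s, TyF P G T (.sort s) := by
  rcases h with ⟨s, rfl⟩ | h
  · obtain ⟨t, ⟨T', e, h⟩, _⟩ := hc
    have : Red T' (Term.sort s) := red_of_eq_normal (BetaEq.symm e) (normal_sort s)
    exact ⟨t, FSR w h this⟩
  · exact h

/-- validity of an untyped environment -/
def OkE (Z : TyEval.{u, v} P idx i D) (G : ℕ → Term S) (ρ : (ℕ → MT S) × (ℕ → Z.Inf)) : Prop :=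
  ∃ e : Env Z G, e.sig = ρ.1 ∧ e.inf = ρ.2

/-- **the stage model** of the type evaluator `Z` -/
noncomputable def wstage (hP : ∀ (Γ : List (Term S)) (M : Term S), Legal P Γ M → WN M)
    (hr : Mono P idx) (w : World657.World P D) (Z : TyEval.{u, v} P idx i D) (hI : Z.Inst) :
    WStage P idx i D where
  Env := (ℕ → MT S) × (ℕ → Z.Inf)
  sb ρ := ρ.1
  Ok G ρ := OkE Z G ρ
  Ext G A ρ ρ' := OkE Z (fcons A G) ρ' ∧ (∀ n, ρ'.1 (n + 1) = ρ.1 n) ∧ ∀ n, ρ'.2 (n + 1) = ρ.2 n
  R _ ρ T v := v ∈ Z.RR (nf T) (fun k => er (ρ.1 k)) ρ.2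
  msb := by
    rintro G ⟨_, _⟩ _ ⟨e, rfl, rfl⟩
    exact e.typ
  ext_ok := by
    rintro G A s ρ ρ' _ _ _ h
    exact h.1
  ext_sb := by
    rintro G A s ρ ρ' _ _ _ h
    exact h.2.1
  R_W := by
    rintro G ⟨_, _⟩ T v g ⟨e, rfl, rfl⟩ ok hc h
    obtain ⟨s, hT⟩ := legal_of_cl g.wf ok hc
    exact ((e.cand hP w.good.wf g hT).sub v h).2
  R_ne := by
    rintro G ⟨_, _⟩ T v g ⟨e, rfl, rfl⟩ ok hc ht h
    obtain ⟨s, hT⟩ := legal_of_cl g.wf ok hc
    exact (e.cand hP w.good.wf g hT).ne v (neF_of_ne h) ht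
  R_beta := by
    rintro G ⟨_, _⟩ T F Q v g ⟨e, rfl, rfl⟩ ok hc ht hd h
    obtain ⟨s, hT⟩ := legal_of_cl g.wf ok hc
    exact (e.cand hP w.good.wf g hT).exp [] F Q v hd h ht
  R_mem := by
    rintro G ⟨_, _⟩ T v n B g ⟨e, rfl, rfl⟩ ok hc ht hn h
    obtain ⟨s, hT⟩ := legal_of_cl g.wf ok hc
    exact (e.cand hP w.good.wf g hT).mem h hn ht
  R_conv := by
    rintro G ⟨_, _⟩ T T' v g ⟨e, rfl, rfl⟩ ok _ hc eq h
    obtain ⟨s, hT⟩ := legal_of_cl g.wf ok hc
    have := e.R_conv hP g hT eq
    show v ∈ e.R T'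
    rw [← this]
    exact h
  R_high := by
    rintro G ⟨_, _⟩ T v g ⟨e, rfl, rfl⟩ ok hc hh ht hn
    obtain ⟨s, hT⟩ := legal_of_cl g.wf ok hc
    have := e.R_high hP w.good.wf g hT hh
    show v ∈ e.R T
    rw [this]
    exact ⟨ht, hn⟩
  R_sort := by
    rintro G ⟨_, _⟩ s v g ⟨e, rfl, rfl⟩ hc ht hn
    obtain ⟨t, hT⟩ := legal_of_cl g.wf (.inl ⟨s, rfl⟩) hc
    show v ∈ e.R (.sort s)
    rw [e.R_sort w hT]
    exact ⟨ht, hn⟩
  R_pi := by
    rintro G ⟨_, _⟩ A B s v g ⟨e, rfl, rfl⟩ hT hc hh ht hn h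
    refine (e.mem_pi_ext hP hr w.good.wf g hT hc hh v).2 ⟨ht, hn, fun e' he => ?_⟩
    exact h (e'.sig, e'.inf) ⟨⟨e', rfl, rfl⟩, he.1, he.2⟩
  R_app := by
    rintro G ⟨_, _⟩ A B s v ⟨_, _⟩ g ⟨e, rfl, rfl⟩ hT hc hh h ⟨⟨e', rfl, rfl⟩, h1, h2⟩
    exact ((e.mem_pi_ext hP hr w.good.wf g hT hc hh v).1 h).2.2 e' ⟨h1, h2⟩
  R_inst := by
    rintro G ⟨_, _⟩ A B s N g ⟨e, rfl, rfl⟩ hT hc hh hN h
    obtain ⟨j, hj, hv⟩ := hI G e A B N s g hT hc hh hN h
    obtain ⟨a, b, c, hA, hB, ru, _⟩ := fgen_pi hT _ _ rfl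
    have hcA : Cl P idx i G A := Env.cl_dom hr g.wf hc
    have ht : TMF P D (msub e.sig N) (sub e.th A) := tmf_sub hN e.typ
    refine ⟨(mscons (msub e.sig N) e.sig, isc j e.inf),
      ⟨⟨Env.extend hP g e hA (msub e.sig N) j ht (fun _ => ⟨h, hj⟩) (fun h => absurd hcA h),
        rfl, rfl⟩, fun n => rfl, fun n => rfl⟩, rfl, fun v _ hv' => ?_⟩
    refine hv v ?_
    have e1 : (fun k => er (mscons (msub e.sig N) e.sig k)) = scons (sub e.th (er N)) e.th := by
      rw [er_mscons, er_msub]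
      rfl
    show v ∈ Z.RR (nf B) _ _
    rw [← e1]
    exact hv'
  fresh := by
    rintro G ⟨_, _⟩ A s g ⟨e, rfl, rfl⟩ hA M ⟨B, hM⟩
    obtain ⟨m, hm⟩ := AAI833.exists_mfv (msub (mups e.sig) M)
    obtain ⟨k, e', hk, hD, he, h0⟩ := e.fresh hP w g hA m
    refine ⟨(e'.sig, e'.inf), ⟨e', rfl, rfl⟩, fun h => ?_⟩
    have hA' : TyF P D (sub e.th A) (.sort s) := tyf_sub hA e.subF
    have hM' := tmf_sub hM (e.typ.ups hA')
    refine AAI833.Wn.bind hP w hD hA' hM' (hm (k + 1) (by omega)) ?_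
    have e2 : minst (.var k) (msub (mups e.sig) M) = msub e'.sig M := by
      rw [he.sig, h0, MT.msub_mscons]
    rw [e2]
    exact h
  var_R := by
    rintro G ⟨_, _⟩ x g ⟨e, rfl, rfl⟩ hc
    exact e.mem x hc
  var_Ne := by
    rintro G ⟨_, _⟩ x g ⟨e, rfl, rfl⟩ hc
    obtain ⟨⟨k, hk⟩, _⟩ := e.low x hc
    show AAI833.Ne P idx (i + 1) D (e.sig x)
    rw [hk]
    exact .var k
  ident := by
    rintro M _
    obtain ⟨e, he⟩ := Env.exists_ident hP Z w.good
    refine ⟨(e.sig, e.inf), ⟨e, rfl, rfl⟩, fun h => ?_⟩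
    rw [he] at h
    rw [MT.msub_id] at h
    exact h

/-- **stage `i` from a type evaluator** -/
theorem wniAt_of (hP : ∀ (Γ : List (Term S)) (M : Term S), Legal P Γ M → WN M)
    (hr : ∀ a b c, P.rule a b c → idx c ≤ idx a ∧ idx c ≤ idx b)
    (w : World657.World P D) (Z : TyEval.{u, v} P idx i D) (hI : Z.Inst) :
    WNiAt P idx i D := fun M A hM hn =>
  AAI833.wniW_of_stage (wstage hP hr w Z hI) hr w.good M A hM hn

/-- the semantic input of block (T): a type evaluator with (R4) for every level which is not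
fat, over every world -/
def EvalT (Fat : FatPred) : Prop := ∀ (n : ℕ) (P : Spec (Fin n)) (idx : Fin n → ℕ) (N : ℕ),
  Std P → IsIdx P idx N → ∀ D, World657.World P D → ∀ i, 0 < i → ¬ Fat n P (Lvl idx i) →
    ∃ Z : TyEval.{0, v} P idx i D, Z.Inst

/-- **block (T) from the type evaluators** -/
theorem blockTW_of {Fat : FatPred} (h : EvalT.{v} Fat) : BlockTW Fat := by
  intro n P idx N hS hi D w i h0 hF
  obtain ⟨Z, hZ⟩ := h n P idx N hS hi D w i h0 hF
  exact wniAt_of hS.wn (fun a b c r => ⟨hi.rule_left r, hi.rule_right r⟩) w Z hZ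

end Crest.Agent.R298.SM646
end

-- ▼ part R298/BlockT_254

/-!
R298 (S0452), helper254: **block (T)** at one world: `Main865.BlockTW Main865.FatP`.
-/

set_option autoImplicit false

namespace Crest.Agent.R298.Z254

open Crest.LogicCS.PTS
open Crest.Agent.R298.Par452 Crest.Agent.R298.TyF452 Crest.Agent.R298.Main865
open Crest.Agent.R298.Md254

/-- type evaluators with (R4) for every level which is not fat -/
theorem evalT : SM646.EvalT.{1} FatP := by
  intro n P idx N hS hi D w i _ hF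
  have hwn : ∀ M A, TyF P D M A → WN M := fun M A h => (w.good.wn hS.wn h).1
  have hTF : TF P (Lvl idx i) D :=
    tf_of_not_fat w.good.wf (fun T t h => hwn T (.sort t) h) hF
  exact ⟨tyz w.good.wf hwn, inst_tyz hS.wn w.good.wf hwn hTF
    (fun a b c r => ⟨hi.rule_left r, hi.rule_right r⟩)⟩

/-- **BLOCK (T)** -/
theorem blockT : BlockTW FatP := SM646.blockTW_of evalT

end Crest.Agent.R298.Z254
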