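import Crest.Agent.R298.Tw1_987
import Crest.Agent.R298.Scc_795
import Crest.Agent.R298.Hen2_795

-- ▼ part R298/LInst1_705
section

/-!
R298 (S0452), part P, helper705: the D-logic as a `Tw987.Logic`.

`wform R E n w X`: the type former of a coded walk `w` inside the component `Dd`
(`dom b : X ↦ X → R b`, `cod a : X ↦ E a → X`).  From the three truth laws of a maximal
(Henkin) context (`HenT`) we get the logic `logic : Logic P Δ` and the leaf converters `cv`.
-/

set_option autoImplicit false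

namespace Crest.Agent.R298.LInst705

open Crest.LogicCS.PTS Crest.LogicCS.PTS.Term Relation
open Crest.Agent.R298.Sub452 Crest.Agent.R298.Par452 Crest.Agent.R298.Ty452
open Crest.Agent.R298.TyF452 Crest.Agent.R298.Scc795 Crest.Agent.R298.Tw987

universe u
variable {S : Type u} {P : Spec S}

/-- steps of coded walks -/
inductive St (S : Type u) : Type u
  | dom (b : S)
  | cod (a : S)

/-- the type former of a coded walk -/
def wform (R E : S → Term S) (n : ℕ) : List (St S) → Term S → Term S
  | [], X => X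
  | .dom b :: w, X => wform R E n w (pi X (lft (n + 1) (R b)))
  | .cod a :: w, X => wform R E n w (pi (lft n (E a)) (wk X))

/-- coded signed walks inside `Dd` -/
inductive WL (P : Spec S) (Dd : Set S) : List (St S) → Bool → S → S → Prop
  | nil {x : S} : x ∈ Dd → WL P Dd [] true x x
  | dom {w : List (St S)} {s : Bool} {a b c d : S} : P.rule a b c → a ∈ Dd →
      WL P Dd w s c d → WL P Dd (.dom b :: w) (!s) a d
  | cod {w : List (St S)} {s : Bool} {a b c d : S} : P.rule a b c → b ∈ Dd →
      WL P Dd w s c d → WL P Dd (.cod a :: w) s b d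

/-- types `Π x₁ … xₙ. R b` at depth `k` -/
inductive Stab (R : S → Term S) (Bs : Set S) : ℕ → Term S → Prop
  | base (k : ℕ) (b : S) (hb : b ∈ Bs) : Stab R Bs k (lft k (R b))
  | pi (k : ℕ) (A B : Term S) : Stab R Bs (k + 1) B → Stab R Bs k (pi A B)

/-- codomain sorts of domain steps inside `Dd` -/
def Bs (P : Spec S) (Dd : Set S) : Set S := {b | ∃ a c, P.rule a b c ∧ a ∈ Dd ∧ c ∈ Dd}

theorem wform_sub (R E : S → Term S) {n m : ℕ} {σ : ℕ → Term S} (h : Base n m σ)
    (w : List (St S)) : ∀ X : Term S, sub σ (wform R E n w X) = wform R E m w (sub σ X) := by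
  induction w with
  | nil => intro X; rfl
  | cons st w ih =>
      intro X
      cases st with
      | dom b => simp only [wform, ih, sub_pi, h.ups.lft]
      | cod a => simp only [wform, ih, sub_pi, h.lft, sub_wk]

theorem wform_eq (R E : S → Term S) (n : ℕ) (w : List (St S)) : ∀ {X Y : Term S},
    BetaEq X Y → BetaEq (wform R E n w X) (wform R E n w Y) := by
  induction w with
  | nil => intro X Y h; exact h
  | cons st w ih =>
      intro X Y h
      cases st with
      | dom b => exact ih (BetaEq.pi h (.refl _))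
      | cod a => exact ih (BetaEq.pi (.refl _) (BetaEq.ren h _))

theorem rs1 {a b c : S} (h : P.rule a b c) : a ∈ RS P := ⟨a, b, c, h, .inl rfl⟩
theorem rs2 {a b c : S} (h : P.rule a b c) : b ∈ RS P := ⟨a, b, c, h, .inr (.inl rfl)⟩

/-- the truth laws of a maximal context over the atoms `R`, `E`, `e` -/
structure HenT (P : Spec S) (Dd : Set S) (R E e : S → Term S) (Δ : ℕ → Term S) : Prop where
  hR : ∀ b ∈ RS P, TyF P Δ (R b) (sort b)
  hE : ∀ a ∈ RS P, TyF P Δ (E a) (sort a)
  he : ∀ a ∈ RS P, TyF P Δ (e a) (E a)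
  tr_w : ∀ {w : List (St S)} {s : Bool} {x y : S} {X : Term S}, WL P Dd w s x y →
    TyF P Δ X (sort x) →
    ((∃ M, TyF P Δ M (wform R E 0 w X)) ↔ (s = true ↔ ∃ M, TyF P Δ M X))
  tr_imp : ∀ {a b c : S} {A B : Term S}, P.rule a b c → a ∈ Dd → b ∈ Dd → c ∈ Dd →
    TyF P Δ A (sort a) → TyF P Δ B (sort b) → Stab R (Bs P Dd) 0 B →
    ((∃ M, TyF P Δ M (pi A (wk B))) ↔ ((∃ M, TyF P Δ M A) → ∃ M, TyF P Δ M B))
  tr_all : ∀ {a b c : S} {A B : Term S}, P.rule a b c → b ∈ Dd → c ∈ Dd →
    TyF P Δ A (sort a) → TyF P (fcons A Δ) B (sort b) → Stab R (Bs P Dd) 1 B →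
    ((∃ M, TyF P Δ M (pi A B)) ↔ ∀ M, TyF P Δ M A → ∃ N, TyF P Δ N (inst M B))

section
variable {Dd : Set S} {R E e : S → Term S} {Δ : ℕ → Term S}

theorem wform_typed (hA : HenT P Dd R E e Δ) {n : ℕ} {D : ℕ → Term S} (hD : Ext Δ n D)
    {w : List (St S)} {s : Bool} {x y : S} (hw : WL P Dd w s x y) : ∀ {X : Term S},
    TyF P D X (sort x) → TyF P D (wform R E n w X) (sort y) := by
  induction hw with
  | nil _ => intro X h; exact h
  | dom r _ _ ih =>
      intro X h
      exact ih (.prod h ((hD.cons X).ty (hA.hR _ (rs2 r))) r)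
  | cod r _ _ ih =>
      intro X h
      exact ih (.prod (hD.ty (hA.hE _ (rs1 r))) (tyf_wk h _) r)

/-- the word contains a domain step -/
def HasDom (w : List (St S)) : Prop := ∃ b, St.dom b ∈ w

theorem hasDom_of_neg {w : List (St S)} {s : Bool} {x y : S} (hw : WL P Dd w s x y) :
    s = false → HasDom w := by
  induction hw with
  | nil _ => intro h; cases h
  | @dom w s a b c d r _ _ ih => intro _; exact ⟨b, List.mem_cons_self ..⟩
  | cod r _ _ ih =>
      intro h
      obtain ⟨b, hb⟩ := ih h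
      exact ⟨b, List.mem_cons_of_mem _ hb⟩

theorem HasDom.append_left {w w' : List (St S)} (h : HasDom w) : HasDom (w ++ w') := by
  obtain ⟨b, hb⟩ := h
  exact ⟨b, List.mem_append_left _ hb⟩

theorem Stab.ren {B : Set S} {k : ℕ} {X : Term S} (h : Stab R B k X) :
    ∀ {ρ : ℕ → ℕ} {m : ℕ}, (∀ i, ρ (i + k) = i + m) → Stab R B m (Sub452.ren ρ X) := by
  induction h with
  | base k b hb =>
      intro ρ m hρ
      have : Sub452.ren ρ (lft k (R b)) = lft m (R b) := by
        simp only [lft, ren_ren]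
        congr 1
        funext i
        exact hρ i
      rw [this]
      exact .base m b hb
  | pi k A B _ ih =>
      intro ρ m hρ
      refine .pi m _ _ (ih (m := m + 1) (ρ := up ρ) ?_)
      intro i
      show up ρ (i + k + 1) = _
      rw [up_succ, hρ i]; rfl

theorem WL.left {w : List (St S)} {s : Bool} {x y : S} (hw : WL P Dd w s x y) : x ∈ Dd := by
  cases hw with
  | nil h => exact h
  | dom _ h _ => exact h
  | cod _ h _ => exact h

theorem stab_of_walk {w : List (St S)} {s : Bool} {x y : S} (n : ℕ) (hw : WL P Dd w s x y) :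
    ∀ {X : Term S}, Stab R (Bs P Dd) n X → Stab R (Bs P Dd) n (wform R E n w X) := by
  induction hw with
  | nil _ => intro X h; exact h
  | dom r ha hw ih =>
      intro X _
      exact ih (.pi n _ _ (.base (n + 1) _ ⟨_, _, r, ha, hw.left⟩))
  | cod r _ _ ih =>
      intro X h
      exact ih (.pi n _ _ (h.ren (m := n + 1) (ρ := Nat.succ) (fun i => rfl)))

/-- a walk with a domain step produces stable types -/
theorem stab_wform {w : List (St S)} {s : Bool} {x y : S} (n : ℕ) (hw : WL P Dd w s x y) :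
    ∀ {X : Term S}, HasDom w → Stab R (Bs P Dd) n (wform R E n w X) := by
  induction hw with
  | nil _ => rintro X ⟨b, hb⟩; cases hb
  | dom r ha hw ih =>
      intro X _
      exact stab_of_walk n hw (.pi n _ _ (.base (n + 1) _ ⟨_, _, r, ha, hw.left⟩))
  | cod r _ _ ih =>
      rintro X ⟨b, hb⟩
      refine ih ?_
      cases hb with
      | tail _ hb => exact ⟨b, hb⟩

/-! ### walks -/

theorem exists_wl {s : Bool} {x y : S} (h : Walk P Dd s x y) : ∃ w, WL P Dd w s x y := by
  induction h with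
  | nil h => exact ⟨[], .nil h⟩
  | neg r h _ ih => obtain ⟨w, hw⟩ := ih; exact ⟨_, .dom r h hw⟩
  | pos r h _ ih => obtain ⟨w, hw⟩ := ih; exact ⟨_, .cod r h hw⟩

theorem WL.comp {w w' : List (St S)} {s t : Bool} {x y z : S}
    (h : WL P Dd w s x y) (h' : WL P Dd w' t y z) : WL P Dd (w ++ w') (s == t) x z := by
  induction h with
  | nil _ => simpa using h'
  | @dom w s' a b c d r ha _ ih =>
      have := WL.dom r ha (ih h')
      cases s' <;> cases t <;> exact this
  | cod r hb _ ih => exact WL.cod r hb (ih h')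

/-- a positive walk with a domain step -/
theorem exists_wl_pos (hD : IsScc P Dd) (hE : ¬ Even P Dd) {x y : S} (hx : x ∈ Dd)
    (hy : y ∈ Dd) : ∃ w, WL P Dd w true x y ∧ HasDom w := by
  obtain ⟨w, hw⟩ := exists_wl (hD.walk_both hE hx hy false)
  obtain ⟨w', hw'⟩ := exists_wl (hD.walk_both hE hy hy false)
  exact ⟨w ++ w', hw.comp hw', (hasDom_of_neg hw rfl).append_left⟩

end

end Crest.Agent.R298.LInst705
private theorem rz_cc7b427ec8 : type_of% @_root_.Crest.Agent.R298.LInst705.wform.eq_def := @_root_.Crest.Agent.R298.LInst705.wform.eq_def -- L29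
private theorem rz_667ff29c7b : type_of% @_root_.Crest.Agent.R298.LInst705.wform.eq_1 := @_root_.Crest.Agent.R298.LInst705.wform.eq_1 -- L29
end

-- ▼ part R298/LInst2_705
section

/-!
R298 (S0452), part P, helper705: the instance `logic : Tw987.Logic P Δ` of the truth laws `HenT`
for a bipolar strongly connected component, and the leaf converters.
-/

set_option autoImplicit false

namespace Crest.Agent.R298.LInst705

open Crest.LogicCS.PTS Crest.LogicCS.PTS.Term Relation
open Crest.Agent.R298.Sub452 Crest.Agent.R298.Par452 Crest.Agent.R298.Ty452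
open Crest.Agent.R298.TyF452 Crest.Agent.R298.Scc795 Crest.Agent.R298.Tw987

universe u
variable {S : Type u} {P : Spec S} {Dd : Set S} {R E e : S → Term S} {Δ : ℕ → Term S}

/-- sorts over whose types formulas quantify -/
def Bd (P : Spec S) (Dd : Set S) (d : S) : Prop := ∃ b c, P.rule d b c ∧ b ∈ Dd ∧ c ∈ Dd

/-- a positive coded walk with a domain step -/
noncomputable def pw (hD : IsScc P Dd) (hE : ¬ Even P Dd) {x y : S} (hx : x ∈ Dd) (hy : y ∈ Dd) :
    List (St S) := Classical.choose (exists_wl_pos hD hE hx hy)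

theorem pw_wl (hD : IsScc P Dd) (hE : ¬ Even P Dd) {x y : S} (hx : x ∈ Dd) (hy : y ∈ Dd) :
    WL P Dd (pw hD hE hx hy) true x y := (Classical.choose_spec (exists_wl_pos hD hE hx hy)).1

theorem pw_dom (hD : IsScc P Dd) (hE : ¬ Even P Dd) {x y : S} (hx : x ∈ Dd) (hy : y ∈ Dd) :
    HasDom (pw hD hE hx hy) := (Classical.choose_spec (exists_wl_pos hD hE hx hy)).2

/-- a negative coded walk -/
noncomputable def nw (hD : IsScc P Dd) (hE : ¬ Even P Dd) {x y : S} (hx : x ∈ Dd) (hy : y ∈ Dd) :
    List (St S) := Classical.choose (exists_wl (hD.walk_both hE hx hy false))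

theorem nw_wl (hD : IsScc P Dd) (hE : ¬ Even P Dd) {x y : S} (hx : x ∈ Dd) (hy : y ∈ Dd) :
    WL P Dd (nw hD hE hx hy) false x y :=
  Classical.choose_spec (exists_wl (hD.walk_both hE hx hy false))

theorem HenT.wform_conv {X Y : Term S} {s : S} (hX : TyF P Δ X (sort s)) (hY : TyF P Δ Y (sort s))
    (h : BetaEq X Y) : (∃ M, TyF P Δ M X) ↔ ∃ M, TyF P Δ M Y :=
  ⟨fun ⟨M, hM⟩ => ⟨M, .conv hM hY h⟩, fun ⟨M, hM⟩ => ⟨M, .conv hM hX (BetaEq.symm h)⟩⟩

/-- **the D-logic** -/
noncomputable def logic (H : HenT P Dd R E e Δ) (hD : IsScc P Dd) (hE : ¬ Even P Dd) {a₀ b₀ c₀ : S}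
    (r₀ : P.rule a₀ b₀ c₀) (ha : a₀ ∈ Dd) (hb : b₀ ∈ Dd) (hc : c₀ ∈ Dd) : Logic P Δ where
  o := c₀
  Tr X := ∃ M, TyF P Δ M X
  conv := HenT.wform_conv
  bot n := wform R E n (nw hD hE ha hc) (lft n (E a₀))
  bot_ty := fun {n D} h => wform_typed H h (nw_wl hD hE ha hc) (h.ty (H.hE _ (rs1 r₀)))
  bot_sub := fun {n m σ} h => by rw [wform_sub R E h, h.lft]
  bot_tr := by
    rw [lft_zero, H.tr_w (nw_wl hD hE ha hc) (H.hE _ (rs1 r₀))]
    intro h
    exact Bool.false_ne_true (h.2 ⟨_, H.he _ (rs1 r₀)⟩)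
  imp n X Y := wform R E n (pw hD hE hc hc)
    (pi (wform R E n (pw hD hE hc ha) X) (wk (wform R E n (pw hD hE hc hb) Y)))
  imp_ty := fun {n D X Y} h hX hY => wform_typed H h (pw_wl hD hE hc hc)
    (.prod (wform_typed H h (pw_wl hD hE hc ha) hX)
      (tyf_wk (wform_typed H h (pw_wl hD hE hc hb) hY) _) r₀)
  imp_sub := fun {n m σ} X Y h => by
    rw [wform_sub R E h, sub_pi, wform_sub R E h, sub_wk, wform_sub R E h]
  imp_tr := fun {X Y} hX hY => by
    have hX' := wform_typed H (Ext.zero Δ) (pw_wl hD hE hc ha) hX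
    have hY' := wform_typed H (Ext.zero Δ) (pw_wl hD hE hc hb) hY
    have h1 := H.tr_w (pw_wl hD hE hc hc) (TyF.prod hX' (tyf_wk hY' _) r₀)
    have h2 := H.tr_imp r₀ ha hb hc hX' hY' (stab_wform 0 (pw_wl hD hE hc hb) (pw_dom hD hE hc hb))
    have h3 := H.tr_w (pw_wl hD hE hc ha) hX
    have h4 := H.tr_w (pw_wl hD hE hc hb) hY
    simp only [true_iff] at h1 h3 h4
    rw [h1, h2, h3, h4]
  Bd := Bd P Dd
  all d n K Z := by
    classical
    exact if h : Bd P Dd d then
      wform R E n (pw hD hE (x := (Classical.choose_spec h).choose) (y := c₀)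
        (Classical.choose_spec h).choose_spec.2.2 hc)
        (pi K (wform R E (n + 1) (pw hD hE (x := c₀) (y := Classical.choose h) hc
          (Classical.choose_spec h).choose_spec.2.1) Z))
    else sort d
  all_ty := fun {d n D K Z} h hx hK hZ => by
    rw [dif_pos h]
    exact wform_typed H hx (pw_wl hD hE _ hc)
      (.prod hK (wform_typed H (hx.cons K) (pw_wl hD hE hc _) hZ)
        (Classical.choose_spec h).choose_spec.1)
  all_sub := fun {d n m σ} K Z h hs => by
    simp only [dif_pos h]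
    rw [wform_sub R E hs, sub_pi, wform_sub R E hs.ups]
  all_tr := fun {d K Z} h hK hZ => by
    have hr := (Classical.choose_spec h).choose_spec.1
    have hbd := (Classical.choose_spec h).choose_spec.2.1
    have hcd := (Classical.choose_spec h).choose_spec.2.2
    have hZ' := wform_typed H ((Ext.zero Δ).cons K) (pw_wl hD hE hc hbd) hZ
    have h1 := H.tr_w (pw_wl hD hE hcd hc) (TyF.prod hK hZ' hr)
    have h2 := H.tr_all hr hbd hcd hK hZ'
      (stab_wform 1 (pw_wl hD hE hc hbd) (pw_dom hD hE hc hbd))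
    simp only [true_iff] at h1
    simp only [dif_pos h]
    rw [h1, h2]
    refine forall_congr' fun M => forall_congr' fun hM => ?_
    have h3 := H.tr_w (X := inst M Z) (pw_wl hD hE hc hbd) (tyf_inst' (B := sort c₀) hZ hM)
    simp only [true_iff] at h3
    rw [← h3]
    show (∃ N, TyF P Δ N (sub (scons M var) _)) ↔ _
    rw [wform_sub R E (Base.inst 0 M)]

/-- **leaf converters** -/
noncomputable def cv (H : HenT P Dd R E e Δ) (hD : IsScc P Dd) (hE : ¬ Even P Dd) {a₀ b₀ c₀ : S}
    (r₀ : P.rule a₀ b₀ c₀) (ha : a₀ ∈ Dd) (hb : b₀ ∈ Dd) (hc : c₀ ∈ Dd) {s : S} (hs : s ∈ Dd) :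
    Cv (logic H hD hE r₀ ha hb hc) s where
  fwd n X := wform R E n (pw hD hE hc hs) X
  bwd n X := wform R E n (pw hD hE hs hc) X
  fwd_ty := fun h hX => wform_typed H h (pw_wl hD hE hc hs) hX
  bwd_ty := fun h hX => wform_typed H h (pw_wl hD hE hs hc) hX
  fwd_sub := fun X h => wform_sub R E h _ X
  bwd_sub := fun X h => wform_sub R E h _ X
  bwd_eq := fun n _ _ h => wform_eq R E n _ h
  law := fun {X} hX => by
    have hX' := wform_typed H (Ext.zero Δ) (pw_wl hD hE hc hs) hX
    have h1 := H.tr_w (pw_wl hD hE hs hc) hX'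
    have h2 := H.tr_w (pw_wl hD hE hc hs) hX
    simp only [true_iff] at h1 h2
    exact h1.trans h2

end Crest.Agent.R298.LInst705
end

-- ▼ part R298/Hen3_795

/-!
R298 (S0452), helper795: Henkin block, part 3.  Walk formers and truth laws.
-/

set_option autoImplicit false

namespace Crest.Agent.R298.Hen795

open Crest.LogicCS.PTS Crest.LogicCS.PTS.Term Relation
open Crest.Agent.R298.Sub452 Crest.Agent.R298.Par452 Crest.Agent.R298.Ty452
open Crest.Agent.R298.TyF452 Crest.Agent.R298.TyP795 Crest.Agent.R298.Scc795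

universe u
variable {S : Type u} {P : Spec S} {Dd : Set S}

/-! ### walk formers -/

/-- steps: `dom b` is `X ↦ X → R b`, `cod a` is `X ↦ E a → X` -/
inductive St (S : Type u) : Type u
  | dom (b : S) : St S
  | cod (a : S) : St S

/-- the type former of a walk at depth `k` -/
def wform (B : Base P Dd) (k : ℕ) : List (St S) → Term S → Term S
  | [], X => X
  | St.dom b :: w, X => wform B k w (pi X (lift (k + 1) (B.R b)))
  | St.cod a :: w, X => wform B k w (pi (lift k (B.E a)) (wk X))

@[simp] theorem wform_nil (B : Base P Dd) (k : ℕ) (X : Term S) : wform B k [] X = X := rfl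
@[simp] theorem wform_dom (B : Base P Dd) (k : ℕ) (b : S) (w : List (St S)) (X : Term S) :
    wform B k (St.dom b :: w) X = wform B k w (pi X (lift (k + 1) (B.R b))) := rfl
@[simp] theorem wform_cod (B : Base P Dd) (k : ℕ) (a : S) (w : List (St S)) (X : Term S) :
    wform B k (St.cod a :: w) X = wform B k w (pi (lift k (B.E a)) (wk X)) := rfl

/-- walks in `Dd` with their code -/
inductive WL (P : Spec S) (Dd : Set S) : List (St S) → Bool → S → S → Prop
  | nil {x : S} : x ∈ Dd → WL P Dd [] true x x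
  | dom {w : List (St S)} {s : Bool} {a b c d : S} : P.rule a b c → a ∈ Dd →
      WL P Dd w s c d → WL P Dd (St.dom b :: w) (!s) a d
  | cod {w : List (St S)} {s : Bool} {a b c d : S} : P.rule a b c → b ∈ Dd →
      WL P Dd w s c d → WL P Dd (St.cod a :: w) s b d

theorem WL.left {w : List (St S)} {s : Bool} {x y : S} (h : WL P Dd w s x y) : x ∈ Dd := by
  cases h with
  | nil h => exact h
  | dom _ h _ => exact h
  | cod _ h _ => exact h

theorem WL.right {w : List (St S)} {s : Bool} {x y : S} (h : WL P Dd w s x y) : y ∈ Dd := by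
  induction h with
  | nil h => exact h
  | dom _ _ _ ih => exact ih
  | cod _ _ _ ih => exact ih

theorem WL.comp {w w' : List (St S)} {s t : Bool} {x y z : S} (h₁ : WL P Dd w s x y)
    (h₂ : WL P Dd w' t y z) : WL P Dd (w ++ w') (s == t) x z := by
  induction h₁ with
  | nil _ => simpa using h₂
  | @dom w s' a b c d hr ha _ ih =>
      have := WL.dom hr ha (ih h₂)
      cases s' <;> cases t <;> exact this
  | cod hr hb _ ih => exact WL.cod hr hb (ih h₂)











theorem Stab.step_cod {B : Base P Dd} {k : ℕ} {X A : Term S} (h : Stab B k X) :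
    Stab B k (pi A (Sub452.wk X)) := by
  obtain ⟨n, hn⟩ := h.wk
  exact ⟨n + 1, .pi hn⟩

theorem Stab.wform {B : Base P Dd} {k : ℕ} {w : List (St S)} {s : Bool} {x y : S}
    (h : WL P Dd w s x y) : ∀ {X : Term S}, Stab B k X → Stab B k (Hen795.wform B k w X) := by
  induction h with
  | nil _ => exact fun h => h
  | @dom w s a b c d r ha hw ih =>
      intro X _
      exact ih ⟨1, .pi (.base ⟨a, c, r, ha, hw.left⟩)⟩
  | cod _ _ _ ih =>
      intro X hX
      exact ih hX.step_cod


/-! ### truth -/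

section Truth

variable {B : Base P Dd} {D : ℕ → Term S}

theorem Hen.over (h : Hen B D) : Over B 0 D := Over.of_le h.le



/-- a domain step negates -/
theorem tr_dom (h : Hen B D) {a b c : S} (r : P.rule a b c) (ha : a ∈ Dd) (hc : c ∈ Dd)
    {A : Term S} (hA : TyF P D A (sort a)) :
    Inh P D (pi A (lift 1 (B.R b))) ↔ ¬ Inh P D A := by
  have hb : b ∈ Bs P Dd := ⟨a, c, r, ha, hc⟩
  constructor
  · rintro ⟨M, hM⟩ ⟨N, hN⟩
    refine h.con ⟨b, hb, app M N, ?_⟩
    have := TyF.appl hM hN
    rwa [inst_lift] at this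
  · intro hn
    rcases h.max A a hA with h1 | h1
    · exact absurd h1 hn
    · obtain ⟨M, hM⟩ := h1.all (h.over.cons A) hb
      refine ⟨lam A M, .abs hM (.prod hA ?_ r)⟩
      exact (h.over.cons A).typed (B.hR b (bs_rs hb))

/-- a codomain step is neutral -/
theorem tr_cod (h : Hen B D) {a b c : S} (r : P.rule a b c)
    {X : Term S} (hX : TyF P D X (sort b)) :
    Inh P D (pi (lift 0 (B.E a)) (wk X)) ↔ Inh P D X := by
  have ha : a ∈ RS P := ⟨a, b, c, r, Or.inl rfl⟩
  constructor
  · rintro ⟨M, hM⟩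
    have := TyF.appl hM (h.over.typed (B.he a ha))
    rw [inst_wk] at this
    exact ⟨_, this⟩
  · rintro ⟨M, hM⟩
    refine ⟨lam (lift 0 (B.E a)) (wk M), .abs (tyF_wk hM _) (.prod ?_ (tyF_wk hX _) r)⟩
    exact h.over.typed (B.hE a ha)

/-- truth of a walk former -/
theorem tr_w (h : Hen B D) {w : List (St S)} {s : Bool} {x y : S} (hw : WL P Dd w s x y) :
    ∀ {X : Term S}, TyF P D X (sort x) →
      (Inh P D (wform B 0 w X) ↔ (s = true ↔ Inh P D X)) := by
  induction hw with
  | nil _ => intro X _; simp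
  | @dom w s a b c d r ha hw ih =>
      intro X hX
      have h1 : TyF P D (pi X (lift 1 (B.R b))) (sort c) :=
        .prod hX ((h.over.cons X).typed (B.hR b ⟨a, b, c, r, Or.inr (Or.inl rfl)⟩)) r
      rw [wform_dom, ih h1, tr_dom h r ha hw.left hX]
      cases s <;> simp
  | @cod w s a b c d r _ _ ih =>
      intro X hX
      have h1 : TyF P D (pi (lift 0 (B.E a)) (wk X)) (sort c) :=
        .prod (h.over.typed (B.hE a ⟨a, b, c, r, Or.inl rfl⟩)) (tyF_wk hX _) r
      rw [wform_cod, ih h1, tr_cod h r hX]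

/-- implication -/
theorem tr_imp (h : Hen B D) {a b c : S} (r : P.rule a b c)
    {A X : Term S} (hA : TyF P D A (sort a)) (hX : TyF P D X (sort b)) (hs : Stab B 0 X) :
    Inh P D (pi A (wk X)) ↔ (Inh P D A → Inh P D X) := by
  have ht : TyF P D (pi A (wk X)) (sort c) := .prod hA (tyF_wk hX _) r
  constructor
  · rintro ⟨M, hM⟩ ⟨N, hN⟩
    have := TyF.appl hM hN
    rw [inst_wk] at this
    exact ⟨_, this⟩
  · intro hi
    rcases h.max A a hA with h1 | h1
    · obtain ⟨M, hM⟩ := hi h1
      exact ⟨lam A (wk M), .abs (tyF_wk hM _) ht⟩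
    · obtain ⟨M, hM⟩ := hs.wk.inh (h.over.cons A) (tyF_wk hX A) h1
      exact ⟨lam A M, .abs hM ht⟩

/-- universal quantification over an arbitrary type -/
theorem tr_all (h : Hen B D) {a b c : S} (r : P.rule a b c)
    {A X : Term S} (hA : TyF P D A (sort a)) (hX : TyF P (fcons A D) X (sort b))
    (hs : Stab B 1 X) :
    Inh P D (pi A X) ↔ ∀ M, TyF P D M A → Inh P D (inst M X) := by
  have ht : TyF P D (pi A X) (sort c) := .prod hA hX r
  constructor
  · rintro ⟨M, hM⟩ N hN
    exact ⟨_, TyF.appl hM hN⟩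
  · intro hi
    by_contra hn
    obtain ⟨M, hM, hM'⟩ := h.wit A X c ht hs hn
    exact hM' (hi M hM)

end Truth


end Crest.Agent.R298.Hen795
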