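import Crest.Agent.R298.Ty_452
import Crest.Agent.R298.Mem_360
import Crest.Agent.R298.Scc_795
import Crest.Agent.R298.MainW_865

-- ▼ part R298/Jd_961
section

/-!
R298 (S0452), helper961: abstract typing judgement `Jd` (instances: frozen `Typed` over lists,
function contexts), types of a term agree up to the final sort (Jutting), classes.
-/

set_option autoImplicit false

namespace Crest.Agent.R298.Jd961

open Crest.LogicCS.PTS Crest.LogicCS.PTS.Term Relation
open Crest.Agent.R298.Sub452 Crest.Agent.R298.Par452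

universe u v

/-- an abstract typing judgement with contexts in `C` -/
structure Jd {S : Type u} (P : Spec S) (C : Type v) where
  /-- the judgement -/
  T : C → Term S → Term S → Prop
  /-- well-formed contexts -/
  Wf : C → Prop
  /-- declared variables with their types -/
  Dc : C → ℕ → Term S → Prop
  /-- extension -/
  cons : Term S → C → C
  dc_unique : ∀ {G x A B}, Dc G x A → Dc G x B → A = B
  dc_zero : ∀ {G A B}, Dc (cons A G) 0 B ↔ B = wk A
  dc_succ : ∀ {G A x B}, Dc (cons A G) (x + 1) B ↔ ∃ B', Dc G x B' ∧ B = wk B'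
  wf_cons : ∀ {G A s}, Wf G → T G A (sort s) → Wf (cons A G)
  tvar : ∀ {G x A}, Wf G → Dc G x A → T G (var x) A
  tax : ∀ {G s s'}, Wf G → P.ax s s' → T G (sort s) (sort s')
  tprod : ∀ {G A B s₁ s₂ s₃}, T G A (sort s₁) → T (cons A G) B (sort s₂) → P.rule s₁ s₂ s₃ →
    T G (pi A B) (sort s₃)
  tabs : ∀ {G A M B s}, T (cons A G) M B → T G (pi A B) (sort s) → T G (lam A M) (pi A B)
  tappl : ∀ {G M N A B}, T G M (pi A B) → T G N A → T G (app M N) (inst N B)
  tconv : ∀ {G M A B s}, T G M A → T G B (sort s) → BetaEq A B → T G M B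
  tsub : ∀ {G D σ M A}, T G M A → Wf D → (∀ x B, Dc G x B → T D (σ x) (sub σ B)) →
    T D (sub σ M) (sub σ A)
  gen_var : ∀ {G x A}, T G (var x) A → ∃ B, Dc G x B ∧ BetaEq A B
  gen_sort : ∀ {G s A}, T G (sort s) A → ∃ s', P.ax s s' ∧ BetaEq A (sort s')
  gen_pi : ∀ {G A B D}, T G (pi A B) D → ∃ s₁ s₂ s₃, T G A (sort s₁) ∧
    T (cons A G) B (sort s₂) ∧ P.rule s₁ s₂ s₃ ∧ BetaEq D (sort s₃)
  gen_lam : ∀ {G A M D}, T G (lam A M) D → ∃ B s, T (cons A G) M B ∧ T G (pi A B) (sort s) ∧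
    BetaEq D (pi A B)
  gen_app : ∀ {G M N D}, T G (app M N) D → ∃ A B, T G M (pi A B) ∧ T G N A ∧
    BetaEq D (inst N B)
  type_correct : ∀ {G M A}, T G M A → (∃ s, A = sort s) ∨ ∃ s, T G A (sort s)
  sr : ∀ {G M M' A}, T G M A → Red M M' → T G M' A

/-- the frozen judgement -/
def lst {S : Type u} (P : Spec S) : Jd P (List (Term S)) where
  T := Typed P
  Wf := Ty452.Wf P
  Dc := Ty452.Lk
  cons := fun A G => A :: G
  dc_unique := fun h h' => Ty452.Lk.unique h h'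
  dc_zero := by
    intro G A B
    constructor
    · intro h; cases h; rfl
    · rintro rfl; exact .zero _ _
  dc_succ := by
    intro G A x B
    constructor
    · intro h; cases h with | succ _ h => exact ⟨_, h, rfl⟩
    · rintro ⟨B', h, rfl⟩; exact .succ _ h
  wf_cons := fun w h => .cons w h
  tvar := fun w h => Ty452.var_wf h w
  tax := fun w h => Ty452.ax_wf w h
  tprod := fun h h' r => .prod h h' r
  tabs := fun h h' => .abs h h'
  tappl := fun h h' => Ty452.t_appl h h'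
  tconv := fun h h' e => .conv h h' e
  tsub := fun h w hs => Ty452.typed_sub h w hs
  gen_var := fun h => Ty452.gen_var h
  gen_sort := fun h => Ty452.gen_sort h
  gen_pi := fun h => Ty452.gen_pi h
  gen_lam := fun h => Ty452.gen_lam h
  gen_app := fun h => Ty452.gen_app h
  type_correct := fun h => Ty452.type_correct h
  sr := fun h r => Ty452.SR h r

variable {S : Type u} {P : Spec S} {C : Type v} (J : Jd P C)

namespace Jd

variable {J}

theorem pi_typed {G : C} {M A B : Term S} (h : J.T G M (pi A B)) :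
    ∃ s, J.T G (pi A B) (sort s) := by
  rcases J.type_correct h with ⟨s, e⟩ | h
  · cases e
  · exact h

theorem red_type {G : C} {M A A' : Term S} (h : J.T G M A) (r : Red A A') : J.T G M A' := by
  rcases J.type_correct h with ⟨s, rfl⟩ | ⟨s, hA⟩
  · rw [red_sort r]; exact h
  · exact J.tconv h (J.sr hA r) r.eq

theorem sort_of_eq {G : C} {M A : Term S} {s : S} (h : J.T G M A) (e : BetaEq A (sort s)) :
    J.T G M (sort s) := red_type h (red_of_eq_sort e)

/-- `σ` is a typed substitution from `G` to `D` -/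
def Sb (J : Jd P C) (σ : ℕ → Term S) (G D : C) : Prop :=
  ∀ x B, J.Dc G x B → J.T D (σ x) (sub σ B)

theorem sb_var {G : C} (w : J.Wf G) : Sb J var G G :=
  fun x B h => by rw [sub_id]; exact J.tvar w h

theorem tren {G D : C} {r : ℕ → ℕ} {M A : Term S} (h : J.T G M A) (w : J.Wf D)
    (hr : Sb J (fun x => var (r x)) G D) : J.T D (ren r M) (ren r A) := by
  rw [ren_eq_sub, ren_eq_sub]; exact J.tsub h w hr

theorem sb_wk {G : C} {A : Term S} {s : S} (w : J.Wf G) (h : J.T G A (sort s)) :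
    Sb J (fun x => var (x + 1)) G (J.cons A G) := by
  intro x B hB
  have : J.T (J.cons A G) (var (x + 1)) (wk B) :=
    J.tvar (J.wf_cons w h) (J.dc_succ.2 ⟨B, hB, rfl⟩)
  rwa [show wk B = sub (fun x => var (x + 1)) B from ren_eq_sub Nat.succ B] at this

theorem twk {G : C} {M A B : Term S} {s : S} (h : J.T G M B) (w : J.Wf G)
    (hA : J.T G A (sort s)) : J.T (J.cons A G) (wk M) (wk B) := by
  have := J.tsub h (J.wf_cons w hA) (sb_wk w hA)
  rwa [← ren_eq_sub (fun x => x + 1), ← ren_eq_sub (fun x => x + 1)] at this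

theorem sb_ups {σ : ℕ → Term S} {G D : C} (h : Sb J σ G D) (w : J.Wf D) {A : Term S} {s : S}
    (hA : J.T D (sub σ A) (sort s)) : Sb J (ups σ) (J.cons A G) (J.cons (sub σ A) D) := by
  intro x B hB
  cases x with
  | zero =>
      rw [J.dc_zero] at hB
      subst hB
      rw [sub_wk]
      exact J.tvar (J.wf_cons w hA) (J.dc_zero.2 rfl)
  | succ x =>
      obtain ⟨B', hB', rfl⟩ := J.dc_succ.1 hB
      rw [sub_wk]
      exact twk (h _ _ hB') w hA

theorem sb_scons {σ : ℕ → Term S} {G D : C} (h : Sb J σ G D) {N A : Term S}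
    (hN : J.T D N (sub σ A)) : Sb J (scons N σ) (J.cons A G) D := by
  intro x B hB
  cases x with
  | zero =>
      rw [J.dc_zero] at hB
      subst hB
      simpa only [wk, sub_ren, Nat.succ_eq_add_one, scons_succ, scons_zero] using hN
  | succ x =>
      obtain ⟨B', hB', rfl⟩ := J.dc_succ.1 hB
      have := h _ _ hB'
      simpa only [wk, sub_ren, Nat.succ_eq_add_one, scons_succ] using this

theorem sb_comp {σ τ : ℕ → Term S} {G D E : C} (h : Sb J σ G D) (h' : Sb J τ D E)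
    (w : J.Wf E) : Sb J (fun x => sub τ (σ x)) G E := by
  intro x B hB
  have := J.tsub (h _ _ hB) w h'
  rwa [sub_sub] at this

theorem tinst {G : C} {A M B N : Term S} (w : J.Wf G) (h : J.T (J.cons A G) M B)
    (hN : J.T G N A) : J.T G (inst N M) (inst N B) := by
  refine J.tsub h w ?_
  exact sb_scons (sb_var w) (by rwa [sub_id])

/-- conversion of the last declaration -/
theorem sb_conv {G : C} {A A' : Term S} {s s' : S} (w : J.Wf G) (hA : J.T G A (sort s))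
    (hA' : J.T G A' (sort s')) (e : BetaEq A A') :
    Sb J var (J.cons A G) (J.cons A' G) := by
  intro x B hB
  rw [sub_id]
  cases x with
  | zero =>
      rw [J.dc_zero] at hB
      subst hB
      refine J.tconv (J.tvar (J.wf_cons w hA') (J.dc_zero.2 rfl)) (twk hA w hA') ?_
      exact BetaEq.symm (BetaEq.ren e _)
  | succ x =>
      obtain ⟨B', hB', rfl⟩ := J.dc_succ.1 hB
      exact twk (J.tvar w hB') w hA'

theorem ctx_conv {G : C} {A A' M B : Term S} {s s' : S} (w : J.Wf G)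
    (h : J.T (J.cons A G) M B) (hA : J.T G A (sort s))
    (hA' : J.T G A' (sort s')) (e : BetaEq A A') : J.T (J.cons A' G) M B := by
  have := J.tsub h (J.wf_cons w hA') (sb_conv w hA hA' e)
  rwa [sub_id, sub_id] at this

end Jd

/-! ### types of a term agree up to the final sort -/

/-- equality of types up to the final sort -/
inductive TE : Term S → Term S → Prop
  | eq {A B : Term S} : BetaEq A B → TE A B
  | srt {A B : Term S} {s t : S} : BetaEq A (sort s) → BetaEq B (sort t) → TE A B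
  | prd {A B C D D' : Term S} : BetaEq A (pi C D) → BetaEq B (pi C D') → TE D D' → TE A B

theorem TE.symm {A B : Term S} (h : TE A B) : TE B A := by
  induction h with
  | eq h => exact .eq (BetaEq.symm h)
  | srt h h' => exact .srt h' h
  | prd h h' _ ih => exact .prd h' h ih

theorem TE.left {A A' B : Term S} (h : TE A B) (e : BetaEq A' A) : TE A' B := by
  cases h with
  | eq h => exact .eq (BetaEq.trans e h)
  | srt h h' => exact .srt (BetaEq.trans e h) h'
  | prd h h' k => exact .prd (BetaEq.trans e h) h' k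

theorem TE.right {A B B' : Term S} (h : TE A B) (e : BetaEq B B') : TE A B' :=
  (h.symm.left (BetaEq.symm e)).symm

theorem TE.sub {A B : Term S} (h : TE A B) (σ : ℕ → Term S) : TE (sub σ A) (sub σ B) := by
  induction h generalizing σ with
  | eq h => exact .eq (BetaEq.sub h σ)
  | srt h h' => exact .srt (BetaEq.sub h σ) (BetaEq.sub h' σ)
  | prd h h' _ ih => exact .prd (BetaEq.sub h σ) (BetaEq.sub h' σ) (ih (ups σ))

theorem TE.inv_pi {A B C D : Term S} (h : TE (pi A B) (pi C D)) :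
    BetaEq A C ∧ TE B D := by
  generalize hX : pi A B = X at h
  generalize hY : pi C D = Y at h
  cases h with
  | eq h =>
      subst hX; subst hY
      obtain ⟨h1, h2⟩ := pi_inj h
      exact ⟨h1, .eq h2⟩
  | srt h h' =>
      subst hX
      exact (not_sort_pi (BetaEq.symm h)).elim
  | prd h h' k =>
      subst hX; subst hY
      obtain ⟨h1, h2⟩ := pi_inj h
      obtain ⟨h3, h4⟩ := pi_inj h'
      exact ⟨BetaEq.trans h1 (BetaEq.symm h3), (k.left h2).right (BetaEq.symm h4)⟩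

/-- a type agreeing with a product is a product -/
theorem TE.left_pi {A B T : Term S} (h : TE (pi A B) T) :
    ∃ B', BetaEq T (pi A B') ∧ TE B B' := by
  generalize hX : pi A B = X at h
  cases h with
  | eq h => subst hX; exact ⟨B, BetaEq.symm h, .eq (.refl _)⟩
  | srt h h' =>
      subst hX
      exact (not_sort_pi (BetaEq.symm h)).elim
  | prd h h' k =>
      subst hX
      obtain ⟨h1, h2⟩ := pi_inj h
      exact ⟨_, BetaEq.trans h' (BetaEq.pi (BetaEq.symm h1) (.refl _)), k.left h2⟩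

/-- **types of a term agree up to the final sort** -/
theorem jutting {G : C} {M A B : Term S} (h : J.T G M A) (h' : J.T G M B) : TE A B := by
  induction M generalizing G A B with
  | var x =>
      obtain ⟨A', hA', eA⟩ := J.gen_var h
      obtain ⟨B', hB', eB⟩ := J.gen_var h'
      obtain rfl := J.dc_unique hA' hB'
      exact .eq (BetaEq.trans eA (BetaEq.symm eB))
  | sort s =>
      obtain ⟨s', -, eA⟩ := J.gen_sort h
      obtain ⟨t', -, eB⟩ := J.gen_sort h'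
      exact .srt eA eB
  | app M N ihM _ =>
      obtain ⟨A1, A2, h1, _, eA⟩ := J.gen_app h
      obtain ⟨B1, B2, h2, _, eB⟩ := J.gen_app h'
      obtain ⟨-, k⟩ := (ihM h1 h2).inv_pi
      exact ((k.sub _).left eA).right (BetaEq.symm eB)
  | lam A0 M _ ihM =>
      obtain ⟨A2, s, h1, _, eA⟩ := J.gen_lam h
      obtain ⟨B2, s', h2, _, eB⟩ := J.gen_lam h'
      exact .prd eA eB (ihM h1 h2)
  | pi A0 B0 _ _ =>
      obtain ⟨_, _, s, _, _, _, eA⟩ := J.gen_pi h
      obtain ⟨_, _, s', _, _, _, eB⟩ := J.gen_pi h'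
      exact .srt eA eB

end Crest.Agent.R298.Jd961
end

-- ▼ part R298/MW_961
section

/-!
R298 (S0452), helper961: legality `MOk` of memory terms over an abstract judgement, classes `Cg`,
the normal form predicates `NF k` (all redexes have class at least `k`), the weak normalisation
sets `W k` and the neutral terms `Ne k`.
-/

set_option autoImplicit false

namespace Crest.Agent.R298.MW961

open Crest.LogicCS.PTS Crest.LogicCS.PTS.Term Relation
open Crest.Agent.R298.Sub452 Crest.Agent.R298.Par452 Crest.Agent.R298.Mem360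
open Crest.Agent.R298.Mem360.MT Crest.Agent.R298.Jd961 Crest.Agent.R298.Jd961.Jd

universe u v

variable {S : Type u} {P : Spec S} {C : Type v} (J : Jd P C) (idx : S → ℕ)

/-- the type `T` has class at least `k` in the context `G` -/
def Cg (k : ℕ) (G : C) (T : Term S) : Prop :=
  ∃ T' s, BetaEq T T' ∧ J.T G T' (.sort s) ∧ k ≤ idx s

/-- `T` is a sort or typed by a sort -/
def TyOk (G : C) (T : Term S) : Prop := (∃ s, T = .sort s) ∨ ∃ s, J.T G T (.sort s)

/-- legal memory terms -/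
def MOk : MT S → C → Prop
  | .var x, G => ∃ A, J.T G (.var x) A
  | .sort s, G => ∃ A, J.T G (.sort s) A
  | .app F Q, G => (∃ A, J.T G (.app (er F) (er Q)) A) ∧ MOk F G ∧ MOk Q G
  | .lam A M, G => (∃ D, J.T G (.lam (er A) (er M)) D) ∧ MOk A G ∧ MOk M (J.cons (er A) G)
  | .pi A M, G => (∃ D, J.T G (.pi (er A) (er M)) D) ∧ MOk A G ∧ MOk M (J.cons (er A) G)
  | .mem M N, G => MOk M G ∧ MOk N G

/-- every redex has class at least `k` -/
def NF (k : ℕ) : MT S → C → Prop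
  | .var _, _ => True
  | .sort _, _ => True
  | .app F Q, G => (IsL F → ∃ T, J.T G (er F) T ∧ Cg J idx k G T) ∧ NF k F G ∧ NF k Q G
  | .lam A M, G => NF k A G ∧ NF k M (J.cons (er A) G)
  | .pi A M, G => NF k A G ∧ NF k M (J.cons (er A) G)
  | .mem M N, G => NF k M G ∧ NF k N G

/-- weakly normalising up to redexes of class at least `k` -/
def W (k : ℕ) (G : C) (v : MT S) : Prop := ∃ v', MRed v v' ∧ NF J idx k v' G

/-- neutral terms -/
inductive Ne (k : ℕ) (G : C) : MT S → Prop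
  | var (x : ℕ) : Ne k G (.var x)
  | app {F Q : MT S} : Ne k G F → W J idx k G Q → Ne k G (.app F Q)
  | mem {F N : MT S} : Ne k G F → W J idx k G N → Ne k G (.mem F N)

variable {J idx}

/-! ### classes -/

theorem Cg.conv {k : ℕ} {G : C} {T T' : Term S} (h : Cg J idx k G T) (e : BetaEq T T') :
    Cg J idx k G T' := by
  obtain ⟨T0, s, e0, h0, hs⟩ := h
  exact ⟨T0, s, BetaEq.trans (BetaEq.symm e) e0, h0, hs⟩

theorem Cg.mono {k l : ℕ} {G : C} {T : Term S} (h : Cg J idx k G T) (hl : l ≤ k) :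
    Cg J idx l G T := by
  obtain ⟨T0, s, e0, h0, hs⟩ := h
  exact ⟨T0, s, e0, h0, hl.trans hs⟩

theorem Cg.sub {k : ℕ} {G D : C} {T : Term S} (h : Cg J idx k G T) {σ : ℕ → Term S}
    (w : J.Wf D) (hs : Sb J σ G D) : Cg J idx k D (sub σ T) := by
  obtain ⟨T0, s, e0, h0, hk⟩ := h
  exact ⟨Sub452.sub σ T0, s, BetaEq.sub e0 σ, J.tsub h0 w hs, hk⟩

theorem Cg.ren {k : ℕ} {G D : C} {T : Term S} (h : Cg J idx k G T) {r : ℕ → ℕ}
    (w : J.Wf D) (hs : Sb J (fun x => .var (r x)) G D) : Cg J idx k D (ren r T) := by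
  rw [ren_eq_sub]; exact h.sub w hs

/-- class of a product: class of the components -/
theorem Cg.of_pi {k : ℕ} {G : C} {T A B : Term S} (hrule : ∀ a b c, P.rule a b c →
    idx c ≤ idx a ∧ idx c ≤ idx b) (w : J.Wf G) (h : Cg J idx k G T) (e : BetaEq T (.pi A B))
    {s : S} (hA : J.T G A (.sort s)) : Cg J idx k G A ∧ Cg J idx k (J.cons A G) B := by
  obtain ⟨T0, t, e0, h0, hk⟩ := h
  obtain ⟨A1, B1, r1, eA, eB⟩ := red_of_eq_pi (BetaEq.trans (BetaEq.symm e0) e)
  have h1 := J.sr h0 r1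
  obtain ⟨s₁, s₂, s₃, hA1, hB1, hr, e3⟩ := J.gen_pi h1
  have := sort_inj e3
  subst this
  obtain ⟨k1, k2⟩ := hrule _ _ _ hr
  exact ⟨⟨A1, s₁, Red.eq eA, hA1, hk.trans k1⟩,
    ⟨B1, s₂, Red.eq eB, ctx_conv w hB1 hA1 hA (BetaEq.symm (Red.eq eA)), hk.trans k2⟩⟩

/-! ### legality -/

theorem dom_pi {G : C} {A B D : Term S} (h : J.T G (.pi A B) D) : ∃ s, J.T G A (.sort s) := by
  obtain ⟨s₁, _, _, hA, _⟩ := J.gen_pi h
  exact ⟨s₁, hA⟩

theorem dom_lam {G : C} {A B D : Term S} (h : J.T G (.lam A B) D) : ∃ s, J.T G A (.sort s) := by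
  obtain ⟨_, _, _, h', _⟩ := J.gen_lam h
  exact dom_pi h'

theorem sb_up {G D : C} {r : ℕ → ℕ} (h : Sb J (fun x => .var (r x)) G D) (w : J.Wf D)
    {A : Term S} {s : S} (hA : J.T D (ren r A) (.sort s)) :
    Sb J (fun x => .var (up r x)) (J.cons A G) (J.cons (ren r A) D) := by
  rw [ren_eq_sub] at hA ⊢
  have := sb_ups h w hA
  rwa [ups_ren] at this

theorem MOk.typed {M : MT S} {G : C} (h : MOk J M G) : ∃ A, J.T G (er M) A := by
  induction M with
  | var x => exact h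
  | sort s => exact h
  | app F Q _ _ => exact h.1
  | lam A M _ _ => exact h.1
  | pi A M _ _ => exact h.1
  | mem M N ih _ => exact ih h.1

theorem MOk.mren {M : MT S} {G D : C} {r : ℕ → ℕ} (h : MOk J M G) (w : J.Wf D)
    (hr : Sb J (fun x => .var (r x)) G D) : MOk J (mren r M) D := by
  induction M generalizing G D r with
  | var x =>
      obtain ⟨A, hA⟩ := h
      exact ⟨_, tren hA w hr⟩
  | sort s =>
      obtain ⟨A, hA⟩ := h
      exact ⟨_, tren hA w hr⟩
  | app F Q h1 h2 =>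
      obtain ⟨⟨A, hA⟩, hF, hQ⟩ := h
      refine ⟨⟨ren r A, ?_⟩, h1 hF w hr, h2 hQ w hr⟩
      rw [er_mren, er_mren]; exact tren hA w hr
  | lam A M h1 h2 =>
      obtain ⟨⟨D', hD⟩, hA, hM⟩ := h
      obtain ⟨s, hs⟩ := dom_lam hD
      have hs' := tren hs w hr
      refine ⟨⟨ren r D', ?_⟩, h1 hA w hr, ?_⟩
      · rw [er_mren, er_mren]; exact tren hD w hr
      · rw [er_mren]
        exact h2 hM (J.wf_cons w hs') (sb_up hr w hs')
  | pi A M h1 h2 =>
      obtain ⟨⟨D', hD⟩, hA, hM⟩ := h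
      obtain ⟨s, hs⟩ := dom_pi hD
      have hs' := tren hs w hr
      refine ⟨⟨ren r D', ?_⟩, h1 hA w hr, ?_⟩
      · rw [er_mren, er_mren]; exact tren hD w hr
      · rw [er_mren]
        exact h2 hM (J.wf_cons w hs') (sb_up hr w hs')
  | mem M N h1 h2 => exact ⟨h1 h.1 w hr, h2 h.2 w hr⟩

theorem MOk.conv {M : MT S} {G D : C} (h : MOk J M G) (w : J.Wf D) (hr : Sb J .var G D) :
    MOk J M D := by
  have := h.mren (r := fun x => x) w hr
  rwa [mren_id] at this

theorem MOk.wk {M : MT S} {G : C} (h : MOk J M G) (w : J.Wf G) {A : Term S} {s : S}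
    (hA : J.T G A (.sort s)) : MOk J (mwk M) (J.cons A G) :=
  h.mren (J.wf_cons w hA) (sb_wk w hA)

/-- typed substitutions of legal memory terms -/
def MSb (J : Jd P C) (σ : ℕ → MT S) (G D : C) : Prop :=
  Sb J (fun x => er (σ x)) G D ∧ ∀ x B, J.Dc G x B → MOk J (σ x) D

theorem MSb.ups {σ : ℕ → MT S} {G D : C} (h : MSb J σ G D) (w : J.Wf D) {A : MT S} {s : S}
    (hA : J.T D (er (msub σ A)) (.sort s)) :
    MSb J (mups σ) (J.cons (er A) G) (J.cons (er (msub σ A)) D) := by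
  refine ⟨?_, ?_⟩
  · rw [er_mups, er_msub]
    rw [er_msub] at hA
    exact sb_ups h.1 w hA
  · intro x B hB
    cases x with
    | zero => exact ⟨_, J.tvar (J.wf_cons w hA) (J.dc_zero.2 rfl)⟩
    | succ x =>
        obtain ⟨B', hB', -⟩ := J.dc_succ.1 hB
        exact (h.2 _ _ hB').wk w hA

theorem MOk.msub {M : MT S} {G D : C} {σ : ℕ → MT S} (h : MOk J M G) (w : J.Wf D)
    (hs : MSb J σ G D) : MOk J (msub σ M) D := by
  induction M generalizing G D σ with
  | var x =>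
      obtain ⟨A, hA⟩ := h
      obtain ⟨B, hB, -⟩ := J.gen_var hA
      exact hs.2 _ _ hB
  | sort s =>
      obtain ⟨A, hA⟩ := h
      exact ⟨_, J.tsub hA w hs.1⟩
  | app F Q h1 h2 =>
      obtain ⟨⟨A, hA⟩, hF, hQ⟩ := h
      refine ⟨⟨sub (fun x => er (σ x)) A, ?_⟩, h1 hF w hs, h2 hQ w hs⟩
      rw [er_msub, er_msub]; exact J.tsub hA w hs.1
  | lam A M h1 h2 =>
      obtain ⟨⟨D', hD⟩, hA, hM⟩ := h
      obtain ⟨s, hs0⟩ := dom_lam hD
      have hs' := J.tsub hs0 w hs.1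
      rw [sub_sort, ← er_msub] at hs'
      refine ⟨⟨sub (fun x => er (σ x)) D', ?_⟩, h1 hA w hs, ?_⟩
      · have := J.tsub hD w hs.1
        rw [sub_lam, ← er_msub, ← er_mups, ← er_msub] at this
        exact this
      · exact h2 hM (J.wf_cons w hs') (hs.ups w hs')
  | pi A M h1 h2 =>
      obtain ⟨⟨D', hD⟩, hA, hM⟩ := h
      obtain ⟨s, hs0⟩ := dom_pi hD
      have hs' := J.tsub hs0 w hs.1
      rw [sub_sort, ← er_msub] at hs'
      refine ⟨⟨sub (fun x => er (σ x)) D', ?_⟩, h1 hA w hs, ?_⟩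
      · have := J.tsub hD w hs.1
        rw [sub_pi, ← er_msub, ← er_mups, ← er_msub] at this
        exact this
      · exact h2 hM (J.wf_cons w hs') (hs.ups w hs')
  | mem M N h1 h2 => exact ⟨h1 h.1 w hs, h2 h.2 w hs⟩

/-- legality of a contractum -/
theorem MOk.dist {F Q R : MT S} {G : C} (hd : dist F Q = some R) (hF : MOk J F G)
    (hQ : MOk J Q G) (w : J.Wf G) {A B : Term S} (h1 : J.T G (er F) (.pi A B))
    (h2 : J.T G (er Q) A) : MOk J R G := by
  induction F generalizing R with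
  | lam A' P' _ _ =>
      rw [dist_lam, Option.some.injEq] at hd
      subst hd
      obtain ⟨-, hA', hP'⟩ := hF
      refine ⟨⟨?_, hQ⟩, hA'⟩
      obtain ⟨B', s, hb, hp, e⟩ := J.gen_lam h1
      obtain ⟨e1, -⟩ := pi_inj e
      obtain ⟨s', hs'⟩ := dom_pi hp
      have h3 : J.T G (er Q) (er A') := J.tconv h2 hs' e1
      refine hP'.msub w ⟨?_, ?_⟩
      · rw [er_mscons]
        exact sb_scons (sb_var w) (by rwa [sub_id])
      · intro x B hB
        cases x with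
        | zero => exact hQ
        | succ x =>
            obtain ⟨B', hB', -⟩ := J.dc_succ.1 hB
            exact ⟨_, J.tvar w hB'⟩
  | mem F N ih _ =>
      rw [dist_mem, Option.map_eq_some_iff] at hd
      obtain ⟨R', hR', rfl⟩ := hd
      exact ⟨ih hR' hF.1 h1, hF.2⟩
  | var i => simp at hd
  | sort s => simp at hd
  | app M N _ _ => simp at hd
  | pi M N _ _ => simp at hd

theorem er_step_red {M M' : MT S} (h : MStep M M') : Red (er M) (er M') := by
  rcases er_step h with h | h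
  · rw [h]
  · exact .single h

theorem MOk.step {M M' : MT S} {G : C} (h : MOk J M G) (w : J.Wf G) (r : MStep M M') :
    MOk J M' G := by
  induction r generalizing G with
  | @beta F Q R hd =>
      obtain ⟨⟨A, hA⟩, hF, hQ⟩ := h
      obtain ⟨A', B', h1, h2, -⟩ := J.gen_app hA
      exact hF.dist hd hQ w h1 h2
  | @appL M M' N r ih =>
      obtain ⟨⟨A, hA⟩, hF, hQ⟩ := h
      exact ⟨⟨A, J.sr hA (Red.app (er_step_red r) .refl)⟩, ih hF w, hQ⟩
  | @appR M N N' r ih =>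
      obtain ⟨⟨A, hA⟩, hF, hQ⟩ := h
      exact ⟨⟨A, J.sr hA (Red.app .refl (er_step_red r))⟩, hF, ih hQ w⟩
  | @lamA A A' M r ih =>
      obtain ⟨⟨D, hD⟩, hA, hM⟩ := h
      obtain ⟨s, hs⟩ := dom_lam hD
      have hs' := J.sr hs (er_step_red r)
      exact ⟨⟨D, J.sr hD (Red.lam (er_step_red r) .refl)⟩, ih hA w,
        hM.conv (J.wf_cons w hs') (sb_conv w hs hs' (Red.eq (er_step_red r)))⟩
  | @lamM A M M' r ih =>
      obtain ⟨⟨D, hD⟩, hA, hM⟩ := h
      obtain ⟨s, hs⟩ := dom_lam hD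
      exact ⟨⟨D, J.sr hD (Red.lam .refl (er_step_red r))⟩, hA, ih hM (J.wf_cons w hs)⟩
  | @piA A A' M r ih =>
      obtain ⟨⟨D, hD⟩, hA, hM⟩ := h
      obtain ⟨s, hs⟩ := dom_pi hD
      have hs' := J.sr hs (er_step_red r)
      exact ⟨⟨D, J.sr hD (Red.pi (er_step_red r) .refl)⟩, ih hA w,
        hM.conv (J.wf_cons w hs') (sb_conv w hs hs' (Red.eq (er_step_red r)))⟩
  | @piB A M M' r ih =>
      obtain ⟨⟨D, hD⟩, hA, hM⟩ := h
      obtain ⟨s, hs⟩ := dom_pi hD
      exact ⟨⟨D, J.sr hD (Red.pi .refl (er_step_red r))⟩, hA, ih hM (J.wf_cons w hs)⟩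
  | memP N _ ih => exact ⟨ih h.1 w, h.2⟩
  | memN P _ ih => exact ⟨h.1, ih h.2 w⟩

theorem MOk.red {M M' : MT S} {G : C} (h : MOk J M G) (w : J.Wf G) (r : MRed M M') :
    MOk J M' G := by
  induction r with
  | refl => exact h
  | tail _ r ih => exact ih.step w r

/-! ### the normal form predicates -/

theorem isL_mren {F : MT S} {r : ℕ → ℕ} : IsL (mren r F) ↔ IsL F := by
  induction F with
  | lam A P _ _ => exact Iff.rfl
  | mem F N ih _ => exact ih
  | var i => exact Iff.rfl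
  | sort s => exact Iff.rfl
  | app M N _ _ => exact Iff.rfl
  | pi M N _ _ => exact Iff.rfl

theorem NF.mren {k : ℕ} {M : MT S} {G D : C} {r : ℕ → ℕ} (h : NF J idx k M G) (hM : MOk J M G)
    (w : J.Wf D) (hr : Sb J (fun x => .var (r x)) G D) : NF J idx k (mren r M) D := by
  induction M generalizing G D r with
  | var x => trivial
  | sort s => trivial
  | app F Q h1 h2 =>
      obtain ⟨hl, hF, hQ⟩ := h
      obtain ⟨-, mF, mQ⟩ := hM
      refine ⟨?_, h1 hF mF w hr, h2 hQ mQ w hr⟩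
      intro hi
      obtain ⟨T, hT, hk⟩ := hl (isL_mren.1 hi)
      exact ⟨ren r T, by rw [er_mren]; exact tren hT w hr, hk.ren w hr⟩
  | lam A M h1 h2 =>
      obtain ⟨⟨D', hD⟩, mA, mM⟩ := hM
      obtain ⟨s, hs⟩ := dom_lam hD
      have hs' := tren hs w hr
      refine ⟨h1 h.1 mA w hr, ?_⟩
      rw [er_mren]
      exact h2 h.2 mM (J.wf_cons w hs') (sb_up hr w hs')
  | pi A M h1 h2 =>
      obtain ⟨⟨D', hD⟩, mA, mM⟩ := hM
      obtain ⟨s, hs⟩ := dom_pi hD
      have hs' := tren hs w hr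
      refine ⟨h1 h.1 mA w hr, ?_⟩
      rw [er_mren]
      exact h2 h.2 mM (J.wf_cons w hs') (sb_up hr w hs')
  | mem M N h1 h2 => exact ⟨h1 h.1 hM.1 w hr, h2 h.2 hM.2 w hr⟩

theorem NF.conv {k : ℕ} {M : MT S} {G D : C} (h : NF J idx k M G) (hM : MOk J M G) (w : J.Wf D)
    (hr : Sb J .var G D) : NF J idx k M D := by
  have := h.mren (r := fun x => x) hM w hr
  rwa [mren_id] at this

/-- `NF 0` holds for all legal terms -/
theorem NF.zero {M : MT S} {G : C} (hM : MOk J M G) : NF J idx 0 M G := by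
  induction M generalizing G with
  | var x => trivial
  | sort s => trivial
  | app F Q h1 h2 =>
      obtain ⟨⟨A, hA⟩, mF, mQ⟩ := hM
      refine ⟨fun _ => ?_, h1 mF, h2 mQ⟩
      obtain ⟨A', B', hF, -⟩ := J.gen_app hA
      obtain ⟨s, hs⟩ := pi_typed hF
      exact ⟨_, hF, _, s, BetaEq.refl _, hs, Nat.zero_le _⟩
  | lam A M h1 h2 => exact ⟨h1 hM.2.1, h2 hM.2.2⟩
  | pi A M h1 h2 => exact ⟨h1 hM.2.1, h2 hM.2.2⟩
  | mem M N h1 h2 => exact ⟨h1 hM.1, h2 hM.2⟩


/-! ### weak normalisation sets and neutral terms -/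

theorem W.expand {k : ℕ} {G : C} {v v' : MT S} (r : MRed v v') (h : W J idx k G v') :
    W J idx k G v := by
  obtain ⟨u, ru, hu⟩ := h
  exact ⟨u, r.trans ru, hu⟩

theorem W.mren {k : ℕ} {G D : C} {v : MT S} {r : ℕ → ℕ} (h : W J idx k G v) (hv : MOk J v G)
    (wG : J.Wf G) (w : J.Wf D) (hr : Sb J (fun x => .var (r x)) G D) :
    W J idx k D (mren r v) := by
  obtain ⟨u, ru, hu⟩ := h
  exact ⟨_, ru.mren r, hu.mren (hv.red wG ru) w hr⟩

theorem W.conv {k : ℕ} {G D : C} {v : MT S} (h : W J idx k G v) (hv : MOk J v G)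
    (wG : J.Wf G) (w : J.Wf D) (hr : Sb J .var G D) : W J idx k D v := by
  have := h.mren (r := fun x => x) hv wG w hr
  rwa [mren_id] at this

theorem W.sort {k : ℕ} {G : C} (s : S) : W J idx k G (.sort s) := ⟨_, .refl, trivial⟩

theorem W.var {k : ℕ} {G : C} (x : ℕ) : W J idx k G (.var x) := ⟨_, .refl, trivial⟩

theorem W.mem {k : ℕ} {G : C} {v n : MT S} (h : W J idx k G v) (h' : W J idx k G n) :
    W J idx k G (.mem v n) := by
  obtain ⟨u, ru, hu⟩ := h
  obtain ⟨m, rm, hm⟩ := h'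
  exact ⟨_, MRed.mem ru rm, hu, hm⟩

theorem W.lam {k : ℕ} {G : C} {A M : MT S} (h : W J idx k G A)
    (h' : W J idx k (J.cons (er A) G) M) (hM : MOk J (.lam A M) G) (w : J.Wf G) :
    W J idx k G (.lam A M) := by
  obtain ⟨A', rA, hA⟩ := h
  obtain ⟨M', rM, hM'⟩ := h'
  obtain ⟨⟨D, hD⟩, mA, mM⟩ := hM
  obtain ⟨s, hs⟩ := dom_lam hD
  have hs' := J.sr hs (er_red rA)
  have w' := J.wf_cons w hs
  exact ⟨_, MRed.lam rA rM, hA, hM'.conv (mM.red w' rM) (J.wf_cons w hs')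
    (sb_conv w hs hs' (Red.eq (er_red rA)))⟩

theorem W.pi {k : ℕ} {G : C} {A M : MT S} (h : W J idx k G A)
    (h' : W J idx k (J.cons (er A) G) M) (hM : MOk J (.pi A M) G) (w : J.Wf G) :
    W J idx k G (.pi A M) := by
  obtain ⟨A', rA, hA⟩ := h
  obtain ⟨M', rM, hM'⟩ := h'
  obtain ⟨⟨D, hD⟩, mA, mM⟩ := hM
  obtain ⟨s, hs⟩ := dom_pi hD
  have hs' := J.sr hs (er_red rA)
  have w' := J.wf_cons w hs
  exact ⟨_, MRed.pi rA rM, hA, hM'.conv (mM.red w' rM) (J.wf_cons w hs')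
    (sb_conv w hs hs' (Red.eq (er_red rA)))⟩

theorem W.app_high {k : ℕ} {G : C} {F Q : MT S} {T : Term S} (h : W J idx k G F)
    (h' : W J idx k G Q) (hT : J.T G (er F) T) (hk : Cg J idx k G T) :
    W J idx k G (.app F Q) := by
  obtain ⟨F', rF, hF⟩ := h
  obtain ⟨Q', rQ, hQ⟩ := h'
  exact ⟨_, MRed.app rF rQ, fun _ => ⟨T, J.sr hT (er_red rF), hk⟩, hF, hQ⟩

theorem Ne.nf {k : ℕ} {G : C} {F : MT S} (h : Ne J idx k G F) :
    ∃ F', MRed F F' ∧ NF J idx k F' G ∧ ¬ IsL F' := by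
  induction h with
  | var x => exact ⟨_, .refl, trivial, fun h => h⟩
  | app _ hQ ih =>
      obtain ⟨F', rF, hF, nF⟩ := ih
      obtain ⟨Q', rQ, hQ'⟩ := hQ
      exact ⟨_, MRed.app rF rQ, ⟨fun h => (nF h).elim, hF, hQ'⟩, fun h => h⟩
  | mem _ hN ih =>
      obtain ⟨F', rF, hF, nF⟩ := ih
      obtain ⟨N', rN, hN'⟩ := hN
      exact ⟨_, MRed.mem rF rN, ⟨hF, hN'⟩, nF⟩

theorem Ne.w {k : ℕ} {G : C} {F : MT S} (h : Ne J idx k G F) : W J idx k G F := by
  obtain ⟨F', r, hF, -⟩ := h.nf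
  exact ⟨F', r, hF⟩

theorem Ne.mren {k : ℕ} {G D : C} {v : MT S} {r : ℕ → ℕ} (h : Ne J idx k G v) (hv : MOk J v G)
    (wG : J.Wf G) (w : J.Wf D) (hr : Sb J (fun x => .var (r x)) G D) :
    Ne J idx k D (mren r v) := by
  induction h with
  | var x => exact .var _
  | app _ hQ ih => exact .app (ih hv.2.1) (hQ.mren hv.2.2 wG w hr)
  | mem _ hN ih => exact .mem (ih hv.1) (hN.mren hv.2 wG w hr)

end Crest.Agent.R298.MW961
end

-- ▼ part R298/StM_961
section

/-!
R298 (S0452), helper961: ABSTRACT ADEQUACY. A stage model at level `i` (structure `Stage`) gives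
`WNi i`: every legal memory term all of whose redexes have class at least `i` reduces to one all
of whose redexes have class at least `i + 1`.
-/

set_option autoImplicit false

namespace Crest.Agent.R298.AA961

open Crest.LogicCS.PTS Crest.LogicCS.PTS.Term Relation
open Crest.Agent.R298.Sub452 Crest.Agent.R298.Par452 Crest.Agent.R298.Mem360
open Crest.Agent.R298.Mem360.MT Crest.Agent.R298.Jd961 Crest.Agent.R298.Jd961.Jd
open Crest.Agent.R298.MW961

universe u v w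

variable {S : Type u} {P : Spec S} {C : Type v} (J : Jd P C) (idx : S → ℕ)

/-- weak normalisation of stage `i` -/
def WNi (i : ℕ) : Prop := ∀ (G : C) (M : MT S), J.Wf G → MOk J M G → NF J idx i M G →
  W J idx (i + 1) G M

/-- a stage model at level `i`, without the identity environment -/
structure Stage0 (i : ℕ) where
  /-- environments -/
  Env : Type w
  /-- target context -/
  tgt : Env → C
  /-- substitution -/
  sb : Env → ℕ → MT S
  /-- `Ok G ρ`: `ρ` is an environment for the source context `G` -/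
  Ok : C → Env → Prop
  /-- `Ext G A ρ r ρ'`: `ρ'` extends the renaming of `ρ` by `r` by a value for a variable of
  type `A` -/
  Ext : C → Term S → Env → (ℕ → ℕ) → Env → Prop
  /-- realizers -/
  R : C → Env → Term S → MT S → Prop
  wf : ∀ {G ρ}, Ok G ρ → J.Wf (tgt ρ)
  msb : ∀ {G ρ}, Ok G ρ → MSb J (sb ρ) G (tgt ρ)
  ext_ok : ∀ {G A ρ r ρ'}, Ok G ρ → Ext G A ρ r ρ' → Ok (J.cons A G) ρ'
  ext_ren : ∀ {G A ρ r ρ'}, Ok G ρ → Ext G A ρ r ρ' →
    Sb J (fun x => .var (r x)) (tgt ρ) (tgt ρ')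
  ext_sb : ∀ {G A ρ r ρ'}, Ok G ρ → Ext G A ρ r ρ' → ∀ x, sb ρ' (x + 1) = mren r (sb ρ x)
  /-- realizers are weakly normalising -/
  R_W : ∀ {G ρ T v}, J.Wf G → Ok G ρ → TyOk J G T → Cg J idx i G T → R G ρ T v →
    W J idx (i + 1) (tgt ρ) v
  /-- neutral terms are realizers -/
  R_ne : ∀ {G ρ T v}, J.Wf G → Ok G ρ → TyOk J G T → Cg J idx i G T →
    MOk J v (tgt ρ) → J.T (tgt ρ) (er v) (sub (fun x => er (sb ρ x)) T) →
    Ne J idx (i + 1) (tgt ρ) v → R G ρ T v
  /-- head expansion -/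
  R_beta : ∀ {G ρ T F Q v}, J.Wf G → Ok G ρ → TyOk J G T → Cg J idx i G T →
    MOk J (.app F Q) (tgt ρ) →
    J.T (tgt ρ) (er (.app F Q)) (sub (fun x => er (sb ρ x)) T) →
    dist F Q = some v → R G ρ T v → R G ρ T (.app F Q)
  /-- memory -/
  R_mem : ∀ {G ρ T v n}, J.Wf G → Ok G ρ → TyOk J G T → Cg J idx i G T →
    MOk J n (tgt ρ) → W J idx (i + 1) (tgt ρ) n → R G ρ T v → R G ρ T (.mem v n)
  /-- conversion of the type -/
  R_conv : ∀ {G ρ T T' v}, J.Wf G → Ok G ρ → TyOk J G T → TyOk J G T' → Cg J idx i G T →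
    BetaEq T T' → R G ρ T v → R G ρ T' v
  /-- types which are high at run time -/
  R_high : ∀ {G ρ T v}, J.Wf G → Ok G ρ → TyOk J G T → Cg J idx i G T →
    Cg J idx (i + 1) (tgt ρ) (sub (fun x => er (sb ρ x)) T) →
    MOk J v (tgt ρ) → J.T (tgt ρ) (er v) (sub (fun x => er (sb ρ x)) T) →
    W J idx (i + 1) (tgt ρ) v → R G ρ T v
  /-- sorts -/
  R_sort : ∀ {G ρ s v}, J.Wf G → Ok G ρ → Cg J idx i G (.sort s) →
    MOk J v (tgt ρ) → J.T (tgt ρ) (er v) (.sort s) → W J idx (i + 1) (tgt ρ) v →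
    R G ρ (.sort s) v
  /-- products, introduction -/
  R_pi : ∀ {G ρ A B s v}, J.Wf G → Ok G ρ → J.T G (.pi A B) (.sort s) →
    Cg J idx i G (.pi A B) →
    ¬ Cg J idx (i + 1) (tgt ρ) (sub (fun x => er (sb ρ x)) (.pi A B)) →
    MOk J v (tgt ρ) → J.T (tgt ρ) (er v) (sub (fun x => er (sb ρ x)) (.pi A B)) →
    W J idx (i + 1) (tgt ρ) v →
    (∀ r ρ', Ext G A ρ r ρ' → R (J.cons A G) ρ' B (.app (mren r v) (sb ρ' 0))) →
    R G ρ (.pi A B) v
  /-- products, elimination -/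
  R_app : ∀ {G ρ A B s v r ρ'}, J.Wf G → Ok G ρ → J.T G (.pi A B) (.sort s) →
    Cg J idx i G (.pi A B) →
    ¬ Cg J idx (i + 1) (tgt ρ) (sub (fun x => er (sb ρ x)) (.pi A B)) →
    R G ρ (.pi A B) v → Ext G A ρ r ρ' → R (J.cons A G) ρ' B (.app (mren r v) (sb ρ' 0))
  /-- instances: the semantic content -/
  R_inst : ∀ {G ρ A B s} {N : MT S}, J.Wf G → Ok G ρ → J.T G (.pi A B) (.sort s) →
    Cg J idx i G (.pi A B) →
    ¬ Cg J idx (i + 1) (tgt ρ) (sub (fun x => er (sb ρ x)) (.pi A B)) →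
    MOk J N G → J.T G (er N) A → R G ρ A (msub (sb ρ) N) →
    ∃ ρ', Ext G A ρ (fun x => x) ρ' ∧ tgt ρ' = tgt ρ ∧ sb ρ' 0 = msub (sb ρ) N ∧
      ∀ v, MOk J v (tgt ρ) → R (J.cons A G) ρ' B v → R G ρ (inst (er N) B) v
  /-- fresh variables (the environment may depend on the term `M`) -/
  fresh : ∀ {G ρ A s}, J.Wf G → Ok G ρ → J.T G A (.sort s) → ∀ M : MT S, MOk J M (J.cons A G) →
    ∃ r ρ', Ext G A ρ r ρ' ∧ (W J idx (i + 1) (tgt ρ') (msub (sb ρ') M) →
      W J idx (i + 1) (J.cons (sub (fun x => er (sb ρ x)) A) (tgt ρ)) (msub (mups (sb ρ)) M))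
  /-- variables -/
  var_R : ∀ {G ρ x A}, J.Wf G → Ok G ρ → J.Dc G x A → Cg J idx i G A → R G ρ A (sb ρ x)
  var_Ne : ∀ {G ρ x A}, J.Wf G → Ok G ρ → J.Dc G x A → ¬ Cg J idx i G A →
    Ne J idx (i + 1) (tgt ρ) (sb ρ x)

/-- a stage model at level `i` -/
structure Stage (i : ℕ) extends Stage0.{u, v, w} J idx i where
  /-- the identity environment (may depend on the term `M`) -/
  ident : ∀ {G}, J.Wf G → ∀ M : MT S, MOk J M G → ∃ ρ, Ok G ρ ∧
    (W J idx (i + 1) (tgt ρ) (msub (sb ρ) M) → W J idx (i + 1) G M)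

end Crest.Agent.R298.AA961
end

-- ▼ part R298/G2S_488
section

/-!
R298 (S0452), helper488: the unipolar model of doc 2282 (section 3) over the abstract
judgement `Jd` of `Jd_961` / `MW_961`: variable headed terms, elimination contexts,
insertion of memories, the least candidate `Bot`, the sets `Rz`, renaming of the source,
monotonicity, closure.
-/

set_option autoImplicit false

namespace Crest.Agent.R298.G2S488

open Crest.LogicCS.PTS Relation
open Crest.Agent.R298.Sub452 Crest.Agent.R298.Par452 Crest.Agent.R298.Mem360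
open Crest.Agent.R298.Mem360.MT (er emb mren mwk mups msub mscons minst dist IsL mren_mren
  er_mren dist_mren mren_app mren_mem mren_id msub_id)
open Crest.Agent.R298.Jd961 Crest.Agent.R298.Jd961.Jd Crest.Agent.R298.MW961

universe u v
variable {S : Type u} {P : Spec S} {C : Type v}

/-! ### neutral frozen terms -/

/-- head variable -/
def hd : Term S → ℕ
  | .var x => x
  | .app M _ => hd M
  | _ => 0

/-- variable headed terms -/
inductive Neu : Term S → Prop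
  | var (x : ℕ) : Neu (.var x)
  | app {M : Term S} (N : Term S) : Neu M → Neu (.app M N)

theorem Neu.uniq {J : Jd P C} {Γ : C} {T : Term S} (h : Neu T) :
    ∀ {A B : Term S}, J.T Γ T A → J.T Γ T B → BetaEq A B := by
  induction h with
  | var x =>
      intro A B hA hB
      obtain ⟨A1, h1, h2⟩ := J.gen_var hA
      obtain ⟨B1, h3, h4⟩ := J.gen_var hB
      have e := J.dc_unique h1 h3
      subst e
      exact BetaEq.trans h2 (BetaEq.symm h4)
  | app N _ ih =>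
      intro A B hA hB
      obtain ⟨A1, B1, h1, _, h3⟩ := J.gen_app hA
      obtain ⟨A2, B2, h4, _, h6⟩ := J.gen_app hB
      have e := (pi_inj (ih h1 h4)).2
      exact BetaEq.trans h3 (BetaEq.trans (BetaEq.inst (.refl _) e) (BetaEq.symm h6))

theorem Neu.sort_uniq {J : Jd P C} {Γ : C} {T : Term S} (h : Neu T) {s t : S}
    (h1 : J.T Γ T (.sort s)) (h2 : J.T Γ T (.sort t)) : s = t :=
  sort_inj (h.uniq h1 h2)

theorem Neu.sub {M : Term S} (h : Neu M) {τ : ℕ → Term S} {y : ℕ} (e : τ (hd M) = .var y) :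
    Neu (sub τ M) ∧ hd (sub τ M) = y := by
  induction h with
  | var x =>
      simp only [hd] at e
      simp only [sub_var, e]
      exact ⟨.var y, rfl⟩
  | app N h ih =>
      obtain ⟨h1, h2⟩ := ih e
      exact ⟨.app _ h1, h2⟩

theorem Neu.beta {M N : Term S} (h : Neu M) (r : Beta M N) : Neu N ∧ hd N = hd M := by
  induction h generalizing N with
  | var x => cases r
  | app Q h ih =>
      cases r with
      | redex A M N => cases h
      | appL _ r =>
          obtain ⟨h1, h2⟩ := ih r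
          exact ⟨.app _ h1, h2⟩
      | appR _ r => exact ⟨.app _ h, rfl⟩

theorem Neu.red {M N : Term S} (h : Neu M) (r : Red M N) : Neu N ∧ hd N = hd M := by
  induction r with
  | refl => exact ⟨h, rfl⟩
  | tail _ r ih =>
      obtain ⟨h1, h2⟩ := ih
      obtain ⟨h3, h4⟩ := h1.beta r
      exact ⟨h3, h4.trans h2⟩

theorem normal_app_left {M N : Term S} (h : Normal (.app M N)) : Normal M :=
  fun _ r => h _ (.appL _ r)

theorem normal_pi {A B : Term S} (h : Normal (.pi A B)) : Normal A ∧ Normal B :=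
  ⟨fun _ r => h _ (.piA _ r), fun _ r => h _ (.piB _ r)⟩

theorem neu_of_normal {J : Jd P C} {Γ : C} {M : Term S} : ∀ {N D : Term S},
    Normal (.app M N) → J.T Γ (.app M N) D → Neu (.app M N) := by
  induction M with
  | var x => intro N C _ _; exact .app _ (.var _)
  | sort s =>
      intro N C _ ht
      obtain ⟨A, B, h1, _, _⟩ := J.gen_app ht
      obtain ⟨s', _, e⟩ := J.gen_sort h1
      exact (not_sort_pi (BetaEq.symm e)).elim
  | app M1 M2 ih _ =>
      intro N C hn ht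
      obtain ⟨A, B, h1, _, _⟩ := J.gen_app ht
      exact .app _ (ih (normal_app_left hn) h1)
  | lam A M _ _ => intro N C hn _; exact (hn _ (.redex _ _ _)).elim
  | pi A B _ _ =>
      intro N C _ ht
      obtain ⟨A, B, h1, _, _⟩ := J.gen_app ht
      obtain ⟨_, _, s', _, _, _, e⟩ := J.gen_pi h1
      exact (not_sort_pi (BetaEq.symm e)).elim

/-! ### elimination contexts -/

/-- elimination contexts -/
inductive EC (S : Type u) : Type u
  | hole : EC S
  | app : EC S → MT S → EC S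
  | mem : EC S → MT S → EC S

/-- filling the hole -/
def EC.fill : EC S → MT S → MT S
  | .hole, v => v
  | .app E Q, v => .app (E.fill v) Q
  | .mem E n, v => .mem (E.fill v) n

/-- renaming -/
def EC.ren (r : ℕ → ℕ) : EC S → EC S
  | .hole => .hole
  | .app E Q => .app (E.ren r) (mren r Q)
  | .mem E n => .mem (E.ren r) (mren r n)

theorem EC.ren_fill (r : ℕ → ℕ) (E : EC S) (v : MT S) :
    mren r (E.fill v) = (E.ren r).fill (mren r v) := by
  induction E with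
  | hole => rfl
  | app E Q ih => simp only [EC.fill, EC.ren, mren_app, ih]
  | mem E Q ih => simp only [EC.fill, EC.ren, mren_mem, ih]

theorem EC.step (E : EC S) {v v' : MT S} (h : MStep v v') : MStep (E.fill v) (E.fill v') := by
  induction E with
  | hole => exact h
  | app E Q ih => exact .appL _ ih
  | mem E Q ih => exact .memP _ ih

theorem EC.er_mem (E : EC S) (v n : MT S) : er (E.fill (.mem v n)) = er (E.fill v) := by
  induction E with
  | hole => rfl
  | app E Q ih => simp only [EC.fill, MT.er_app, ih]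
  | mem E Q ih => simp only [EC.fill, MT.er_mem, ih]

/-! ### insertion of memories -/

variable (J : Jd P C) (idx : S → ℕ)

/-- `Ins k D M M'`: `M'` is `M` with weakly normalising memories inserted along the spine -/
inductive Ins (k : ℕ) (D : C) : MT S → MT S → Prop
  | refl (M : MT S) : Ins k D M M
  | ins {M M' n : MT S} : Ins k D M M' → W J idx k D n → Ins k D M (.mem M' n)
  | app {F F' : MT S} (Q : MT S) : Ins k D F F' → Ins k D (.app F Q) (.app F' Q)
  | mem {F F' : MT S} (N : MT S) : Ins k D F F' → Ins k D (.mem F N) (.mem F' N)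

variable {J idx}

theorem Ins.dist {k : ℕ} {D : C} {F F' Q R : MT S} (h : Ins J idx k D F F')
    (hd : MT.dist F Q = some R) : ∃ R', MT.dist F' Q = some R' ∧ Ins J idx k D R R' := by
  induction h generalizing R with
  | refl M => exact ⟨R, hd, .refl _⟩
  | ins _ hn ih =>
      obtain ⟨R', h1, h2⟩ := ih hd
      exact ⟨.mem R' _, by rw [MT.dist_mem, h1]; rfl, .ins h2 hn⟩
  | app Q' _ _ => simp at hd
  | mem N _ ih =>
      rw [MT.dist_mem, Option.map_eq_some_iff] at hd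
      obtain ⟨R1, hR1, rfl⟩ := hd
      obtain ⟨R', h1, h2⟩ := ih hR1
      exact ⟨.mem R' N, by rw [MT.dist_mem, h1]; rfl, .mem _ h2⟩

theorem Ins.step {k : ℕ} {D : C} {M M' N : MT S} (h : Ins J idx k D M M') (r : MStep M N) :
    ∃ N', MRed M' N' ∧ Ins J idx k D N N' := by
  induction h generalizing N with
  | refl M => exact ⟨N, .single r, .refl _⟩
  | ins _ hn ih =>
      obtain ⟨N', h1, h2⟩ := ih r
      exact ⟨.mem N' _, MRed.mem h1 .refl, .ins h2 hn⟩
  | app Q h ih =>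
      cases r with
      | beta hd =>
          obtain ⟨R', h1, h2⟩ := h.dist hd
          exact ⟨R', .single (.beta h1), h2⟩
      | appL _ r =>
          obtain ⟨N', h1, h2⟩ := ih r
          exact ⟨.app N' Q, MRed.app h1 .refl, .app _ h2⟩
      | appR _ r => exact ⟨_, MRed.app .refl (.single r), .app _ h⟩
  | mem Q h ih =>
      cases r with
      | memP _ r =>
          obtain ⟨N', h1, h2⟩ := ih r
          exact ⟨.mem N' Q, MRed.mem h1 .refl, .mem _ h2⟩
      | memN _ r => exact ⟨_, MRed.mem .refl (.single r), .mem _ h⟩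

theorem Ins.red {k : ℕ} {D : C} {M M' N : MT S} (h : Ins J idx k D M M') (r : MRed M N) :
    ∃ N', MRed M' N' ∧ Ins J idx k D N N' := by
  induction r with
  | refl => exact ⟨M', .refl, h⟩
  | tail _ r ih =>
      obtain ⟨N1, h1, h2⟩ := ih
      obtain ⟨N2, h3, h4⟩ := h2.step r
      exact ⟨N2, h1.trans h3, h4⟩

theorem Ins.nf {k : ℕ} {D : C} {M M' : MT S} (h : Ins J idx k D M M') (hM : NF J idx k M D) :
    ∃ M'', MRed M' M'' ∧ NF J idx k M'' D ∧ er M'' = er M ∧ (IsL M'' → IsL M) := by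
  induction h with
  | refl M => exact ⟨M, .refl, hM, rfl, id⟩
  | ins _ hn ih =>
      obtain ⟨M1, h1, h2, h3, h4⟩ := ih hM
      obtain ⟨n', rn, hn'⟩ := hn
      exact ⟨.mem M1 n', MRed.mem h1 rn, ⟨h2, hn'⟩, h3, h4⟩
  | app Q _ ih =>
      obtain ⟨hl, hF, hQ⟩ := hM
      obtain ⟨M1, h1, h2, h3, h4⟩ := ih hF
      refine ⟨.app M1 Q, MRed.app h1 .refl, ⟨fun hi => ?_, h2, hQ⟩, ?_, id⟩
      · rw [h3]; exact hl (h4 hi)
      · simp only [MT.er_app, h3]
  | mem N _ ih =>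
      obtain ⟨hF, hN⟩ := hM
      obtain ⟨M1, h1, h2, h3, h4⟩ := ih hF
      exact ⟨.mem M1 N, MRed.mem h1 .refl, ⟨h2, hN⟩, by simp only [MT.er_mem, h3], h4⟩

theorem W_fill_mem {k : ℕ} {D : C} (E : EC S) {v n : MT S} (hn : W J idx k D n)
    (h : W J idx k D (E.fill v)) : W J idx k D (E.fill (.mem v n)) := by
  have hI : Ins J idx k D (E.fill v) (E.fill (.mem v n)) := by
    clear h
    induction E with
    | hole => exact .ins (.refl _) hn
    | app E Q ih => exact .app _ ih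
    | mem E Q ih => exact .mem _ ih
  obtain ⟨u, ru, hu⟩ := h
  obtain ⟨u', h1, h2⟩ := hI.red ru
  obtain ⟨u'', h3, h4, _, _⟩ := h2.nf hu
  exact ⟨u'', h1.trans h3, h4⟩

theorem W_fill_exp {k : ℕ} {D : C} (E : EC S) {F Q R : MT S} (hd : dist F Q = some R)
    (h : W J idx k D (E.fill R)) : W J idx k D (E.fill (.app F Q)) :=
  W.expand (.single (E.step (.beta hd))) h

/-! ### typed memory terms -/

variable (J)

/-- legal memory term of type `A` -/
def Tv (D : C) (v : MT S) (A : Term S) : Prop := MOk J v D ∧ J.T D (er v) A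

variable {J}

theorem Tv.conv {D : C} {v : MT S} {A B : Term S} {s : S} (h : Tv J D v A)
    (hB : J.T D B (.sort s)) (e : BetaEq A B) : Tv J D v B :=
  ⟨h.1, J.tconv h.2 hB e⟩

theorem Tv.app {D : C} {F Q : MT S} {A B : Term S} (h : Tv J D F (.pi A B)) (h' : Tv J D Q A) :
    Tv J D (.app F Q) (inst (er Q) B) :=
  ⟨⟨⟨_, J.tappl h.2 h'.2⟩, h.1, h'.1⟩, J.tappl h.2 h'.2⟩

theorem Tv.ren {D D' : C} {v : MT S} {A : Term S} {r : ℕ → ℕ} (h : Tv J D v A) (w : J.Wf D')
    (hr : Sb J (fun x => .var (r x)) D D') : Tv J D' (mren r v) (ren r A) :=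
  ⟨h.1.mren w hr, by rw [er_mren]; exact tren h.2 w hr⟩

theorem Tv.fill_exp {E : EC S} {D : C} {F Q R : MT S} {A : Term S} (w : J.Wf D)
    (h1 : dist F Q = some R) (h2 : Tv J D (E.fill (.app F Q)) A) : Tv J D (E.fill R) A :=
  ⟨h2.1.step w (E.step (.beta h1)), J.sr h2.2 (er_step_red (E.step (.beta h1)))⟩

theorem Tv.fill_mem {E : EC S} {D : C} {v n : MT S} {A : Term S}
    (h : Tv J D (E.fill (.mem v n)) A) : Tv J D (E.fill v) A := by
  refine ⟨?_, by rw [← E.er_mem v n]; exact h.2⟩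
  have h1 := h.1
  clear h
  induction E with
  | hole => exact h1.1
  | app E Q ih =>
      obtain ⟨⟨D', hD⟩, h2, h3⟩ := h1
      refine ⟨⟨D', ?_⟩, ih h2, h3⟩
      rw [← E.er_mem v n]; exact hD
  | mem E Q ih => exact ⟨ih h1.1, h1.2⟩

theorem MOk.fill_memn {E : EC S} {D : C} {v n : MT S} (h : MOk J (E.fill (.mem v n)) D) :
    MOk J n D := by
  induction E with
  | hole => exact h.2
  | app E Q ih => exact ih h.2.1
  | mem E Q ih => exact ih h.1

/-! ### the least candidate -/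

variable (J idx)

/-- the least candidate -/
inductive Bot (k : ℕ) (D : C) : MT S → Prop
  | ne {v : MT S} : Ne J idx k D v → Bot k D v
  | exp (E : EC S) {F Q R : MT S} : dist F Q = some R → Bot k D (E.fill R) →
      Bot k D (E.fill (.app F Q))
  | mem (E : EC S) {v n : MT S} : W J idx k D n → Bot k D (E.fill v) →
      Bot k D (E.fill (.mem v n))

variable {J idx}

theorem Bot.ren {k : ℕ} {D D' : C} {r : ℕ → ℕ} {v : MT S} (h : Bot J idx k D v)
    (hv : MOk J v D) {A : Term S} (hA : J.T D (er v) A) (w : J.Wf D) (w' : J.Wf D')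
    (hr : Sb J (fun x => .var (r x)) D D') : Bot J idx k D' (mren r v) := by
  induction h with
  | ne h => exact .ne (h.mren hv w w' hr)
  | exp E h _ ih =>
      have h2 := Tv.fill_exp w h ⟨hv, hA⟩
      have := ih h2.1 h2.2
      rw [EC.ren_fill] at this ⊢
      exact .exp _ (dist_mren h r) this
  | mem E h _ ih =>
      have h2 := Tv.fill_mem (E := E) ⟨hv, hA⟩
      have := ih h2.1 h2.2
      rw [EC.ren_fill] at this ⊢
      exact .mem _ (h.mren (MOk.fill_memn hv) w w' hr) this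

/-! ### the sets `Rz` -/

/-- extension of the second component of an environment -/
def ccons (η : S → Bool) (e : ℕ → S → Bool) : ℕ → S → Bool
  | 0 => η
  | n + 1 => e n

/-- erased substitution -/
abbrev ers (σ : ℕ → MT S) : ℕ → Term S := fun n => er (σ n)

variable (J idx)

/-- the unipolar model at level `i` -/
def Rz (i : ℕ) :
    Term S → C → C → (ℕ → MT S) → (ℕ → S → Bool) → MT S → Prop
  | .pi A B, Γ, D, σ, e, v =>
      Tv J D v (sub (ers σ) (.pi A B)) ∧ W J idx (i + 1) D v ∧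
      (¬ Cg J idx (i + 1) D (sub (ers σ) (.pi A B)) →
        ∀ (D' : C) (r : ℕ → ℕ), Sb J (fun x => .var (r x)) D D' → J.Wf D' → ∀ u : MT S,
          Rz i A Γ D' (fun n => mren r (σ n)) e u →
          ∀ η : S → Bool, Rz i B (J.cons A Γ) D' (mscons u (fun n => mren r (σ n)))
            (ccons η e) (.app (mren r v) u))
  | .var x, Γ, D, σ, e, v =>
      Tv J D v (sub (ers σ) (.var x)) ∧ W J idx (i + 1) D v ∧
      (¬ Cg J idx (i + 1) D (sub (ers σ) (.var x)) → ∀ s, J.T Γ (.var x) (.sort s) →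
        e x s = false → Bot J idx (i + 1) D v)
  | .app M N, Γ, D, σ, e, v =>
      Tv J D v (sub (ers σ) (.app M N)) ∧ W J idx (i + 1) D v ∧
      (¬ Cg J idx (i + 1) D (sub (ers σ) (.app M N)) → ∀ s, J.T Γ (.app M N) (.sort s) →
        e (hd M) s = false → Bot J idx (i + 1) D v)
  | .sort s, _, D, σ, _, v => Tv J D v (sub (ers σ) (.sort s)) ∧ W J idx (i + 1) D v
  | .lam A M, _, D, σ, _, v => Tv J D v (sub (ers σ) (.lam A M)) ∧ W J idx (i + 1) D v

variable {J idx} {i : ℕ}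

theorem Rz.tm {T : Term S} {Γ D : C} {σ : ℕ → MT S} {e : ℕ → S → Bool} {v : MT S}
    (h : Rz J idx i T Γ D σ e v) : Tv J D v (sub (ers σ) T) := by
  cases T <;> exact h.1

theorem Rz.inW {T : Term S} {Γ D : C} {σ : ℕ → MT S} {e : ℕ → S → Bool} {v : MT S}
    (h : Rz J idx i T Γ D σ e v) : W J idx (i + 1) D v := by
  cases T with
  | sort s => exact h.2
  | lam A M => exact h.2
  | _ => exact h.2.1

theorem Rz_high {T : Term S} {Γ D : C} {σ : ℕ → MT S} {e : ℕ → S → Bool} {v : MT S}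
    (hh : Cg J idx (i + 1) D (sub (ers σ) T)) (h1 : Tv J D v (sub (ers σ) T))
    (h2 : W J idx (i + 1) D v) : Rz J idx i T Γ D σ e v := by
  cases T with
  | sort s => exact ⟨h1, h2⟩
  | lam A M => exact ⟨h1, h2⟩
  | _ => exact ⟨h1, h2, fun h => (h hh).elim⟩

theorem Rz_neu {T : Term S} (hT : Neu T) {Γ D : C} {σ : ℕ → MT S}
    {e : ℕ → S → Bool} {v : MT S} : Rz J idx i T Γ D σ e v ↔
      (Tv J D v (sub (ers σ) T) ∧ W J idx (i + 1) D v ∧
        (¬ Cg J idx (i + 1) D (sub (ers σ) T) → ∀ s, J.T Γ T (.sort s) →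
          e (hd T) s = false → Bot J idx (i + 1) D v)) := by
  cases hT with
  | var x => exact Iff.rfl
  | app N h => exact Iff.rfl

theorem ers_mscons (u : MT S) (σ : ℕ → MT S) : ers (mscons u σ) = scons (er u) (ers σ) := by
  funext n; cases n <;> rfl

theorem sub_ers_mscons (u : MT S) (σ : ℕ → MT S) (B : Term S) :
    sub (ers (mscons u σ)) B = inst (er u) (sub (ups (ers σ)) B) := by
  rw [ers_mscons, sub_scons]

theorem ers_ren (r : ℕ → ℕ) (σ : ℕ → MT S) (T : Term S) :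
    sub (ers (fun n => mren r (σ n))) T = ren r (sub (ers σ) T) := by
  rw [ren_sub]
  congr 1
  funext n
  exact er_mren _ _

/-- typing of the application used in the product clause -/
theorem tv_app_clause {A B : Term S} {D D' : C} {σ : ℕ → MT S} {v u : MT S}
    {r : ℕ → ℕ} (hv : Tv J D v (sub (ers σ) (.pi A B)))
    (hr : Sb J (fun x => .var (r x)) D D') (hw : J.Wf D')
    (hu : Tv J D' u (sub (ers (fun n => mren r (σ n))) A)) :
    Tv J D' (.app (mren r v) u) (sub (ers (mscons u (fun n => mren r (σ n)))) B) := by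
  have h1 := hv.ren hw hr
  rw [← ers_ren, sub_pi] at h1
  rw [sub_ers_mscons]
  exact Tv.app h1 hu

/-- renaming of the source -/
theorem Rz_ren {T : Term S} : ∀ {Γ Γ' D : C} {ρ : ℕ → ℕ} {σ : ℕ → MT S}
    {e : ℕ → S → Bool} {v : MT S} {s : S}, Normal T → J.T Γ T (.sort s) → J.Wf Γ' →
    Sb J (fun n => .var (ρ n)) Γ Γ' →
    (Rz J idx i (ren ρ T) Γ' D σ e v ↔
      Rz J idx i T Γ D (fun n => σ (ρ n)) (fun n => e (ρ n)) v) := by
  have key : ∀ {T : Term S} {Γ Γ' D : C} {ρ : ℕ → ℕ} {σ : ℕ → MT S}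
    {e : ℕ → S → Bool} {v : MT S} {s : S}, Neu T → J.T Γ T (.sort s) → J.Wf Γ' →
    Sb J (fun n => .var (ρ n)) Γ Γ' →
    (Rz J idx i (ren ρ T) Γ' D σ e v ↔
      Rz J idx i T Γ D (fun n => σ (ρ n)) (fun n => e (ρ n)) v) := by
    intro T Γ Γ' D ρ σ e v s hT ht hw hs
    have hN := hT.sub (τ := fun n => .var (ρ n)) (y := ρ (hd T)) rfl
    rw [← ren_eq_sub] at hN
    rw [Rz_neu hN.1, Rz_neu hT, sub_ren, hN.2]
    have h3 : J.T Γ' (ren ρ T) (.sort s) := by
      rw [ren_eq_sub]; exact J.tsub ht hw hs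
    constructor
    · rintro ⟨h1, h2, h4⟩
      refine ⟨h1, h2, fun hh t ht' he => h4 hh s h3 ?_⟩
      rwa [← hT.sort_uniq ht ht'] at he
    · rintro ⟨h1, h2, h4⟩
      refine ⟨h1, h2, fun hh t ht' he => h4 hh s ht ?_⟩
      rwa [← hN.1.sort_uniq h3 ht'] at he
  induction T with
  | var x => intro Γ Γ' D ρ σ e v s _ ht hw hs; exact key (.var x) ht hw hs
  | app M N _ _ =>
      intro Γ Γ' D ρ σ e v s hn ht hw hs
      exact key (neu_of_normal hn ht) ht hw hs
  | sort t => intro Γ Γ' D ρ σ e v s _ ht hw hs; exact Iff.rfl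
  | lam A M _ _ =>
      intro Γ Γ' D ρ σ e v s _ ht hw hs
      simp only [ren_lam, Rz]
      rw [← ren_lam, sub_ren]
  | pi A B ihA ihB =>
      intro Γ Γ' D ρ σ e v s hn ht hw hs
      obtain ⟨a, b, c, hA, hB, _, _⟩ := J.gen_pi ht
      obtain ⟨nA, nB⟩ := normal_pi hn
      have hA' : J.T Γ' (sub (fun n => .var (ρ n)) A) (.sort a) := J.tsub hA hw hs
      have hs' : Sb J (fun n => .var (up ρ n)) (J.cons A Γ) (J.cons (ren ρ A) Γ') := by
        refine sb_up hs hw (s := a) ?_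
        rw [ren_eq_sub]; exact hA'
      have hw' : J.Wf (J.cons (ren ρ A) Γ') := J.wf_cons hw (by rw [ren_eq_sub]; exact hA')
      simp only [ren_pi, Rz]
      rw [← ren_pi, sub_ren]
      refine and_congr Iff.rfl (and_congr Iff.rfl (imp_congr Iff.rfl ?_))
      refine forall_congr' fun D' => forall_congr' fun r => imp_congr Iff.rfl
        (imp_congr Iff.rfl (forall_congr' fun u => imp_congr (ihA nA hA hw hs)
          (forall_congr' fun η => ?_)))
      rw [ihB nB hB hw' hs']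
      have e1 : (fun n => mscons u (fun n => mren r (σ n)) (up ρ n)) =
          mscons u (fun n => mren r (σ (ρ n))) := by
        funext n; cases n <;> rfl
      have e2 : (fun n => ccons η e (up ρ n)) = ccons η (fun n => e (ρ n)) := by
        funext n; cases n <;> rfl
      rw [e1, e2]

/-- change of the source context -/
theorem Rz_ctx {T : Term S} {Γ Γ' D : C} {σ : ℕ → MT S}
    {e : ℕ → S → Bool} {v : MT S} {s : S} (hn : Normal T) (ht : J.T Γ T (.sort s))
    (hw : J.Wf Γ') (hs : Sb J .var Γ Γ') :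
    Rz J idx i T Γ' D σ e v ↔ Rz J idx i T Γ D σ e v := by
  have := Rz_ren (J := J) (idx := idx) (i := i) (D := D) (ρ := fun n => n) (σ := σ)
    (e := e) (v := v) hn ht hw hs
  rwa [ren_id] at this

/-! ### closure -/

theorem Rz_ne {T : Term S} : ∀ {Γ D : C} {σ : ℕ → MT S} {e : ℕ → S → Bool} {v : MT S},
    J.Wf D → Ne J idx (i + 1) D v → Tv J D v (sub (ers σ) T) → Rz J idx i T Γ D σ e v := by
  induction T with
  | var x => intro Γ D σ e v _ h2 h3; exact ⟨h3, h2.w, fun _ _ _ _ => .ne h2⟩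
  | app M N _ _ => intro Γ D σ e v _ h2 h3; exact ⟨h3, h2.w, fun _ _ _ _ => .ne h2⟩
  | sort t => intro Γ D σ e v _ h2 h3; exact ⟨h3, h2.w⟩
  | lam A M _ _ => intro Γ D σ e v _ h2 h3; exact ⟨h3, h2.w⟩
  | pi A B _ ihB =>
      intro Γ D σ e v w h2 h3
      refine ⟨h3, h2.w, fun _ D' r hr hw u hu η => ?_⟩
      exact ihB hw (.app (h2.mren h3.1 w hw hr) hu.inW) (tv_app_clause h3 hr hw hu.tm)

theorem Rz_exp {T : Term S} : ∀ {Γ D : C} {σ : ℕ → MT S}
    {e : ℕ → S → Bool} (E : EC S) {F Q R : MT S}, dist F Q = some R →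
    Tv J D (E.fill (.app F Q)) (sub (ers σ) T) →
    Rz J idx i T Γ D σ e (E.fill R) → Rz J idx i T Γ D σ e (E.fill (.app F Q)) := by
  induction T with
  | var x =>
      intro Γ D σ e E F Q R h1 h2 h3
      exact ⟨h2, W_fill_exp E h1 h3.inW, fun a s hs he => .exp E h1 (h3.2.2 a s hs he)⟩
  | app M N _ _ =>
      intro Γ D σ e E F Q R h1 h2 h3
      exact ⟨h2, W_fill_exp E h1 h3.inW, fun a s hs he => .exp E h1 (h3.2.2 a s hs he)⟩
  | sort t => intro Γ D σ e E F Q R h1 h2 h3; exact ⟨h2, W_fill_exp E h1 h3.inW⟩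
  | lam A M _ _ => intro Γ D σ e E F Q R h1 h2 h3; exact ⟨h2, W_fill_exp E h1 h3.inW⟩
  | pi A B _ ihB =>
      intro Γ D σ e E F Q R h1 h2 h3
      refine ⟨h2, W_fill_exp E h1 h3.inW, fun a D' r hr hw u hu η => ?_⟩
      have h4 := h3.2.2 a D' r hr hw u hu η
      have h5 := tv_app_clause h2 hr hw hu.tm
      rw [EC.ren_fill] at h4 h5 ⊢
      exact ihB (.app (E.ren r) u) (dist_mren h1 r) h5 h4

theorem Rz_mem {T : Term S} : ∀ {Γ D : C} {σ : ℕ → MT S}
    {e : ℕ → S → Bool} (E : EC S) {v n : MT S}, J.Wf D → W J idx (i + 1) D n →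
    Tv J D (E.fill (.mem v n)) (sub (ers σ) T) →
    Rz J idx i T Γ D σ e (E.fill v) → Rz J idx i T Γ D σ e (E.fill (.mem v n)) := by
  induction T with
  | var x =>
      intro Γ D σ e E v n _ h1 h2 h3
      exact ⟨h2, W_fill_mem E h1 h3.inW, fun a s hs he => .mem E h1 (h3.2.2 a s hs he)⟩
  | app M N _ _ =>
      intro Γ D σ e E v n _ h1 h2 h3
      exact ⟨h2, W_fill_mem E h1 h3.inW, fun a s hs he => .mem E h1 (h3.2.2 a s hs he)⟩
  | sort t => intro Γ D σ e E v n _ h1 h2 h3; exact ⟨h2, W_fill_mem E h1 h3.inW⟩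
  | lam A M _ _ => intro Γ D σ e E v n _ h1 h2 h3; exact ⟨h2, W_fill_mem E h1 h3.inW⟩
  | pi A B _ ihB =>
      intro Γ D σ e E v n w h1 h2 h3
      refine ⟨h2, W_fill_mem E h1 h3.inW, fun a D' r hr hw u hu η => ?_⟩
      have h4 := h3.2.2 a D' r hr hw u hu η
      have h5 := tv_app_clause h2 hr hw hu.tm
      have h6 := h1.mren (MOk.fill_memn h2.1) w hw hr
      rw [EC.ren_fill] at h4 h5 ⊢
      exact ihB (.app (E.ren r) u) hw h6 h5 h4

theorem Rz_bot {T : Term S} {Γ D : C} {σ : ℕ → MT S}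
    {e : ℕ → S → Bool} {v : MT S} (w : J.Wf D) (hv : Bot J idx (i + 1) D v)
    (ht : Tv J D v (sub (ers σ) T)) : Rz J idx i T Γ D σ e v := by
  induction hv with
  | ne h => exact Rz_ne w h ht
  | exp E h1 _ ih => exact Rz_exp E h1 ht (ih (Tv.fill_exp w h1 ht))
  | mem E h1 _ ih => exact Rz_mem E w h1 ht (ih (Tv.fill_mem ht))

/-- renaming of the target -/
theorem Rz.mono {T : Term S} {Γ D D' : C} {σ : ℕ → MT S}
    {e : ℕ → S → Bool} {v : MT S} {r : ℕ → ℕ} (h : Rz J idx i T Γ D σ e v) (w : J.Wf D)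
    (hr : Sb J (fun x => .var (r x)) D D') (hw : J.Wf D') :
    Rz J idx i T Γ D' (fun n => mren r (σ n)) e (mren r v) := by
  have ht := h.tm.ren hw hr
  rw [← ers_ren] at ht
  have hW := h.inW.mren h.tm.1 w hw hr
  have hH : ¬ Cg J idx (i + 1) D' (sub (ers fun n => mren r (σ n)) T) →
      ¬ Cg J idx (i + 1) D (sub (ers σ) T) := fun hh h1 => hh (by
        rw [ers_ren]; exact h1.ren hw hr)
  cases T with
  | var x =>
      exact ⟨ht, hW, fun hh s hs he => (h.2.2 (hH hh) s hs he).ren h.tm.1 h.tm.2 w hw hr⟩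
  | app M N =>
      exact ⟨ht, hW, fun hh s hs he => (h.2.2 (hH hh) s hs he).ren h.tm.1 h.tm.2 w hw hr⟩
  | sort t => exact ⟨ht, hW⟩
  | lam A M => exact ⟨ht, hW⟩
  | pi A B =>
      refine ⟨ht, hW, fun hh D'' r' hr' hw' u hu η => ?_⟩
      have hc : Sb J (fun x => .var (r' (r x))) D D'' := by
        have := sb_comp hr hr' hw'
        exact this
      have := h.2.2 (hH hh) D'' (fun n => r' (r n)) hc hw' u
      simp only [mren_mren] at hu ⊢
      exact this hu η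

end Crest.Agent.R298.G2S488
private theorem rz_771bae741d : type_of% @_root_.Crest.Agent.R298.G2S488.EC.fill.eq_def := @_root_.Crest.Agent.R298.G2S488.EC.fill.eq_def -- L122
private theorem rz_e15becb28a : type_of% @_root_.Crest.Agent.R298.G2S488.EC.fill.eq_1 := @_root_.Crest.Agent.R298.G2S488.EC.fill.eq_1 -- L122
private theorem rz_8efc2a1464 : type_of% @_root_.Crest.Agent.R298.G2S488.EC.ren.eq_def := @_root_.Crest.Agent.R298.G2S488.EC.ren.eq_def -- L128
private theorem rz_17515d16f7 : type_of% @_root_.Crest.Agent.R298.G2S488.EC.ren.eq_1 := @_root_.Crest.Agent.R298.G2S488.EC.ren.eq_1 -- L128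
private theorem rz_39112b920b : type_of% @_root_.Crest.Agent.R298.G2S488.Rz.eq_def := @_root_.Crest.Agent.R298.G2S488.Rz.eq_def -- L335
private theorem rz_4098bf8804 : type_of% @_root_.Crest.Agent.R298.G2S488.Rz.eq_1 := @_root_.Crest.Agent.R298.G2S488.Rz.eq_1 -- L335
private theorem rz_0e8aa41ea9 : type_of% @_root_.Crest.Agent.R298.G2S488.hd.eq_def := @_root_.Crest.Agent.R298.G2S488.hd.eq_def -- L26
private theorem rz_98ce38d6e4 : type_of% @_root_.Crest.Agent.R298.G2S488.hd.eq_1 := @_root_.Crest.Agent.R298.G2S488.hd.eq_1 -- L26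
end

-- ▼ part R298/G2I_488
section

/-!
R298 (S0452), helper488: the instantiation lemma of the unipolar model over `Jd`.
-/

set_option autoImplicit false

namespace Crest.Agent.R298.G2S488

open Crest.LogicCS.PTS Relation
open Crest.Agent.R298.Sub452 Crest.Agent.R298.Par452 Crest.Agent.R298.Mem360
open Crest.Agent.R298.Mem360.MT (er emb mren mwk mups msub mscons minst dist IsL mren_mren
  er_mren dist_mren mren_app mren_mem mren_id msub_id)
open Crest.Agent.R298.Jd961 Crest.Agent.R298.Jd961.Jd Crest.Agent.R298.MW961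

universe u v
variable {S : Type u} {P : Spec S} {C : Type v} {J : Jd P C} {idx : S → ℕ} {i : ℕ}

/-! ### instantiation -/

/-- `(σ₁, e₁)` is the environment of the source of `τ` obtained from the environment
`(σ₂, e₂)` of its target; `x₀` is the only variable which `τ` does not rename -/
structure EnvR (τ : ℕ → Term S) (x₀ : ℕ) (η : S → Bool) (σ₁ : ℕ → MT S) (e₁ : ℕ → S → Bool)
    (σ₂ : ℕ → MT S) (e₂ : ℕ → S → Bool) : Prop where
  oth : ∀ x, x ≠ x₀ → ∃ y, τ x = .var y ∧ σ₁ x = σ₂ y ∧ e₁ x = e₂ y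
  er0 : er (σ₁ x₀) = sub (ers σ₂) (τ x₀)
  e0 : e₁ x₀ = η

theorem EnvR.er_eq {τ : ℕ → Term S} {x₀ : ℕ} {η : S → Bool} {σ₁ : ℕ → MT S}
    {e₁ : ℕ → S → Bool} {σ₂ : ℕ → MT S} {e₂ : ℕ → S → Bool}
    (h : EnvR τ x₀ η σ₁ e₁ σ₂ e₂) (T : Term S) : sub (ers σ₁) T = sub (ers σ₂) (sub τ T) := by
  rw [sub_sub]
  congr 1
  funext x
  by_cases hx : x = x₀
  · subst hx; exact h.er0
  · obtain ⟨y, h1, h2, _⟩ := h.oth x hx
    rw [h1]
    simp only [ers, h2, sub_var]

theorem EnvR.ren {τ : ℕ → Term S} {x₀ : ℕ} {η : S → Bool} {σ₁ : ℕ → MT S}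
    {e₁ : ℕ → S → Bool} {σ₂ : ℕ → MT S} {e₂ : ℕ → S → Bool}
    (h : EnvR τ x₀ η σ₁ e₁ σ₂ e₂) (r : ℕ → ℕ) :
    EnvR τ x₀ η (fun n => mren r (σ₁ n)) e₁ (fun n => mren r (σ₂ n)) e₂ where
  oth x hx := by
    obtain ⟨y, h1, h2, h3⟩ := h.oth x hx
    exact ⟨y, h1, by simp only [h2], h3⟩
  er0 := by rw [er_mren, h.er0, ers_ren]
  e0 := h.e0

theorem EnvR.up {τ : ℕ → Term S} {x₀ : ℕ} {η : S → Bool} {σ₁ : ℕ → MT S}
    {e₁ : ℕ → S → Bool} {σ₂ : ℕ → MT S} {e₂ : ℕ → S → Bool}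
    (h : EnvR τ x₀ η σ₁ e₁ σ₂ e₂) (u : MT S) (η' : S → Bool) :
    EnvR (ups τ) (x₀ + 1) η (mscons u σ₁) (ccons η' e₁) (mscons u σ₂) (ccons η' e₂) where
  oth x hx := by
    cases x with
    | zero => exact ⟨0, rfl, rfl, rfl⟩
    | succ x =>
        obtain ⟨y, h1, h2, h3⟩ := h.oth x (fun e => hx (by rw [e]))
        exact ⟨y + 1, by simp only [ups_succ, h1]; rfl, h2, h3⟩
  er0 := by
    have : sub (ers (mscons u σ₂)) (ups τ (x₀ + 1)) = sub (ers σ₂) (τ x₀) := by
      rw [ers_mscons, ups_succ, wk, sub_ren]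
      rfl
    rw [this]
    exact h.er0
  e0 := h.e0

/-- the situation of the instantiation lemma -/
structure Sit (J : Jd P C) (T : Term S) (Γ₁ : C) (x₀ : ℕ) (η : S → Bool)
    (τ : ℕ → Term S) (Γ₂ D : C) (σ₁ : ℕ → MT S) (e₁ : ℕ → S → Bool)
    (σ₂ : ℕ → MT S) (e₂ : ℕ → S → Bool) (T' : Term S) : Prop where
  wf₂ : J.Wf Γ₂
  wfD : J.Wf D
  tau : Sb J τ Γ₁ Γ₂
  env : EnvR τ x₀ η σ₁ e₁ σ₂ e₂
  ok₂ : Sb J (ers σ₂) Γ₂ D
  nf : Normal T'
  eq : BetaEq (sub τ T) T'

/-- the instance is at least as big -/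
def PP (J : Jd P C) (idx : S → ℕ) (i : ℕ) (T : Term S)
    (Γ₁ : C) (x₀ : ℕ) (η : S → Bool) : Prop :=
  ∀ (τ : ℕ → Term S) (Γ₂ D : C) (σ₁ : ℕ → MT S) (e₁ : ℕ → S → Bool)
    (σ₂ : ℕ → MT S) (e₂ : ℕ → S → Bool) (T' : Term S) (v : MT S),
    Sit J T Γ₁ x₀ η τ Γ₂ D σ₁ e₁ σ₂ e₂ T' → Rz J idx i T Γ₁ D σ₁ e₁ v →
    Rz J idx i T' Γ₂ D σ₂ e₂ v

/-- the instance is at most as big -/
def QQ (J : Jd P C) (idx : S → ℕ) (i : ℕ) (T : Term S)
    (Γ₁ : C) (x₀ : ℕ) (η : S → Bool) : Prop :=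
  ∀ (τ : ℕ → Term S) (Γ₂ D : C) (σ₁ : ℕ → MT S) (e₁ : ℕ → S → Bool)
    (σ₂ : ℕ → MT S) (e₂ : ℕ → S → Bool) (T' : Term S) (v : MT S),
    Sit J T Γ₁ x₀ η τ Γ₂ D σ₁ e₁ σ₂ e₂ T' → Rz J idx i T' Γ₂ D σ₂ e₂ v →
    Rz J idx i T Γ₁ D σ₁ e₁ v

theorem Sit.eqs {T : Term S} {Γ₁ : C} {x₀ : ℕ} {η : S → Bool}
    {τ : ℕ → Term S} {Γ₂ D : C} {σ₁ : ℕ → MT S} {e₁ : ℕ → S → Bool}
    {σ₂ : ℕ → MT S} {e₂ : ℕ → S → Bool} {T' : Term S}
    (h : Sit J T Γ₁ x₀ η τ Γ₂ D σ₁ e₁ σ₂ e₂ T') :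
    BetaEq (sub (ers σ₁) T) (sub (ers σ₂) T') := by
  rw [h.env.er_eq]
  exact BetaEq.sub h.eq _

theorem Sit.typed' {T : Term S} {Γ₁ : C} {x₀ : ℕ} {η : S → Bool}
    {τ : ℕ → Term S} {Γ₂ D : C} {σ₁ : ℕ → MT S} {e₁ : ℕ → S → Bool}
    {σ₂ : ℕ → MT S} {e₂ : ℕ → S → Bool} {T' : Term S} {s : S}
    (h : Sit J T Γ₁ x₀ η τ Γ₂ D σ₁ e₁ σ₂ e₂ T') (ht : J.T Γ₁ T (.sort s)) :
    J.T Γ₂ T' (.sort s) :=
  J.sr (J.tsub ht h.wf₂ h.tau) (red_of_eq_normal h.eq h.nf)

theorem Sit.typed₁ {T : Term S} {Γ₁ : C} {x₀ : ℕ} {η : S → Bool}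
    {τ : ℕ → Term S} {Γ₂ D : C} {σ₁ : ℕ → MT S} {e₁ : ℕ → S → Bool}
    {σ₂ : ℕ → MT S} {e₂ : ℕ → S → Bool} {T' : Term S} {s : S}
    (h : Sit J T Γ₁ x₀ η τ Γ₂ D σ₁ e₁ σ₂ e₂ T') (ht : J.T Γ₁ T (.sort s)) :
    J.T D (sub (ers σ₁) T) (.sort s) := by
  rw [h.env.er_eq]
  exact J.tsub (J.tsub ht h.wf₂ h.tau) h.wfD h.ok₂

theorem Sit.typed₂ {T : Term S} {Γ₁ : C} {x₀ : ℕ} {η : S → Bool}
    {τ : ℕ → Term S} {Γ₂ D : C} {σ₁ : ℕ → MT S} {e₁ : ℕ → S → Bool}
    {σ₂ : ℕ → MT S} {e₂ : ℕ → S → Bool} {T' : Term S} {s : S}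
    (h : Sit J T Γ₁ x₀ η τ Γ₂ D σ₁ e₁ σ₂ e₂ T') (ht : J.T Γ₁ T (.sort s)) :
    J.T D (sub (ers σ₂) T') (.sort s) := J.tsub (h.typed' ht) h.wfD h.ok₂

theorem Sit.tm_iff {T : Term S} {Γ₁ : C} {x₀ : ℕ} {η : S → Bool}
    {τ : ℕ → Term S} {Γ₂ D : C} {σ₁ : ℕ → MT S} {e₁ : ℕ → S → Bool}
    {σ₂ : ℕ → MT S} {e₂ : ℕ → S → Bool} {T' : Term S} {s : S} {v : MT S}
    (h : Sit J T Γ₁ x₀ η τ Γ₂ D σ₁ e₁ σ₂ e₂ T') (ht : J.T Γ₁ T (.sort s)) :
    Tv J D v (sub (ers σ₁) T) ↔ Tv J D v (sub (ers σ₂) T') :=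
  ⟨fun h3 => h3.conv (h.typed₂ ht) h.eqs, fun h3 => h3.conv (h.typed₁ ht) (BetaEq.symm h.eqs)⟩

/-- a type all of whose instances are high -/
theorem high_inst {T : Term S} {Γ₁ : C} {x₀ : ℕ} {η : S → Bool}
    {τ : ℕ → Term S} {Γ₂ D : C} {σ₁ : ℕ → MT S} {e₁ : ℕ → S → Bool}
    {σ₂ : ℕ → MT S} {e₂ : ℕ → S → Bool} {T' : Term S} {s : S}
    (h : Sit J T Γ₁ x₀ η τ Γ₂ D σ₁ e₁ σ₂ e₂ T') (ht : J.T Γ₁ T (.sort s))
    (hi : i < idx s) : Cg J idx (i + 1) D (sub (ers σ₁) T) ∧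
      Cg J idx (i + 1) D (sub (ers σ₂) T') :=
  ⟨⟨_, s, .refl _, h.typed₁ ht, hi⟩, ⟨_, s, .refl _, h.typed₂ ht, hi⟩⟩

theorem PP_high {T : Term S} {Γ₁ : C} {x₀ : ℕ} {η : S → Bool} {s : S}
    (ht : J.T Γ₁ T (.sort s)) (hi : i < idx s) : PP J idx i T Γ₁ x₀ η := by
  intro τ Γ₂ D σ₁ e₁ σ₂ e₂ T' v h hJ
  exact Rz_high (high_inst h ht hi).2 ((h.tm_iff ht).1 hJ.tm) hJ.inW

theorem QQ_high {T : Term S} {Γ₁ : C} {x₀ : ℕ} {η : S → Bool} {s : S}
    (ht : J.T Γ₁ T (.sort s)) (hi : i < idx s) : QQ J idx i T Γ₁ x₀ η := by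
  intro τ Γ₂ D σ₁ e₁ σ₂ e₂ T' v h hJ
  exact Rz_high (high_inst h ht hi).1 ((h.tm_iff ht).2 hJ.tm) hJ.inW

theorem sit_neu {T : Term S} (hT : Neu T) {Γ₁ : C} {x₀ : ℕ} {η : S → Bool}
    {τ : ℕ → Term S} {Γ₂ D : C} {σ₁ : ℕ → MT S} {e₁ : ℕ → S → Bool}
    {σ₂ : ℕ → MT S} {e₂ : ℕ → S → Bool} {T' : Term S}
    (h : Sit J T Γ₁ x₀ η τ Γ₂ D σ₁ e₁ σ₂ e₂ T') (hx : hd T ≠ x₀) :
    Neu T' ∧ e₁ (hd T) = e₂ (hd T') := by
  obtain ⟨y, h1, _, h3⟩ := h.env.oth _ hx
  obtain ⟨h4, h5⟩ := hT.sub h1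
  obtain ⟨h6, h7⟩ := h4.red (red_of_eq_normal h.eq h.nf)
  exact ⟨h6, by rw [h7, h5, h3]⟩

theorem PP_neu {T : Term S} (hT : Neu T) {Γ₁ : C} {x₀ : ℕ}
    {η : S → Bool} {s : S} (ht : J.T Γ₁ T (.sort s)) (he : hd T = x₀ → η s = false) :
    PP J idx i T Γ₁ x₀ η := by
  intro τ Γ₂ D σ₁ e₁ σ₂ e₂ T' v h hJ
  have h1 := (h.tm_iff ht).1 hJ.tm
  by_cases hH : Cg J idx (i + 1) D (sub (ers σ₂) T')
  · exact Rz_high hH h1 hJ.inW
  · have hH' : ¬ Cg J idx (i + 1) D (sub (ers σ₁) T) := fun a => hH (a.conv h.eqs)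
    rw [Rz_neu hT] at hJ
    by_cases hx : hd T = x₀
    · exact Rz_bot h.wfD (hJ.2.2 hH' s ht (by rw [hx, h.env.e0]; exact he hx)) h1
    · obtain ⟨h2, h3⟩ := sit_neu hT h hx
      rw [Rz_neu h2]
      refine ⟨h1, hJ.2.1, fun _ t ht' he' => hJ.2.2 hH' s ht ?_⟩
      rwa [h3, h2.sort_uniq (h.typed' ht) ht']

theorem QQ_neu {T : Term S} (hT : Neu T) {Γ₁ : C} {x₀ : ℕ}
    {η : S → Bool} {s : S} (ht : J.T Γ₁ T (.sort s)) (he : hd T = x₀ → η s = true) :
    QQ J idx i T Γ₁ x₀ η := by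
  intro τ Γ₂ D σ₁ e₁ σ₂ e₂ T' v h hJ
  have h1 := (h.tm_iff ht).2 hJ.tm
  rw [Rz_neu hT]
  refine ⟨h1, hJ.inW, fun hH t ht' he' => ?_⟩
  have hH' : ¬ Cg J idx (i + 1) D (sub (ers σ₂) T') :=
    fun a => hH (a.conv (BetaEq.symm h.eqs))
  have est := hT.sort_uniq ht ht'
  subst est
  by_cases hx : hd T = x₀
  · rw [hx, h.env.e0, he hx] at he'
    cases he'
  · obtain ⟨h2, h3⟩ := sit_neu hT h hx
    rw [Rz_neu h2] at hJ
    exact hJ.2.2 hH' s (h.typed' ht) (by rw [← h3]; exact he')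

theorem PP_sort {t : S} {Γ₁ : C} {x₀ : ℕ} {η : S → Bool} {s : S}
    (ht : J.T Γ₁ (.sort t) (.sort s)) : PP J idx i (.sort t) Γ₁ x₀ η := by
  intro τ Γ₂ D σ₁ e₁ σ₂ e₂ T' v h hJ
  have h1 := (h.tm_iff ht).1 hJ.tm
  have h2 := red_sort (red_of_eq_normal h.eq h.nf)
  subst h2
  exact ⟨h1, hJ.inW⟩

theorem QQ_sort {t : S} {Γ₁ : C} {x₀ : ℕ} {η : S → Bool} {s : S}
    (ht : J.T Γ₁ (.sort t) (.sort s)) : QQ J idx i (.sort t) Γ₁ x₀ η := by
  intro τ Γ₂ D σ₁ e₁ σ₂ e₂ T' v h hJ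
  exact ⟨(h.tm_iff ht).2 hJ.tm, hJ.inW⟩

/-- the situation for the domain and the codomain of a product -/
theorem Sit.pi {A B : Term S} {Γ₁ : C} {x₀ : ℕ} {η : S → Bool}
    {τ : ℕ → Term S} {Γ₂ D : C} {σ₁ : ℕ → MT S} {e₁ : ℕ → S → Bool}
    {σ₂ : ℕ → MT S} {e₂ : ℕ → S → Bool} {T' : Term S} {a : S}
    (h : Sit J (.pi A B) Γ₁ x₀ η τ Γ₂ D σ₁ e₁ σ₂ e₂ T') (hA : J.T Γ₁ A (.sort a)) :
    ∃ A' B', T' = .pi A' B' ∧ ∀ (D' : C) (r : ℕ → ℕ),
      Sb J (fun x => .var (r x)) D D' → J.Wf D' →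
      Sit J A Γ₁ x₀ η τ Γ₂ D' (fun n => mren r (σ₁ n)) e₁ (fun n => mren r (σ₂ n)) e₂ A' ∧
      ∀ (u : MT S) (η' : S → Bool), Tv J D' u (sub (ers (fun n => mren r (σ₂ n))) A') →
        Sit J B (J.cons A Γ₁) (x₀ + 1) η (ups τ) (J.cons A' Γ₂) D'
          (mscons u (fun n => mren r (σ₁ n)))
          (ccons η' e₁) (mscons u (fun n => mren r (σ₂ n))) (ccons η' e₂) B' := by
  obtain ⟨A', B', rA, rB, rfl⟩ : ∃ A' B', Red (sub τ A) A' ∧ Red (sub (ups τ) B) B' ∧
      T' = .pi A' B' := by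
    obtain ⟨A', B', h1, h2, h3⟩ := red_pi (red_of_eq_normal h.eq h.nf)
    exact ⟨A', B', h2, h3, h1⟩
  refine ⟨A', B', rfl, fun D' r hr hw => ?_⟩
  obtain ⟨nA, nB⟩ := normal_pi h.nf
  have hok : Sb J (ers (fun n => mren r (σ₂ n))) Γ₂ D' := by
    intro n B hl
    rw [ers_ren]
    show J.T D' (er (mren r (σ₂ n))) _
    rw [er_mren]
    exact tren (h.ok₂ n B hl) hw hr
  refine ⟨⟨h.wf₂, hw, h.tau, h.env.ren r, hok, nA, rA.eq⟩, fun u η' hu => ?_⟩
  have hA0 : J.T Γ₂ (sub τ A) (.sort a) := J.tsub hA h.wf₂ h.tau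
  have hA1 : J.T Γ₂ A' (.sort a) := J.sr hA0 rA
  refine ⟨J.wf_cons h.wf₂ hA1, hw, ?_, (h.env.ren r).up u η', ?_, nB, rB.eq⟩
  · intro n B hl
    exact ctx_conv h.wf₂ (sb_ups h.tau h.wf₂ hA0 n B hl) hA0 hA1 rA.eq
  · rw [ers_mscons]
    exact sb_scons hok hu.2

theorem PP_pi {A B : Term S} {Γ₁ : C} {x₀ : ℕ} {η : S → Bool} {a c : S}
    (ht : J.T Γ₁ (.pi A B) (.sort c)) (hA : J.T Γ₁ A (.sort a))
    (hA' : QQ J idx i A Γ₁ x₀ η) (hB' : PP J idx i B (J.cons A Γ₁) (x₀ + 1) η) :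
    PP J idx i (.pi A B) Γ₁ x₀ η := by
  intro τ Γ₂ D σ₁ e₁ σ₂ e₂ T' v h hJ
  have h1 := (h.tm_iff ht).1 hJ.tm
  obtain ⟨A', B', rfl, hs⟩ := h.pi hA
  refine ⟨h1, hJ.inW, fun hH D' r hr hw u hu η' => ?_⟩
  have hH' : ¬ Cg J idx (i + 1) D (sub (ers σ₁) (.pi A B)) :=
    fun a => hH (a.conv h.eqs)
  obtain ⟨s1, s2⟩ := hs D' r hr hw
  have hu1 := hA' _ _ _ _ _ _ _ _ u s1 hu
  exact hB' _ _ _ _ _ _ _ _ _ (s2 u η' hu.tm) (hJ.2.2 hH' D' r hr hw u hu1 η')

theorem QQ_pi {A B : Term S} {Γ₁ : C} {x₀ : ℕ} {η : S → Bool} {a c : S}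
    (ht : J.T Γ₁ (.pi A B) (.sort c)) (hA : J.T Γ₁ A (.sort a))
    (hA' : PP J idx i A Γ₁ x₀ η) (hB' : QQ J idx i B (J.cons A Γ₁) (x₀ + 1) η) :
    QQ J idx i (.pi A B) Γ₁ x₀ η := by
  intro τ Γ₂ D σ₁ e₁ σ₂ e₂ T' v h hJ
  have h1 := (h.tm_iff ht).2 hJ.tm
  obtain ⟨A', B', rfl, hs⟩ := h.pi hA
  refine ⟨h1, hJ.inW, fun hH D' r hr hw u hu η' => ?_⟩
  have hH' : ¬ Cg J idx (i + 1) D (sub (ers σ₂) (.pi A' B')) :=
    fun a => hH (a.conv (BetaEq.symm h.eqs))
  obtain ⟨s1, s2⟩ := hs D' r hr hw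
  have hu1 := hA' _ _ _ _ _ _ _ _ u s1 hu
  exact hB' _ _ _ _ _ _ _ _ _ (s2 u η' hu1.tm) (hJ.2.2 hH' D' r hr hw u hu1 η')

/-- even strongly connected components -/
theorem inst_even (chi : S → Bool)
    (hm : ∀ a b c, P.rule a b c → idx c ≤ idx a ∧ idx c ≤ idx b)
    (hE : ∀ a b c, P.rule a b c → idx c = i → (idx a = i → chi a = !chi c) ∧
      (idx b = i → chi b = chi c)) {T : Term S} :
    ∀ {Γ₁ : C} {x₀ : ℕ} {c : S}, Normal T → J.T Γ₁ T (.sort c) → i ≤ idx c →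
      PP J idx i T Γ₁ x₀ (fun s => chi s != chi c) ∧
      QQ J idx i T Γ₁ x₀ (fun s => chi s == chi c) := by
  induction T with
  | var x =>
      intro Γ₁ x₀ c _ ht _
      exact ⟨PP_neu (.var x) ht (by simp), QQ_neu (.var x) ht (by simp)⟩
  | app M N _ _ =>
      intro Γ₁ x₀ c hn ht _
      exact ⟨PP_neu (neu_of_normal hn ht) ht (by simp),
        QQ_neu (neu_of_normal hn ht) ht (by simp)⟩
  | sort t => intro Γ₁ x₀ c _ ht _; exact ⟨PP_sort ht, QQ_sort ht⟩
  | lam A M _ _ =>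
      intro Γ₁ x₀ c _ ht _
      obtain ⟨B, t, _, _, e⟩ := J.gen_lam ht
      exact (not_sort_pi e).elim
  | pi A B ihA ihB =>
      intro Γ₁ x₀ c hn ht hc
      obtain ⟨a, b, c', hA, hB, hr, e⟩ := J.gen_pi ht
      have e := sort_inj e
      subst e
      obtain ⟨nA, nB⟩ := normal_pi hn
      obtain ⟨ma, mb⟩ := hm a b c hr
      rcases Nat.lt_or_ge i (idx c) with hlt | hge
      · exact ⟨PP_high ht hlt, QQ_high ht hlt⟩
      have hci : idx c = i := Nat.le_antisymm hge hc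
      obtain ⟨ea, eb⟩ := hE a b c hr hci
      have kA : QQ J idx i A Γ₁ x₀ (fun s => chi s != chi c) ∧
          PP J idx i A Γ₁ x₀ (fun s => chi s == chi c) := by
        rcases Nat.lt_or_ge i (idx a) with h | h
        · exact ⟨QQ_high hA h, PP_high hA h⟩
        · have h' : idx a = i := Nat.le_antisymm h (hci ▸ ma)
          obtain ⟨k1, k2⟩ := ihA (x₀ := x₀) nA hA (Nat.le_of_eq h'.symm)
          rw [ea h'] at k1 k2
          have f1 : (fun s => chi s == !chi c) = fun s => chi s != chi c := by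
            funext s; cases chi s <;> cases chi c <;> rfl
          have f2 : (fun s => chi s != !chi c) = fun s => chi s == chi c := by
            funext s; cases chi s <;> cases chi c <;> rfl
          rw [f1] at k2
          rw [f2] at k1
          exact ⟨k2, k1⟩
      have kB : PP J idx i B (J.cons A Γ₁) (x₀ + 1) (fun s => chi s != chi c) ∧
          QQ J idx i B (J.cons A Γ₁) (x₀ + 1) (fun s => chi s == chi c) := by
        rcases Nat.lt_or_ge i (idx b) with h | h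
        · exact ⟨PP_high hB h, QQ_high hB h⟩
        · have h' : idx b = i := Nat.le_antisymm h (hci ▸ mb)
          have k := ihB (x₀ := x₀ + 1) nB hB (Nat.le_of_eq h'.symm)
          rw [eb h'] at k
          exact k
      exact ⟨PP_pi ht hA kA.1 kB.1, QQ_pi ht hA kA.2 kB.2⟩

/-- unary strongly connected components -/
theorem inst_unary
    (hm : ∀ a b c, P.rule a b c → idx c ≤ idx a ∧ idx c ≤ idx b)
    (hU : ∀ a b c, P.rule a b c → idx c = i → ¬ (idx a = i ∧ idx b = i)) {T : Term S} :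
    ∀ {Γ₁ : C} {x₀ : ℕ} {c : S}, Normal T → J.T Γ₁ T (.sort c) → i ≤ idx c →
      (∃ η, PP J idx i T Γ₁ x₀ η) ∧ (∃ η, QQ J idx i T Γ₁ x₀ η) := by
  induction T with
  | var x =>
      intro Γ₁ x₀ c _ ht _
      exact ⟨⟨fun _ => false, PP_neu (.var x) ht (by simp)⟩,
        ⟨fun _ => true, QQ_neu (.var x) ht (by simp)⟩⟩
  | app M N _ _ =>
      intro Γ₁ x₀ c hn ht _
      exact ⟨⟨fun _ => false, PP_neu (neu_of_normal hn ht) ht (by simp)⟩,
        ⟨fun _ => true, QQ_neu (neu_of_normal hn ht) ht (by simp)⟩⟩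
  | sort t =>
      intro Γ₁ x₀ c _ ht _
      exact ⟨⟨fun _ => true, PP_sort ht⟩, ⟨fun _ => true, QQ_sort ht⟩⟩
  | lam A M _ _ =>
      intro Γ₁ x₀ c _ ht _
      obtain ⟨B, t, _, _, e⟩ := J.gen_lam ht
      exact (not_sort_pi e).elim
  | pi A B ihA ihB =>
      intro Γ₁ x₀ c hn ht hc
      obtain ⟨a, b, c', hA, hB, hr, e⟩ := J.gen_pi ht
      have e := sort_inj e
      subst e
      obtain ⟨nA, nB⟩ := normal_pi hn
      obtain ⟨ma, mb⟩ := hm a b c hr
      rcases Nat.lt_or_ge i (idx c) with hlt | hge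
      · exact ⟨⟨fun _ => true, PP_high ht hlt⟩, ⟨fun _ => true, QQ_high ht hlt⟩⟩
      have hci : idx c = i := Nat.le_antisymm hge hc
      rcases Nat.lt_or_ge i (idx a) with h | h
      · rcases Nat.lt_or_ge i (idx b) with h2 | h2
        · exact ⟨⟨fun _ => true, PP_pi ht hA (QQ_high hA h) (PP_high hB h2)⟩,
            ⟨fun _ => true, QQ_pi ht hA (PP_high hA h) (QQ_high hB h2)⟩⟩
        · obtain ⟨⟨η1, k1⟩, ⟨η2, k2⟩⟩ := ihB (x₀ := x₀ + 1) nB hB (hci ▸ mb)
          exact ⟨⟨η1, PP_pi ht hA (QQ_high hA h) k1⟩,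
            ⟨η2, QQ_pi ht hA (PP_high hA h) k2⟩⟩
      · have h' : idx a = i := Nat.le_antisymm h (hci ▸ ma)
        have h2 : i < idx b := by
          rcases Nat.lt_or_ge i (idx b) with h2 | h2
          · exact h2
          · exact (hU a b c hr hci ⟨h', Nat.le_antisymm h2 (hci ▸ mb)⟩).elim
        obtain ⟨⟨η1, k1⟩, ⟨η2, k2⟩⟩ := ihA (x₀ := x₀) nA hA (hci ▸ ma)
        exact ⟨⟨η2, PP_pi ht hA k2 (PP_high hB h2)⟩,
          ⟨η1, QQ_pi ht hA k1 (QQ_high hB h2)⟩⟩

end Crest.Agent.R298.G2S488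
end

-- ▼ part R298/AA_961
section

/-!
R298 (S0452), helper961: the fundamental lemma of abstract adequacy, `Stage J idx i → WNi J idx i`.
-/

set_option autoImplicit false

namespace Crest.Agent.R298.AA961

open Crest.LogicCS.PTS Crest.LogicCS.PTS.Term Relation
open Crest.Agent.R298.Sub452 Crest.Agent.R298.Par452 Crest.Agent.R298.Mem360
open Crest.Agent.R298.Mem360.MT Crest.Agent.R298.Jd961 Crest.Agent.R298.Jd961.Jd
open Crest.Agent.R298.MW961

universe u v w

variable {S : Type u} {P : Spec S} {C : Type v} {J : Jd P C} {idx : S → ℕ}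


theorem tyOk_of {G : C} {M T : Term S} (h : J.T G M T) : TyOk J G T := J.type_correct h

theorem tyOk_typed {G : C} {T A B : Term S} (h : TyOk J G T) (e : BetaEq T (.pi A B)) :
    ∃ s, J.T G T (.sort s) := by
  rcases h with ⟨s, rfl⟩ | h
  · exact (not_sort_pi e).elim
  · exact h

/-- instantiation of a codomain after a renaming -/
theorem sub_ext {es es' : ℕ → Term S} {r : ℕ → ℕ} (h : ∀ x, es' (x + 1) = ren r (es x))
    (B : Term S) : sub es' B = inst (es' 0) (ren (up r) (sub (ups es) B)) := by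
  have h1 : es' = scons (es' 0) (fun x => ren r (es x)) := by
    funext x
    cases x with
    | zero => rfl
    | succ x => exact h x
  conv_lhs => rw [h1]
  rw [sub_scons, ren_sub, ren_comp_ups]

theorem msub_ext {es es' : ℕ → MT S} {r : ℕ → ℕ} (h : ∀ x, es' (x + 1) = mren r (es x))
    (B : MT S) : msub es' B = minst (es' 0) (mren (up r) (msub (mups es) B)) := by
  have h1 : es' = mscons (es' 0) (fun x => mren r (es x)) := by
    funext x
    cases x with
    | zero => rfl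
    | succ x => exact h x
  conv_lhs => rw [h1]
  rw [msub_mscons, mren_msub, mren_comp_mups]

section

variable {i : ℕ} (X : Stage0.{u, v, w} J idx i)

/-- the erased substitution of an environment -/
abbrev es (ρ : X.Env) : ℕ → Term S := fun x => er (X.sb ρ x)

variable {X}

theorem es_ext {G : C} {A : Term S} {ρ ρ' : X.Env} {r : ℕ → ℕ} (o : X.Ok G ρ)
    (h : X.Ext G A ρ r ρ') (x : ℕ) : es X ρ' (x + 1) = ren r (es X ρ x) := by
  simp only [es, X.ext_sb o h, er_mren]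

theorem typ {G : C} {ρ : X.Env} {M : MT S} {T : Term S} (o : X.Ok G ρ) (hM : MOk J M G)
    (h : J.T G (er M) T) : MOk J (msub (X.sb ρ) M) (X.tgt ρ) ∧
      J.T (X.tgt ρ) (er (msub (X.sb ρ) M)) (sub (es X ρ) T) := by
  refine ⟨hM.msub (X.wf o) (X.msb o), ?_⟩
  rw [er_msub]
  exact J.tsub h (X.wf o) (X.msb o).1

/-- values of variables are weakly normalising -/
theorem env_W {G : C} {ρ : X.Env} {x : ℕ} {A : Term S} (w : J.Wf G) (o : X.Ok G ρ)
    (h : J.Dc G x A) : W J idx (i + 1) (X.tgt ρ) (X.sb ρ x) := by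
  by_cases hc : Cg J idx i G A
  · exact X.R_W w o (tyOk_of (J.tvar w h)) hc (X.var_R w o h hc)
  · exact (X.var_Ne w o h hc).w

theorem app_typ {G : C} {ρ ρ' : X.Env} {r : ℕ → ℕ} {A B : Term S} {v : MT S}
    (o : X.Ok G ρ) (he : X.Ext G A ρ r ρ') (hm : MOk J v (X.tgt ρ))
    (hv : J.T (X.tgt ρ) (er v) (sub (es X ρ) (.pi A B))) :
    MOk J (.app (mren r v) (X.sb ρ' 0)) (X.tgt ρ') ∧
      J.T (X.tgt ρ') (er (.app (mren r v) (X.sb ρ' 0))) (sub (es X ρ') B) := by
  have o' := X.ext_ok o he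
  have hr := X.ext_ren o he
  have w' := X.wf o'
  have h0 : J.Dc (J.cons A G) 0 (wk A) := J.dc_zero.2 rfl
  have hw := (X.msb o').1 0 _ h0
  have e1 : sub (fun x => er (X.sb ρ' x)) (wk A) = ren r (sub (es X ρ) A) := by
    rw [wk, sub_ren, ren_sub]
    congr 1
    funext x
    exact es_ext o he x
  rw [e1] at hw
  have hv' := tren hv w' hr
  rw [sub_pi, ren_pi, ← er_mren] at hv'
  have h2 := J.tappl hv' hw
  have e2 := sub_ext (es_ext o he) B
  rw [e2]
  exact ⟨⟨⟨_, h2⟩, hm.mren w' hr, (X.msb o').2 0 _ h0⟩, h2⟩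

theorem hi_cod (hrule : ∀ a b c, P.rule a b c → idx c ≤ idx a ∧ idx c ≤ idx b)
    {k : ℕ} {G : C} {ρ ρ' : X.Env} {r : ℕ → ℕ} {A B : Term S} {s : S}
    (o : X.Ok G ρ) (he : X.Ext G A ρ r ρ') (hp : J.T G (.pi A B) (.sort s))
    (hk : Cg J idx k (X.tgt ρ) (sub (es X ρ) (.pi A B))) :
    Cg J idx k (X.tgt ρ') (sub (es X ρ') B) := by
  have o' := X.ext_ok o he
  have hr := X.ext_ren o he
  have w' := X.wf o'
  have h1 := hk.ren w' hr
  rw [sub_pi, ren_pi] at h1
  have h2 := tren (J.tsub hp (X.wf o) (X.msb o).1) w' hr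
  rw [sub_pi, ren_pi] at h2
  obtain ⟨s', hs'⟩ := dom_pi h2
  obtain ⟨-, h3⟩ := h1.of_pi hrule w' (BetaEq.refl _) hs'
  have h0 : J.Dc (J.cons A G) 0 (wk A) := J.dc_zero.2 rfl
  have hw := (X.msb o').1 0 _ h0
  have e1 : sub (fun x => er (X.sb ρ' x)) (wk A) = ren r (sub (es X ρ) A) := by
    rw [wk, sub_ren, ren_sub]
    congr 1
    funext x
    exact es_ext o he x
  rw [e1] at hw
  rw [sub_ext (es_ext o he) B]
  exact h3.sub w' (sb_scons (sb_var w') (by rwa [sub_id]))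

/-- **Lemma U** -/
theorem lemU (hrule : ∀ a b c, P.rule a b c → idx c ≤ idx a ∧ idx c ≤ idx b)
    {T1 T2 : Term S} (h : TE T1 T2) : ∀ {U1 U2 : Term S}, BetaEq U1 T1 → BetaEq U2 T2 →
    ∀ {G : C} {ρ : X.Env} {v : MT S}, J.Wf G → X.Ok G ρ → TyOk J G U1 → TyOk J G U2 →
    Cg J idx i G U1 → MOk J v (X.tgt ρ) → J.T (X.tgt ρ) (er v) (sub (es X ρ) U1) →
    J.T (X.tgt ρ) (er v) (sub (es X ρ) U2) → W J idx (i + 1) (X.tgt ρ) v →
    (Cg J idx i G U2 ∧ X.R G ρ U2 v) ∨ Cg J idx (i + 1) (X.tgt ρ) (sub (es X ρ) U2) →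
    X.R G ρ U1 v := by
  induction h with
  | @eq A B e =>
      intro U1 U2 e1 e2 G ρ v w o t1 t2 c1 mv v1 v2 wv hd
      have e3 : BetaEq U2 U1 := BetaEq.trans e2 (BetaEq.trans (BetaEq.symm e) (BetaEq.symm e1))
      rcases hd with ⟨c2, hR⟩ | hh
      · exact X.R_conv w o t2 t1 c2 e3 hR
      · exact X.R_high w o t1 c1 (hh.conv (BetaEq.sub e3 _)) mv v1 wv
  | @srt A B s t eA eB =>
      intro U1 U2 e1 e2 G ρ v w o t1 t2 c1 mv v1 v2 wv hd
      have e3 : BetaEq U1 (.sort s) := BetaEq.trans e1 eA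
      refine X.R_conv w o (.inl ⟨s, rfl⟩) t1 (c1.conv e3) (BetaEq.symm e3) ?_
      refine X.R_sort w o (c1.conv e3) mv ?_ wv
      exact sort_of_eq v1 (BetaEq.sub e3 _)
  | @prd A B D E E' eA eB _ ih =>
      intro U1 U2 e1 e2 G ρ v w o t1 t2 c1 mv v1 v2 wv hd
      have e1' := BetaEq.trans e1 eA
      have e2' := BetaEq.trans e2 eB
      obtain ⟨A1, B1, r1, a1, b1⟩ := red_of_eq_pi e1'
      obtain ⟨A2, B2, r2, a2, b2⟩ := red_of_eq_pi e2'
      obtain ⟨A3, a13, a23⟩ := confluence a1 a2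
      have r1' : Red U1 (.pi A3 B1) := r1.trans (Red.pi a13 .refl)
      have r2' : Red U2 (.pi A3 B2) := r2.trans (Red.pi a23 .refl)
      obtain ⟨s1, hs1⟩ := tyOk_typed t1 e1'
      obtain ⟨s2, hs2⟩ := tyOk_typed t2 e2'
      have p1 := J.sr hs1 r1'
      have p2 := J.sr hs2 r2'
      have c1' := c1.conv (Red.eq r1')
      have q1 := J.tconv v1 (J.tsub p1 (X.wf o) (X.msb o).1) (BetaEq.sub (Red.eq r1') _)
      have q2 := J.tconv v2 (J.tsub p2 (X.wf o) (X.msb o).1) (BetaEq.sub (Red.eq r2') _)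
      have hd' : (Cg J idx i G (.pi A3 B2) ∧ X.R G ρ (.pi A3 B2) v) ∨
          Cg J idx (i + 1) (X.tgt ρ) (sub (es X ρ) (.pi A3 B2)) := by
        rcases hd with ⟨c2, hR⟩ | hh
        · exact .inl ⟨c2.conv (Red.eq r2'), X.R_conv w o t2 (.inr ⟨s2, p2⟩) c2 (Red.eq r2') hR⟩
        · exact .inr (hh.conv (BetaEq.sub (Red.eq r2') _))
      refine X.R_conv w o (.inr ⟨s1, p1⟩) t1 c1' (BetaEq.symm (Red.eq r1')) ?_
      by_cases hh1 : Cg J idx (i + 1) (X.tgt ρ) (sub (es X ρ) (.pi A3 B1))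
      · exact X.R_high w o (.inr ⟨s1, p1⟩) c1' hh1 mv q1 wv
      refine X.R_pi w o p1 c1' hh1 mv q1 wv ?_
      intro r ρ' he
      obtain ⟨s3, hA3⟩ := dom_pi p1
      have w3 := J.wf_cons w hA3
      have o' := X.ext_ok o he
      obtain ⟨m', v1'⟩ := app_typ o he mv q1
      obtain ⟨-, v2'⟩ := app_typ o he mv q2
      obtain ⟨_, _, _, _, hB1, _⟩ := J.gen_pi p1
      obtain ⟨_, _, _, _, hB2, _⟩ := J.gen_pi p2
      obtain ⟨-, cB1⟩ := c1'.of_pi hrule w (BetaEq.refl _) hA3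
      have hd3 : W J idx (i + 1) (X.tgt ρ') (.app (mren r v) (X.sb ρ' 0)) ∧
          ((Cg J idx i (J.cons A3 G) B2 ∧
            X.R (J.cons A3 G) ρ' B2 (.app (mren r v) (X.sb ρ' 0))) ∨
          Cg J idx (i + 1) (X.tgt ρ') (sub (es X ρ') B2)) := by
        by_cases hh2 : Cg J idx (i + 1) (X.tgt ρ) (sub (es X ρ) (.pi A3 B2))
        · refine ⟨?_, .inr (hi_cod hrule o he p2 hh2)⟩
          have hr := X.ext_ren o he
          have w' := X.wf o'
          refine W.app_high (wv.mren mv (X.wf o) w' hr) (env_W w3 o' (J.dc_zero.2 rfl))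
            (T := ren r (sub (es X ρ) (.pi A3 B2))) ?_ (hh2.ren w' hr)
          rw [er_mren]
          exact tren q2 w' hr
        · rcases hd' with ⟨c2, hR⟩ | hh
          · obtain ⟨-, cB2⟩ := c2.of_pi hrule w (BetaEq.refl _) hA3
            have h3 := X.R_app w o p2 c2 hh2 hR he
            exact ⟨X.R_W w3 o' (.inr ⟨_, hB2⟩) cB2 h3, .inl ⟨cB2, h3⟩⟩
          · exact (hh2 hh).elim
      exact ih (BetaEq.symm (Red.eq b1)) (BetaEq.symm (Red.eq b2)) w3 o' (.inr ⟨_, hB1⟩)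
        (.inr ⟨_, hB2⟩) cB1 m' v1' v2' hd3.1 hd3.2

/-- **the fundamental lemma** -/
theorem fund (hrule : ∀ a b c, P.rule a b c → idx c ≤ idx a ∧ idx c ≤ idx b)
    (M : MT S) : ∀ {G : C} {ρ : X.Env}, J.Wf G → X.Ok G ρ → MOk J M G → NF J idx i M G →
    W J idx (i + 1) (X.tgt ρ) (msub (X.sb ρ) M) ∧
    (∀ T, J.T G (er M) T → Cg J idx i G T → X.R G ρ T (msub (X.sb ρ) M)) ∧
    ((∃ A B, J.T G (er M) (.pi A B)) → (∀ T, J.T G (er M) T → ¬ Cg J idx i G T) → ¬ IsL M →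
      Ne J idx (i + 1) (X.tgt ρ) (msub (X.sb ρ) M)) := by
  induction M with
  | var x =>
      intro G ρ w o mM nM
      obtain ⟨A, hA⟩ := mM
      obtain ⟨B, hB, e⟩ := J.gen_var hA
      have hvB := J.tvar w hB
      by_cases hc : Cg J idx i G B
      · have hR := X.var_R w o hB hc
        refine ⟨X.R_W w o (tyOk_of hvB) hc hR, ?_, ?_⟩
        · intro T hT cT
          obtain ⟨B', hB', e'⟩ := J.gen_var hT
          obtain rfl := J.dc_unique hB hB'
          exact X.R_conv w o (tyOk_of hvB) (tyOk_of hT) hc (BetaEq.symm e') hR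
        · intro _ hl
          exact (hl B hvB hc).elim
      · have hN := X.var_Ne w o hB hc
        refine ⟨hN.w, ?_, fun _ _ _ => hN⟩
        intro T hT cT
        obtain ⟨B', hB', e'⟩ := J.gen_var hT
        obtain rfl := J.dc_unique hB hB'
        exact (hc (cT.conv e')).elim
  | sort s =>
      intro G ρ w o mM nM
      refine ⟨W.sort s, ?_, ?_⟩
      · intro T hT cT
        obtain ⟨s', hs', e⟩ := J.gen_sort hT
        have hT' : J.T G (er (.sort s : MT S)) (.sort s') := sort_of_eq hT e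
        refine X.R_conv w o (.inl ⟨s', rfl⟩) (tyOk_of hT) (cT.conv e) (BetaEq.symm e) ?_
        obtain ⟨m', h'⟩ := typ (X := X) o mM hT'
        exact X.R_sort w o (cT.conv e) m' h' (W.sort s)
      · rintro ⟨A, B, h⟩
        obtain ⟨s', _, e⟩ := J.gen_sort h
        exact (not_sort_pi (BetaEq.symm e)).elim
  | app F N ihF ihN =>
      intro G ρ w o mM nM
      obtain ⟨⟨D, hD⟩, mF, mN⟩ := mM
      obtain ⟨nL, nF, nN⟩ := nM
      obtain ⟨F1, F2, F3⟩ := ihF w o mF nF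
      obtain ⟨N1, N2, -⟩ := ihN w o mN nN
      obtain ⟨A, B, hF, hN, -⟩ := J.gen_app hD
      by_cases hc : ∃ T, J.T G (er F) T ∧ Cg J idx i G T
      · obtain ⟨T, hT, cT⟩ := hc
        obtain ⟨B', eT, -⟩ := (jutting J hF hT).left_pi
        obtain ⟨A1, B1, r1, a1, b1⟩ := red_of_eq_pi eT
        have hF1 := red_type hT r1
        have c1 := cT.conv (Red.eq r1)
        obtain ⟨s1, hp⟩ := pi_typed hF1
        obtain ⟨s2, hA1⟩ := dom_pi hp
        have hN1 : J.T G (er N) A1 := J.tconv hN hA1 (Red.eq a1)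
        obtain ⟨cA1, cB1⟩ := c1.of_pi hrule w (BetaEq.refl _) hA1
        have hap : J.T G (er (.app F N)) (inst (er N) B1) := J.tappl hF1 hN1
        have cI : Cg J idx i G (inst (er N) B1) :=
          cB1.sub w (sb_scons (sb_var w) (by rwa [sub_id]))
        have mA : MOk J (.app F N) G := ⟨⟨D, hD⟩, mF, mN⟩
        obtain ⟨mF', tF'⟩ := typ (X := X) o mF hF1
        obtain ⟨mN', tN'⟩ := typ (X := X) o mN hN1
        have hd : W J idx (i + 1) (X.tgt ρ) (msub (X.sb ρ) (.app F N)) ∧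
            ((Cg J idx i G (inst (er N) B1) ∧
              X.R G ρ (inst (er N) B1) (msub (X.sb ρ) (.app F N))) ∨
            Cg J idx (i + 1) (X.tgt ρ) (sub (es X ρ) (inst (er N) B1))) := by
          by_cases hh : Cg J idx (i + 1) (X.tgt ρ) (sub (es X ρ) (.pi A1 B1))
          · refine ⟨W.app_high F1 N1 tF' hh, .inr ?_⟩
            rw [sub_pi] at hh
            have h4 := J.tsub hA1 (X.wf o) (X.msb o).1
            obtain ⟨-, h3⟩ := hh.of_pi hrule (X.wf o) (BetaEq.refl _) h4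
            rw [sub_inst]
            rw [er_msub] at tN'
            exact h3.sub (X.wf o) (sb_scons (sb_var (X.wf o)) (by rwa [sub_id]))
          · have hRF := F2 _ hF1 c1
            have hRN := N2 _ hN1 cA1
            obtain ⟨ρ', he, et, e0, hinc⟩ := X.R_inst w o hp c1 hh mN hN1 hRN
            have h5 := X.R_app w o hp c1 hh hRF he
            rw [mren_id, e0] at h5
            obtain ⟨m5, -⟩ := typ (X := X) o mA hap
            have h6 := hinc _ m5 h5
            exact ⟨X.R_W w o (tyOk_of hap) cI h6, .inl ⟨cI, h6⟩⟩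
        refine ⟨hd.1, ?_, ?_⟩
        · intro T' hT' cT'
          obtain ⟨m5, t5⟩ := typ (X := X) o mA hT'
          obtain ⟨-, t6⟩ := typ (X := X) o mA hap
          exact lemU hrule (jutting J hT' hap) (BetaEq.refl _) (BetaEq.refl _) w o (tyOk_of hT')
            (tyOk_of hap) cT' m5 t5 t6 hd.1 hd.2
        · intro _ hl
          exact (hl _ hap cI).elim
      · have hl : ∀ T, J.T G (er F) T → ¬ Cg J idx i G T := fun T h1 h2 => hc ⟨T, h1, h2⟩
        have hnL : ¬ IsL F := fun h => by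
          obtain ⟨T, h1, h2⟩ := nL h
          exact hl T h1 h2
        have hNe := (F3 ⟨A, B, hF⟩ hl hnL).app N1
        refine ⟨hNe.w, ?_, fun _ _ _ => hNe⟩
        intro T hT cT
        have mA : MOk J (.app F N) G := ⟨⟨D, hD⟩, mF, mN⟩
        obtain ⟨m5, t5⟩ := typ (X := X) o mA hT
        exact X.R_ne w o (tyOk_of hT) cT m5 t5 hNe
  | lam A M ihA ihM =>
      intro G ρ w o mM nM
      have mL := mM
      obtain ⟨⟨D, hD⟩, mA, mM⟩ := mM
      obtain ⟨nA, nM⟩ := nM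
      obtain ⟨s0, hs0⟩ := dom_lam hD
      obtain ⟨A1, -, -⟩ := ihA w o mA nA
      have w1 := J.wf_cons w hs0
      have hW : W J idx (i + 1) (X.tgt ρ) (msub (X.sb ρ) (.lam A M)) := by
        obtain ⟨r, ρ', he, hf⟩ := X.fresh w o hs0 M mM
        obtain ⟨M1, -, -⟩ := ihM w1 (X.ext_ok o he) mM nM
        have h1 := hf M1
        rw [← er_msub] at h1
        exact W.lam A1 h1 (typ (X := X) o mL hD).1 (X.wf o)
      refine ⟨hW, ?_, fun _ _ h => (h trivial).elim⟩
      intro T hT cT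
      obtain ⟨B, s, hM, hp, e⟩ := J.gen_lam hT
      have cP := cT.conv e
      have hL : J.T G (er (.lam A M)) (.pi (er A) B) := J.tabs hM hp
      obtain ⟨m5, t5⟩ := typ (X := X) o mL hL
      refine X.R_conv w o (.inr ⟨s, hp⟩) (tyOk_of hT) cP (BetaEq.symm e) ?_
      by_cases hh : Cg J idx (i + 1) (X.tgt ρ) (sub (es X ρ) (.pi (er A) B))
      · exact X.R_high w o (.inr ⟨s, hp⟩) cP hh m5 t5 hW
      refine X.R_pi w o hp cP hh m5 t5 hW ?_
      intro r ρ' he
      have o' := X.ext_ok o he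
      have hr := X.ext_ren o he
      have w' := X.wf o'
      obtain ⟨m6, t6⟩ := app_typ o he m5 t5
      obtain ⟨-, cB⟩ := cP.of_pi hrule w (BetaEq.refl _) hs0
      have tB : TyOk J (J.cons (er A) G) B := tyOk_of hM
      obtain ⟨-, M2, -⟩ := ihM w1 o' mM nM
      have hR := M2 B hM cB
      have hd : dist (mren r (msub (X.sb ρ) (.lam A M))) (X.sb ρ' 0) =
          some (mem (mem (msub (X.sb ρ') M) (X.sb ρ' 0)) (mren r (msub (X.sb ρ) A))) := by
        rw [msub_lam, mren_lam, dist_lam, msub_ext (X.ext_sb o he) M]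
      refine X.R_beta w1 o' tB cB m6 t6 hd ?_
      have mA' := (mA.msub (X.wf o) (X.msb o)).mren w' hr
      have h0 : J.Dc (J.cons (er A) G) 0 (wk (er A)) := J.dc_zero.2 rfl
      refine X.R_mem w1 o' tB cB mA' (A1.mren (mA.msub (X.wf o) (X.msb o)) (X.wf o) w' hr) ?_
      exact X.R_mem w1 o' tB cB ((X.msb o').2 0 _ h0) (env_W w1 o' h0) hR
  | pi A M ihA ihM =>
      intro G ρ w o mM nM
      have mL := mM
      obtain ⟨⟨D, hD⟩, mA, mM⟩ := mM
      obtain ⟨nA, nM⟩ := nM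
      obtain ⟨s0, hs0⟩ := dom_pi hD
      obtain ⟨A1, -, -⟩ := ihA w o mA nA
      have w1 := J.wf_cons w hs0
      have hW : W J idx (i + 1) (X.tgt ρ) (msub (X.sb ρ) (.pi A M)) := by
        obtain ⟨r, ρ', he, hf⟩ := X.fresh w o hs0 M mM
        obtain ⟨M1, -, -⟩ := ihM w1 (X.ext_ok o he) mM nM
        have h1 := hf M1
        rw [← er_msub] at h1
        exact W.pi A1 h1 (typ (X := X) o mL hD).1 (X.wf o)
      refine ⟨hW, ?_, ?_⟩
      · intro T hT cT
        obtain ⟨_, _, s', _, _, _, e⟩ := J.gen_pi hT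
        have hT' : J.T G (er (.pi A M)) (.sort s') := sort_of_eq hT e
        refine X.R_conv w o (.inl ⟨s', rfl⟩) (tyOk_of hT) (cT.conv e) (BetaEq.symm e) ?_
        obtain ⟨m', h'⟩ := typ (X := X) o mL hT'
        exact X.R_sort w o (cT.conv e) m' h' hW
      · rintro ⟨A', B', h⟩
        obtain ⟨_, _, s', _, _, _, e⟩ := J.gen_pi h
        exact (not_sort_pi (BetaEq.symm e)).elim
  | mem M N ihM ihN =>
      intro G ρ w o mM nM
      obtain ⟨M1, M2, M3⟩ := ihM w o mM.1 nM.1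
      obtain ⟨N1, -, -⟩ := ihN w o mM.2 nM.2
      refine ⟨M1.mem N1, ?_, ?_⟩
      · intro T hT cT
        exact X.R_mem w o (tyOk_of hT) cT (mM.2.msub (X.wf o) (X.msb o)) N1 (M2 T hT cT)
      · intro h1 h2 h3
        exact (M3 h1 h2 h3).mem N1

end

/-- **abstract adequacy** -/
theorem WNi_of_stage (hrule : ∀ a b c, P.rule a b c → idx c ≤ idx a ∧ idx c ≤ idx b)
    {i : ℕ} (X : Stage.{u, v, w} J idx i) : WNi J idx i := by
  intro G M w mM nM
  obtain ⟨ρ, o, h⟩ := X.ident w M mM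
  exact h (fund (X := X.toStage0) hrule M w o mM nM).1



end Crest.Agent.R298.AA961
end

-- ▼ part R298/G2T_488
section

/-!
R298 (S0452), helper488: the unipolar model as a `Stage` of `StM_961`, for any judgement
`J : Jd P C`; result `stage_unipolar`.
-/

set_option autoImplicit false

namespace Crest.Agent.R298.G2S488

open Crest.LogicCS.PTS Relation
open Crest.Agent.R298.Sub452 Crest.Agent.R298.Par452 Crest.Agent.R298.Mem360
open Crest.Agent.R298.Mem360.MT (er emb mren mwk mups msub mscons minst dist IsL mren_mren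
  er_mren dist_mren mren_app mren_mem mren_id msub_id)
open Crest.Agent.R298.Jd961 Crest.Agent.R298.Jd961.Jd Crest.Agent.R298.MW961
open Crest.Agent.R298.AA961

universe u v
variable {S : Type u} {P : Spec S} {C : Type v} {J : Jd P C} {idx : S → ℕ} {i : ℕ}

/-! ### normal forms -/

open Classical in
/-- the normal form -/
noncomputable def nfo (T : Term S) : Term S :=
  if h : ∃ N, Red T N ∧ Normal N then h.choose else T

theorem nfo_spec {T : Term S} (h : WN T) : Red T (nfo T) ∧ Normal (nfo T) := by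
  have h' : ∃ N, Red T N ∧ Normal N := h
  unfold nfo
  rw [dif_pos h']
  exact h'.choose_spec

theorem nfo_eq {T N : Term S} (r : BetaEq T N) (hN : Normal N) : nfo T = N := by
  have h : WN T := ⟨N, red_of_eq_normal r hN, hN⟩
  obtain ⟨h1, h2⟩ := nfo_spec h
  exact normal_unique (BetaEq.trans (BetaEq.symm h1.eq) r) h2 hN

theorem wn_of_eq {T T' : Term S} (e : BetaEq T T') (h : WN T') : WN T := by
  obtain ⟨N, r, hN⟩ := h
  exact ⟨N, red_of_eq_normal (BetaEq.trans e (Red.eq r)) hN, hN⟩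

theorem nfo_conv {T T' : Term S} (e : BetaEq T T') (h : WN T') : nfo T = nfo T' := by
  obtain ⟨h1, h2⟩ := nfo_spec h
  exact nfo_eq (BetaEq.trans e h1.eq) h2

theorem nfo_sort (s : S) : nfo (.sort s) = .sort s :=
  nfo_eq (.refl _) (fun N h => by cases h)

theorem nfo_pi {A B : Term S} (hA : WN A) (hB : WN B) :
    nfo (.pi A B) = .pi (nfo A) (nfo B) := by
  obtain ⟨a1, a2⟩ := nfo_spec hA
  obtain ⟨b1, b2⟩ := nfo_spec hB
  refine nfo_eq (BetaEq.pi a1.eq b1.eq) ?_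
  intro N h
  cases h with
  | piA _ h => exact a2 _ h
  | piB _ h => exact b2 _ h

/-- the hypothesis: types are weakly normalising -/
def TWN (J : Jd P C) : Prop := ∀ (G : C) (A : Term S) (s : S), J.Wf G → J.T G A (.sort s) → WN A

/-- a type of class at least `i` -/
theorem cg_nf (hWN : TWN J) {G : C} (w : J.Wf G) {T : Term S} (h : Cg J idx i G T) :
    WN T ∧ ∃ c, J.T G (nfo T) (.sort c) ∧ i ≤ idx c := by
  obtain ⟨T', s, e, h1, h2⟩ := h
  have hT' := hWN G T' s w h1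
  refine ⟨wn_of_eq e hT', s, ?_, h2⟩
  rw [nfo_conv e hT']
  exact J.sr h1 (nfo_spec hT').1

/-- environments -/
structure En (S : Type u) (C : Type v) : Type (max u v) where
  D : C
  σ : ℕ → MT S
  e : ℕ → S → Bool

/-- realizers -/
def RR (J : Jd P C) (idx : S → ℕ) (i : ℕ) (G : C) (ρ : En S C) (T : Term S) (v : MT S) : Prop :=
  Rz J idx i (nfo T) G ρ.D ρ.σ ρ.e v

/-- correct environments -/
structure Ok (J : Jd P C) (idx : S → ℕ) (i : ℕ) (G : C) (ρ : En S C) : Prop where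
  wfG : J.Wf G
  wf : J.Wf ρ.D
  msb : MSb J ρ.σ G ρ.D
  vR : ∀ {x A}, J.Dc G x A → Cg J idx i G A → RR J idx i G ρ A (ρ.σ x)
  vNe : ∀ {x A}, J.Dc G x A → ¬ Cg J idx i G A → Ne J idx (i + 1) ρ.D (ρ.σ x)

/-- extensions -/
structure Ex (J : Jd P C) (idx : S → ℕ) (i : ℕ) (G : C) (A : Term S) (ρ : En S C)
    (r : ℕ → ℕ) (ρ' : En S C) : Prop where
  ren : Sb J (fun x => .var (r x)) ρ.D ρ'.D
  wf : J.Wf ρ'.D
  ty : ∃ s, J.T G A (.sort s)
  val : ∃ (u : MT S) (η : S → Bool), ρ'.σ = mscons u (fun n => mren r (ρ.σ n)) ∧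
    ρ'.e = ccons η ρ.e ∧ Tv J ρ'.D u (sub (ers (fun n => mren r (ρ.σ n))) A) ∧
    (Cg J idx i G A → Rz J idx i (nfo A) G ρ'.D (fun n => mren r (ρ.σ n)) ρ.e u) ∧
    (¬ Cg J idx i G A → Ne J idx (i + 1) ρ'.D u)


/-- from a type to its normal form -/
theorem tv_nf (hWN : TWN J) {G D : C} {σ : ℕ → MT S} (w : J.Wf G) (wD : J.Wf D)
    (hs : Sb J (ers σ) G D) {T : Term S} (hc : Cg J idx i G T) {v : MT S}
    (h : Tv J D v (sub (ers σ) T)) : Tv J D v (sub (ers σ) (nfo T)) := by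
  obtain ⟨h1, c, h2, _⟩ := cg_nf hWN w hc
  exact h.conv (J.tsub h2 wD hs) (BetaEq.sub (nfo_spec h1).1.eq _)

theorem sb_ers_ren {G D D' : C} {σ : ℕ → MT S} {r : ℕ → ℕ} (hs : Sb J (ers σ) G D)
    (hr : Sb J (fun x => .var (r x)) D D') (w' : J.Wf D') :
    Sb J (ers (fun n => mren r (σ n))) G D' := by
  intro n B hl
  rw [ers_ren]
  show J.T D' (er (mren r (σ n))) _
  rw [er_mren]
  exact tren (hs n B hl) w' hr

theorem Ex.msb {G : C} {A : Term S} {ρ ρ' : En S C} {r : ℕ → ℕ} (h : Ok J idx i G ρ)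
    (h' : Ex J idx i G A ρ r ρ') : MSb J ρ'.σ (J.cons A G) ρ'.D := by
  obtain ⟨u, η, h1, _, h3, _, _⟩ := h'.val
  rw [h1]
  refine ⟨?_, ?_⟩
  · have := sb_scons (sb_ers_ren h.msb.1 h'.ren h'.wf) h3.2
    rw [← ers_mscons] at this
    exact this
  · intro x B hB
    cases x with
    | zero => exact h3.1
    | succ x =>
        obtain ⟨B', hB', _⟩ := J.dc_succ.1 hB
        exact (h.msb.2 _ _ hB').mren h'.wf h'.ren

theorem wk_nf {T : Term S} (h : WN T) : nfo (wk T) = Sub452.ren Nat.succ (nfo T) := by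
  obtain ⟨h3, h4⟩ := nfo_spec h
  refine nfo_eq (BetaEq.ren h3.eq _) ?_
  intro N hN
  obtain ⟨N', hN', _⟩ := Ty452.beta_ren_inv hN
  exact h4 _ hN'

theorem Ex.ok (hWN : TWN J) {G : C} {A : Term S} {ρ ρ' : En S C} {r : ℕ → ℕ}
    (h : Ok J idx i G ρ) (h' : Ex J idx i G A ρ r ρ') : Ok J idx i (J.cons A G) ρ' := by
  have hm := h'.msb h
  obtain ⟨s, hA⟩ := h'.ty
  have wc := J.wf_cons h.wfG hA
  obtain ⟨u, η, h1, h2, h3, h4, h5⟩ := h'.val
  have h0 : ρ'.σ 0 = u := by rw [h1]; rfl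
  have hx : ∀ x, ρ'.σ (x + 1) = mren r (ρ.σ x) := fun x => by rw [h1]; rfl
  have hne : ∀ {x B}, J.Dc G x B → ¬ Cg J idx i G B → Ne J idx (i + 1) ρ'.D (ρ'.σ (x + 1)) := by
    intro x B hB hc
    rw [hx]
    exact (h.vNe hB hc).mren (h.msb.2 _ _ hB) h.wf h'.wf h'.ren
  have hR : ∀ {x B}, J.Dc (J.cons A G) x B → Cg J idx i (J.cons A G) B →
      Ne J idx (i + 1) ρ'.D (ρ'.σ x) → RR J idx i (J.cons A G) ρ' B (ρ'.σ x) := by
    intro x B hB hc hn
    exact Rz_ne h'.wf hn (tv_nf hWN wc h'.wf hm.1 hc ⟨hm.2 _ _ hB, hm.1 _ _ hB⟩)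
  have key : ∀ {B v}, Cg J idx i G B →
      Rz J idx i (nfo B) G ρ'.D (fun n => mren r (ρ.σ n)) ρ.e v →
      RR J idx i (J.cons A G) ρ' (wk B) v := by
    intro B v hc hv
    obtain ⟨k1, c, k2, _⟩ := cg_nf hWN h.wfG hc
    obtain ⟨k3, k4⟩ := nfo_spec k1
    unfold RR
    rw [wk_nf k1, h1, h2]
    exact (Rz_ren (σ := mscons u fun n => mren r (ρ.σ n)) (e := ccons η ρ.e) k4 k2 wc
      (sb_wk h.wfG hA)).2 hv
  refine ⟨wc, h'.wf, hm, ?_, ?_⟩
  · intro x B hB hc
    cases x with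
    | zero =>
        by_cases hA' : Cg J idx i G A
        · have := J.dc_zero.1 hB
          subst this
          rw [h0]
          exact key hA' (h4 hA')
        · exact hR hB hc (by rw [h0]; exact h5 hA')
    | succ x =>
        obtain ⟨B', hB', rfl⟩ := J.dc_succ.1 hB
        by_cases hA' : Cg J idx i G B'
        · rw [hx]
          exact key hA' ((h.vR hB' hA').mono h.wf h'.ren h'.wf)
        · exact hR hB hc (hne hB' hA')
  · intro x B hB hc
    cases x with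
    | zero =>
        have := J.dc_zero.1 hB
        subst this
        rw [h0]
        exact h5 fun hA' => hc (hA'.ren wc (sb_wk h.wfG hA))
    | succ x =>
        obtain ⟨B', hB', rfl⟩ := J.dc_succ.1 hB
        exact hne hB' fun hA' => hc (hA'.ren wc (sb_wk h.wfG hA))

/-- the semantic hypothesis: an instance which is at least as big exists -/
def HInst (J : Jd P C) (idx : S → ℕ) (i : ℕ) : Prop :=
  ∀ (T : Term S) (G : C) (c : S), Normal T → J.T G T (.sort c) → i ≤ idx c →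
    ∃ η, PP J idx i T G 0 η

theorem hinst_unary (hm : ∀ a b c, P.rule a b c → idx c ≤ idx a ∧ idx c ≤ idx b)
    (hU : Scc795.Unary P {x | idx x = i}) : HInst J idx i :=
  fun _ _ _ hn ht hc => (inst_unary hm hU hn ht hc).1

theorem hinst_even (hm : ∀ a b c, P.rule a b c → idx c ≤ idx a ∧ idx c ≤ idx b)
    (hE : Scc795.Even P {x | idx x = i}) : HInst J idx i := by
  obtain ⟨chi, hE⟩ := hE
  exact fun _ _ _ hn ht hc => ⟨_, (inst_even chi hm hE hn ht hc).1⟩

/-- **the unipolar stage model** -/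
def stage_of_inst (hWN : TWN J) (hm : ∀ a b c, P.rule a b c → idx c ≤ idx a ∧ idx c ≤ idx b)
    (hI : HInst J idx i) : Stage J idx i where
  Env := En S C
  tgt := En.D
  sb := En.σ
  Ok := Ok J idx i
  Ext := Ex J idx i
  R := RR J idx i
  wf := fun h => h.wf
  msb := fun h => h.msb
  ext_ok := fun h h' => h'.ok hWN h
  ext_ren := fun _ h' => h'.ren
  ext_sb := by
    intro G A ρ r ρ' _ h' x
    obtain ⟨u, η, h1, _⟩ := h'.val
    rw [h1]; rfl
  R_W := fun _ _ _ _ h => h.inW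
  R_ne := by
    intro G ρ T v w ok _ hc h1 h2 h3
    exact Rz_ne ok.wf h3 (tv_nf hWN w ok.wf ok.msb.1 hc ⟨h1, h2⟩)
  R_beta := by
    intro G ρ T F Q v w ok _ hc h1 h2 h3 h4
    exact Rz_exp .hole h3 (tv_nf hWN w ok.wf ok.msb.1 hc ⟨h1, h2⟩) h4
  R_mem := by
    intro G ρ T v n w ok _ hc h1 h2 h3
    exact Rz_mem .hole ok.wf h2 ⟨⟨h3.tm.1, h1⟩, h3.tm.2⟩ h3
  R_conv := by
    intro G ρ T T' v w ok _ _ hc e h
    have hT := (cg_nf hWN w hc).1
    unfold RR at h ⊢
    rwa [nfo_conv (BetaEq.symm e) hT]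
  R_high := by
    intro G ρ T v w ok _ hc h1 h2 h3 h4
    have hT := (cg_nf hWN w hc).1
    exact Rz_high (h1.conv (BetaEq.sub (nfo_spec hT).1.eq _))
      (tv_nf hWN w ok.wf ok.msb.1 hc ⟨h2, h3⟩) h4
  R_sort := by
    intro G ρ s v w ok hc h1 h2 h3
    unfold RR
    rw [nfo_sort]
    exact ⟨⟨h1, h2⟩, h3⟩
  R_pi := by
    intro G ρ A B s v w ok hp hc hn h1 h2 h3 H
    obtain ⟨a, b, c, hA, hB, _, _⟩ := J.gen_pi hp
    have wc := J.wf_cons w hA
    have nA := hWN _ _ _ w hA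
    have nB := hWN _ _ _ wc hB
    have hA' := J.sr hA (nfo_spec nA).1
    have hB' := J.sr hB (nfo_spec nB).1
    have wc' := J.wf_cons w hA'
    have cA := (Cg.of_pi hm w hc (.refl _) hA).1
    have t := tv_nf hWN w ok.wf ok.msb.1 hc ⟨h1, h2⟩
    unfold RR
    rw [nfo_pi nA nB] at t ⊢
    refine ⟨t, h3, fun _ D' r hr hw u hu η => ?_⟩
    have hx : Ex J idx i G A ρ r ⟨D', mscons u (fun n => mren r (ρ.σ n)), ccons η ρ.e⟩ := by
      refine ⟨hr, hw, ⟨a, hA⟩, u, η, rfl, rfl, ?_, fun _ => hu, fun hn => (hn cA).elim⟩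
      exact hu.tm.conv (J.tsub hA hw (sb_ers_ren ok.msb.1 hr hw))
        (BetaEq.sub (BetaEq.symm (nfo_spec nA).1.eq) _)
    have := H r _ hx
    exact (Rz_ctx (nfo_spec nB).2 hB' wc' (sb_conv w hA hA' (nfo_spec nA).1.eq)).2 this
  R_app := by
    intro G ρ A B s v r ρ' w ok hp hc hn h1 hx
    obtain ⟨a, b, c, hA, hB, _, _⟩ := J.gen_pi hp
    have wc := J.wf_cons w hA
    have nA := hWN _ _ _ w hA
    have nB := hWN _ _ _ wc hB
    have hA' := J.sr hA (nfo_spec nA).1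
    have hB' := J.sr hB (nfo_spec nB).1
    have wc' := J.wf_cons w hA'
    have cA := (Cg.of_pi hm w hc (.refl _) hA).1
    obtain ⟨u, η, e1, e2, h3, h4, _⟩ := hx.val
    have hr := hx.ren
    have hw := hx.wf
    obtain ⟨D', σ', e'⟩ := ρ'
    simp only at e1 e2
    subst e1
    subst e2
    unfold RR at h1 ⊢
    rw [nfo_pi nA nB] at h1
    have hn' : ¬ Cg J idx (i + 1) ρ.D (sub (ers ρ.σ) (.pi (nfo A) (nfo B))) := fun hh =>
      hn (hh.conv (BetaEq.sub (BetaEq.symm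
        (BetaEq.pi (nfo_spec nA).1.eq (nfo_spec nB).1.eq)) _))
    have := h1.2.2 hn' D' r hr hw u (h4 cA) η
    exact (Rz_ctx (nfo_spec nB).2 hB' wc' (sb_conv w hA hA' (nfo_spec nA).1.eq)).1 this
  R_inst := by
    intro G ρ A B s N w ok hp hc hn hN hT hR
    obtain ⟨a, b, c, hA, hB, _, _⟩ := J.gen_pi hp
    have wc := J.wf_cons w hA
    have nB := hWN _ _ _ wc hB
    obtain ⟨cA, cB⟩ := Cg.of_pi hm w hc (.refl _) hA
    obtain ⟨_, c', hB', hc'⟩ := cg_nf hWN wc cB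
    obtain ⟨η, hη⟩ := hI _ _ _ (nfo_spec nB).2 hB' hc'
    have eid : (fun n => mren (fun x => x) (ρ.σ n)) = ρ.σ := by funext n; exact mren_id _
    have hid : Sb J (fun x => .var ((fun x => x) x)) ρ.D ρ.D := sb_var ok.wf
    refine ⟨⟨ρ.D, mscons (msub ρ.σ N) (fun n => mren (fun x => x) (ρ.σ n)), ccons η ρ.e⟩,
      ⟨hid, ok.wf, ⟨a, hA⟩, _, η, rfl, rfl, ?_, ?_, fun hn => (hn cA).elim⟩, rfl, rfl, ?_⟩
    · refine ⟨hN.msub ok.wf ok.msb, ?_⟩
      rw [eid, MT.er_msub]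
      exact J.tsub hT ok.wf ok.msb.1
    · intro _
      rw [eid]
      exact hR
    · intro v _ hv
      have nI : WN (inst (er N) B) := hWN G _ b w (by
        have := tinst w hB hT
        exact this)
      have hNs := nfo_spec nI
      unfold RR at hv ⊢
      simp only [eid] at hv
      refine hη (scons (er N) .var) G ρ.D (mscons (msub ρ.σ N) ρ.σ) (ccons η ρ.e) ρ.σ ρ.e _ v
        ⟨w, ok.wf, ?_, ⟨?_, ?_, rfl⟩, ok.msb.1, hNs.2, ?_⟩ hv
      · exact sb_scons (sb_var w) (by rwa [sub_id])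
      · intro x hx
        cases x with
        | zero => exact (hx rfl).elim
        | succ x => exact ⟨x, rfl, rfl, rfl⟩
      · exact MT.er_msub _ _
      · exact BetaEq.trans (BetaEq.sub (BetaEq.symm (nfo_spec nB).1.eq) _) hNs.1.eq
  fresh := by
    intro G ρ A s w ok hA M _
    have hA' := J.tsub hA ok.wf ok.msb.1
    have w' := J.wf_cons ok.wf hA'
    have hr := sb_wk ok.wf hA'
    have e : mscons (.var 0) (fun n => mren (fun x => x + 1) (ρ.σ n)) = mups ρ.σ := by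
      funext n; cases n <;> rfl
    have t : Tv J (J.cons (sub (fun x => er (ρ.σ x)) A) ρ.D) (.var 0)
        (sub (ers (fun n => mren (fun x => x + 1) (ρ.σ n))) A) := by
      have h1 := J.tvar w' (J.dc_zero.2 rfl)
      refine ⟨⟨_, h1⟩, ?_⟩
      rw [ers_ren]
      exact h1
    refine ⟨fun x => x + 1, ⟨J.cons (sub (fun x => er (ρ.σ x)) A) ρ.D,
      mscons (.var 0) (fun n => mren (fun x => x + 1) (ρ.σ n)),
      ccons (fun _ => true) ρ.e⟩, ⟨hr, w', ⟨s, hA⟩, _, _, rfl, rfl, t, fun hc => ?_,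
        fun _ => .var 0⟩, ?_⟩
    · exact Rz_ne w' (.var 0) (tv_nf hWN w w' (sb_ers_ren ok.msb.1 hr w') hc t)
    · intro hW
      simp only [e] at hW
      exact hW
  var_R := fun _ ok h hc => ok.vR h hc
  var_Ne := fun _ ok h hc => ok.vNe h hc
  ident := by
    intro G w M _
    refine ⟨⟨G, .var, fun _ _ => true⟩, ⟨w, w, ⟨?_, ?_⟩, ?_, ?_⟩, ?_⟩
    · exact sb_var w
    · intro x B hB; exact ⟨_, J.tvar w hB⟩
    · intro x A h hc
      have t : Tv J G (.var x) (sub (ers .var) A) := by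
        have h1 := J.tvar w h
        refine ⟨⟨_, h1⟩, ?_⟩
        have : sub (ers .var) A = A := sub_id A
        rw [this]
        exact h1
      have hs : Sb J (ers .var) G G := sb_var w
      exact Rz_ne w (.var x) (tv_nf hWN w w hs hc t)
    · intro x A _ _; exact .var x
    · intro h
      simp only [msub_id] at h
      exact h

/-- **unary or even levels are weakly normalising** -/
theorem wni_unipolar (hWN : TWN J)
    (hm : ∀ a b c, P.rule a b c → idx c ≤ idx a ∧ idx c ≤ idx b)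
    (h : Scc795.Unary P {x | idx x = i} ∨ Scc795.Even P {x | idx x = i}) :
    WNi J idx i := by
  rcases h with h | h
  · exact WNi_of_stage hm (stage_of_inst hWN hm (hinst_unary hm h))
  · exact WNi_of_stage hm (stage_of_inst hWN hm (hinst_even hm h))

end Crest.Agent.R298.G2S488
end

-- ▼ part R298/Brg_865
section

/-!
R298 (S0452), helper865: BRIDGE lists => one world.

`WNi.at : WNi P idx i → World P D → WNiAt P idx i D`: a stage theorem over list contexts gives the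
stage at every world (a term over a world lives over a finite list of names).
Also: reduction of memory terms is reflected by renamings (`mstep_mren_inv`, `mred_mren_inv`).
-/

set_option autoImplicit false

namespace Crest.Agent.R298.Main865

open Crest.LogicCS.PTS Relation
open Crest.Agent.R298.Sub452 Crest.Agent.R298.Par452 Crest.Agent.R298.Ty452
open Crest.Agent.R298.Mem360 Crest.Agent.R298.TyM452 Crest.Agent.R298.TyF452
open Crest.Agent.R298.TyMF452 Crest.Agent.R298.Scc795 Crest.Agent.R298.World657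
open Crest.Agent.R298.Str657 (ren_congr)
open Crest.Agent.R298.Mem360.MT (er emb er_emb IsL isL_of_dist dist mren er_mren dist_mren
  exists_dist mren_id mren_mren)

universe u

variable {S : Type u}

/-! ### reduction and renaming -/

theorem isL_mren_iff {F : MT S} {ρ : ℕ → ℕ} : IsL (mren ρ F) ↔ IsL F := by
  induction F with
  | mem F N ih _ => exact ih
  | var i => exact Iff.rfl
  | sort s => exact Iff.rfl
  | app F N _ _ => exact Iff.rfl
  | lam F N _ _ => exact Iff.rfl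
  | pi F N _ _ => exact Iff.rfl

theorem dist_mren_inv {F Q R : MT S} {ρ : ℕ → ℕ} (h : dist (mren ρ F) (mren ρ Q) = some R) :
    ∃ R', dist F Q = some R' ∧ R = mren ρ R' := by
  obtain ⟨R', h'⟩ := exists_dist (isL_mren_iff.1 (isL_of_dist h)) Q
  have := dist_mren h' ρ
  rw [this] at h
  exact ⟨R', h', (Option.some.inj h).symm⟩

theorem mstep_mren_inv {M : MT S} : ∀ {ρ : ℕ → ℕ} {N : MT S}, MStep (mren ρ M) N →
    ∃ M', MStep M M' ∧ N = mren ρ M' := by
  induction M with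
  | var i => intro ρ N h; cases h
  | sort s => intro ρ N h; cases h
  | app F Q ihF ihQ =>
      intro ρ N h
      cases h with
      | beta h =>
          obtain ⟨R', h', rfl⟩ := dist_mren_inv h
          exact ⟨R', .beta h', rfl⟩
      | appL _ h =>
          obtain ⟨K, hK, rfl⟩ := ihF h
          exact ⟨.app K Q, .appL _ hK, rfl⟩
      | appR _ h =>
          obtain ⟨K, hK, rfl⟩ := ihQ h
          exact ⟨.app F K, .appR _ hK, rfl⟩
  | lam A P ihA ihP =>
      intro ρ N h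
      cases h with
      | lamA _ h =>
          obtain ⟨K, hK, rfl⟩ := ihA h
          exact ⟨.lam K P, .lamA _ hK, rfl⟩
      | lamM _ h =>
          obtain ⟨K, hK, rfl⟩ := ihP h
          exact ⟨.lam A K, .lamM _ hK, rfl⟩
  | pi A P ihA ihP =>
      intro ρ N h
      cases h with
      | piA _ h =>
          obtain ⟨K, hK, rfl⟩ := ihA h
          exact ⟨.pi K P, .piA _ hK, rfl⟩
      | piB _ h =>
          obtain ⟨K, hK, rfl⟩ := ihP h
          exact ⟨.pi A K, .piB _ hK, rfl⟩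
  | mem A P ihA ihP =>
      intro ρ N h
      cases h with
      | memP _ h =>
          obtain ⟨K, hK, rfl⟩ := ihA h
          exact ⟨.mem K P, .memP _ hK, rfl⟩
      | memN _ h =>
          obtain ⟨K, hK, rfl⟩ := ihP h
          exact ⟨.mem A K, .memN _ hK, rfl⟩

theorem mred_mren_inv {M N : MT S} {ρ : ℕ → ℕ} (h : MRed (mren ρ M) N) :
    ∃ M', MRed M M' ∧ N = mren ρ M' := by
  generalize hK : mren ρ M = K at h
  induction h with
  | refl => exact ⟨M, .refl, hK.symm⟩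
  | tail _ b ih =>
      obtain ⟨M', r, rfl⟩ := ih
      obtain ⟨M'', b', rfl⟩ := mstep_mren_inv b
      exact ⟨M'', r.tail b', rfl⟩

/-! ### from function contexts to lists -/

theorem tmf_fin {P : Spec S} {idx : S → ℕ} {k : ℕ} {D : ℕ → Term S} {M : MT S} {A : Term S}
    (h : TMF P D M A) : NFF P idx k D M → ∃ n₀ : ℕ, ∀ (Γ : List (Term S)) (ρ : ℕ → ℕ), Wf P Γ →
      (∀ i < n₀, Lk Γ (ρ i) (ren ρ (D i))) →
      TM P Γ (mren ρ M) (ren ρ A) ∧ NF P idx k Γ (mren ρ M) := by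
  induction h with
  | @var D i s _ =>
      intro _
      exact ⟨i + 1, fun Γ ρ w hl => ⟨.var w (hl i (Nat.lt_succ_self i)), trivial⟩⟩
  | sort a => intro _; exact ⟨0, fun Γ ρ w _ => ⟨.sort w a, trivial⟩⟩
  | @pi D A B a b c hA hB r ih ih' =>
      rintro ⟨n1, n2⟩
      obtain ⟨m₁, h₁⟩ := ih n1
      obtain ⟨m₂, h₂⟩ := ih' n2
      refine ⟨max m₁ m₂, fun Γ ρ w hl => ?_⟩
      obtain ⟨a1, a2⟩ := h₁ Γ ρ w (fun i hi => hl i (lt_of_lt_of_le hi (le_max_left _ _)))
      have wt := a1.typed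
      rw [er_mren] at wt
      obtain ⟨b1, b2⟩ := h₂ (ren ρ (er A) :: Γ) (up ρ) (.cons w wt) (by
        intro i hi
        cases i with
        | zero => rw [fcons_zero, ren_up_wk]; exact .zero _ _
        | succ i =>
            rw [fcons_succ, ren_up_wk]
            exact .succ _ (hl i (lt_of_lt_of_le (Nat.lt_of_succ_lt hi) (le_max_right _ _))))
      refine ⟨.pi a1 ?_ r, a2, ?_⟩
      · rw [er_mren]; exact b1
      · show NF P idx k (er (mren ρ A) :: Γ) (mren (up ρ) B)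
        rw [er_mren]; exact b2
  | @lam D A M B a c hA hM hp ih ih' =>
      rintro ⟨n1, n2⟩
      obtain ⟨m₁, h₁⟩ := ih n1
      obtain ⟨m₂, h₂⟩ := ih' n2
      obtain ⟨m₃, h₃⟩ := tyf_fin hp
      refine ⟨max m₁ (max m₂ m₃), fun Γ ρ w hl => ?_⟩
      obtain ⟨a1, a2⟩ := h₁ Γ ρ w (fun i hi => hl i (lt_of_lt_of_le hi (le_max_left _ _)))
      have wt := a1.typed
      rw [er_mren] at wt
      obtain ⟨b1, b2⟩ := h₂ (ren ρ (er A) :: Γ) (up ρ) (.cons w wt) (by
        intro i hi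
        cases i with
        | zero => rw [fcons_zero, ren_up_wk]; exact .zero _ _
        | succ i =>
            rw [fcons_succ, ren_up_wk]
            exact .succ _ (hl i (lt_of_lt_of_le (Nat.lt_of_succ_lt hi)
              ((le_max_left _ _).trans (le_max_right _ _)))))
      have c1 := h₃ Γ ρ w (fun i hi => hl i (lt_of_lt_of_le hi
        ((le_max_right _ _).trans (le_max_right _ _))))
      refine ⟨?_, a2, ?_⟩
      · have key := TM.lam (P := P) (Γ := Γ) (A := mren ρ A) (M := mren (up ρ) M)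
          (B := ren (up ρ) B) (a := a) (c := c) a1 (by rw [er_mren]; exact b1)
          (by rw [er_mren]; exact c1)
        rw [er_mren] at key
        exact key
      · show NF P idx k (er (mren ρ A) :: Γ) (mren (up ρ) M)
        rw [er_mren]; exact b2
  | @app D M N A B hM hN ih ih' =>
      rintro ⟨n1, n2, n3⟩
      obtain ⟨m₁, h₁⟩ := ih n1
      obtain ⟨m₂, h₂⟩ := ih' n2
      by_cases hL : IsL M
      · obtain ⟨T, s, hT, ⟨T', e, hT'⟩, hk⟩ := n3 hL
        obtain ⟨m₃, h₃⟩ := tyf_fin hT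
        obtain ⟨m₄, h₄⟩ := tyf_fin hT'
        refine ⟨max (max m₁ m₂) (max m₃ m₄), fun Γ ρ w hl => ?_⟩
        obtain ⟨a1, a2⟩ := h₁ Γ ρ w (fun i hi => hl i (by omega))
        obtain ⟨b1, b2⟩ := h₂ Γ ρ w (fun i hi => hl i (by omega))
        have c3 := h₃ Γ ρ w (fun i hi => hl i (by omega))
        have c4 := h₄ Γ ρ w (fun i hi => hl i (by omega))
        refine ⟨?_, a2, b2, fun _ => ⟨ren ρ T, s, ?_, ⟨ren ρ T', BetaEq.ren e ρ, c4⟩, hk⟩⟩
        · rw [ren_inst, ← er_mren]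
          exact .app a1 b1
        · rw [er_mren]; exact c3
      · refine ⟨max m₁ m₂, fun Γ ρ w hl => ?_⟩
        obtain ⟨a1, a2⟩ := h₁ Γ ρ w (fun i hi => hl i (by omega))
        obtain ⟨b1, b2⟩ := h₂ Γ ρ w (fun i hi => hl i (by omega))
        refine ⟨?_, a2, b2, fun hl' => absurd (isL_mren_iff.1 hl') hL⟩
        rw [ren_inst, ← er_mren]
        exact .app a1 b1
  | mem _ _ ih ih' =>
      rintro ⟨n1, n2⟩
      obtain ⟨m₁, h₁⟩ := ih n1
      obtain ⟨m₂, h₂⟩ := ih' n2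
      refine ⟨max m₁ m₂, fun Γ ρ w hl => ?_⟩
      obtain ⟨a1, a2⟩ := h₁ Γ ρ w (fun i hi => hl i (by omega))
      obtain ⟨b1, b2⟩ := h₂ Γ ρ w (fun i hi => hl i (by omega))
      exact ⟨.mem a1 b1, a2, b2⟩
  | conv _ e hA ih =>
      intro hn
      obtain ⟨m₁, h₁⟩ := ih hn
      obtain ⟨m₂, h₂⟩ := tyf_fin hA
      refine ⟨max m₁ m₂, fun Γ ρ w hl => ?_⟩
      obtain ⟨a1, a2⟩ := h₁ Γ ρ w (fun i hi => hl i (by omega))
      have b := h₂ Γ ρ w (fun i hi => hl i (by omega))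
      exact ⟨.conv a1 (BetaEq.ren e ρ) b, a2⟩

/-! ### from lists to function contexts -/

theorem NF.nff {P : Spec S} {idx : S → ℕ} {k : ℕ} {M : MT S} :
    ∀ {Γ : List (Term S)} {D : ℕ → Term S} {ρ : ℕ → ℕ}, NF P idx k Γ M →
      (∀ i B, Lk Γ i B → D (ρ i) = ren ρ B) → NFF P idx k D (mren ρ M) := by
  induction M with
  | var i => intro Γ D ρ _ _; trivial
  | sort s => intro Γ D ρ _ _; trivial
  | app F Q ihF ihQ =>
      intro Γ D ρ ⟨h1, h2, h3⟩ hr
      refine ⟨ihF h1 hr, ihQ h2 hr, fun hl => ?_⟩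
      obtain ⟨T, s, hT, ⟨T', e, hT'⟩, hk⟩ := h3 (isL_mren_iff.1 hl)
      refine ⟨ren ρ T, s, ?_, ⟨ren ρ T', BetaEq.ren e ρ, typed_tyf hT' hr⟩, hk⟩
      rw [er_mren]; exact typed_tyf hT hr
  | lam A M ihA ihM =>
      intro Γ D ρ ⟨h1, h2⟩ hr
      refine ⟨ihA h1 hr, ?_⟩
      show NFF P idx k (fcons (er (mren ρ A)) D) (mren (up ρ) M)
      rw [er_mren]
      refine ihM h2 ?_
      intro i C hl
      cases hl with
      | zero _ _ => rw [ren_up_wk]; rfl
      | succ _ hl => rw [ren_up_wk, ← hr _ _ hl]; rfl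
  | pi A M ihA ihM =>
      intro Γ D ρ ⟨h1, h2⟩ hr
      refine ⟨ihA h1 hr, ?_⟩
      show NFF P idx k (fcons (er (mren ρ A)) D) (mren (up ρ) M)
      rw [er_mren]
      refine ihM h2 ?_
      intro i C hl
      cases hl with
      | zero _ _ => rw [ren_up_wk]; rfl
      | succ _ hl => rw [ren_up_wk, ← hr _ _ hl]; rfl
  | mem A M ihA ihM => intro Γ D ρ ⟨h1, h2⟩ hr; exact ⟨ihA h1 hr, ihM h2 hr⟩

theorem rw'_rw' (n i : ℕ) : rw' n (rw' n i) = i := by
  unfold rw'
  split_ifs <;> omega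

/-- **bridge**: a stage theorem over lists gives the stage at every world -/
theorem WNi.at {P : Spec S} {idx : S → ℕ} {i : ℕ} (h : WNi P idx i) {D : ℕ → Term S}
    (w : World P D) : WNiAt P idx i D := by
  intro M A hM hn
  obtain ⟨n, hfin⟩ := tmf_fin hM hn
  have hlk : ∀ j < n, Lk (lst D n) (rw' n j) (ren (rw' n) (D j)) := by
    intro j hj
    rw [rw'_eq hj, ren_rw' ((w.lev j).mono (le_of_lt hj))]
    exact lk_lst w.lev hj
  obtain ⟨h1, h2⟩ := hfin (lst D n) (rw' n) (w.lst.wf n) hlk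
  obtain ⟨N, hr, hN⟩ := h _ _ _ h1 h2
  obtain ⟨M', hr', rfl⟩ := mred_mren_inv hr
  refine ⟨M', hr', ?_⟩
  have := hN.nff (D := D) (ρ := rw' n) (by
    intro j B hl
    obtain ⟨hj, rfl⟩ := lk_lst_inv w.lev hl
    have hb : rv n j < n := rv_lt hj
    rw [rw'_eq hj, ← ren_rw' ((w.lev _).mono (le_of_lt hb)), ren_ren,
      ren_congr (w.lev (rv n j)) (τ := fun i => i) (fun i _ => rw'_rw' n i), ren_id])
  rw [mren_mren] at this
  have e : (fun i => rw' n (rw' n i)) = fun i => i := funext (rw'_rw' n)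
  rw [e, mren_id] at this
  exact this

/-- block (a) over lists is enough -/
theorem BlockA.w (h : BlockA) : BlockAW :=
  fun n P idx N hS hi _ w i h0 hu => (h n P idx N hS hi i h0 hu).at w

/-- block (T) over lists is enough -/
theorem BlockT.w {Fat : FatPred} (h : BlockT Fat) : BlockTW Fat :=
  fun n P idx N hS hi _ w i h0 hu => (h n P idx N hS hi i h0 hu).at w

end Crest.Agent.R298.Main865
end

-- ▼ part R298/SeamA_865

/-!
R298 (S0452), helper865: the seam between helper961's stages over the abstract judgement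
`Jd` (instance `lst P`, the frozen judgement) and the stages `Main865.WNi`.
-/

set_option autoImplicit false

namespace Crest.Agent.R298.Main865

open Crest.LogicCS.PTS Relation
open Crest.Agent.R298.Sub452 Crest.Agent.R298.Par452 Crest.Agent.R298.Ty452
open Crest.Agent.R298.Mem360 Crest.Agent.R298.TyM452 Crest.Agent.R298.Scc795
open Crest.Agent.R298.Jd961 Crest.Agent.R298.MW961
open Crest.Agent.R298.Mem360.MT (er emb er_emb IsL isL_of_dist dist)

universe u

variable {S : Type u}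

/-- a term with memory typed over a list context is legal in helper961's sense -/
theorem mok_of_tm {P : Spec S} {Γ : List (Term S)} {M : MT S} {A : Term S} (h : TM P Γ M A) :
    MOk (lst P) M Γ := by
  induction h with
  | var hl hA => exact ⟨_, TM.typed (.var hl hA)⟩
  | sort w a => exact ⟨_, TM.typed (.sort w a)⟩
  | pi hA hB r ih ih' => exact ⟨⟨_, (TM.pi hA hB r).typed⟩, ih, ih'⟩
  | lam hA hM hp ih ih' => exact ⟨⟨_, (TM.lam hA hM hp).typed⟩, ih, ih'⟩
  | app hM hN ih ih' => exact ⟨⟨_, (TM.app hM hN).typed⟩, ih, ih'⟩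
  | mem hM hN ih ih' => exact ⟨ih, ih'⟩
  | conv _ _ _ ih => exact ih

theorem nf_iff {P : Spec S} {idx : S → ℕ} {k : ℕ} {M : MT S} :
    ∀ {Γ : List (Term S)}, MW961.NF (lst P) idx k M Γ ↔ Main865.NF P idx k Γ M := by
  induction M with
  | var i => intro Γ; exact Iff.rfl
  | sort s => intro Γ; exact Iff.rfl
  | app F Q ihF ihQ =>
      intro Γ
      have h1 := ihF (Γ := Γ)
      have h2 := ihQ (Γ := Γ)
      constructor
      · rintro ⟨h, hF, hQ⟩
        refine ⟨h1.1 hF, h2.1 hQ, fun hl => ?_⟩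
        obtain ⟨T, hT, T', s, e, hs, hk⟩ := h hl
        exact ⟨T, s, hT, ⟨T', e, hs⟩, hk⟩
      · rintro ⟨hF, hQ, h⟩
        refine ⟨fun hl => ?_, h1.2 hF, h2.2 hQ⟩
        obtain ⟨T, s, hT, ⟨T', e, hs⟩, hk⟩ := h hl
        exact ⟨T, hT, T', s, e, hs, hk⟩
  | lam A M ihA ihM =>
      intro Γ
      exact and_congr ihA ihM
  | pi A M ihA ihM =>
      intro Γ
      exact and_congr ihA ihM
  | mem A M ihA ihM =>
      intro Γ
      exact and_congr ihA ihM

/-- **helper961's stage `i` over list contexts gives the stage `i` of the assembly** -/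
theorem wni_of_961 {P : Spec S} {idx : S → ℕ} {i : ℕ} (h : AA961.WNi (lst P) idx i) :
    WNi P idx i := by
  intro Γ M A hM hn
  obtain ⟨M', hr, hn'⟩ := h Γ M (twf hM.typed) (mok_of_tm hM) (nf_iff.2 hn)
  exact ⟨M', hr, nf_iff.1 hn'⟩

/-- block (a) in helper961's form -/
def BlockA961 : Prop := ∀ (n : ℕ) (P : Spec (Fin n)) (idx : Fin n → ℕ) (N : ℕ), Std P →
  IsIdx P idx N → ∀ i, 0 < i → (Unary P (Lvl idx i) ∨ Even P (Lvl idx i)) →
    AA961.WNi (lst P) idx i

theorem BlockA961.a (h : BlockA961) : BlockA :=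
  fun n P idx N hS hi i h0 hu => wni_of_961 (h n P idx N hS hi i h0 hu)

theorem BlockA961.w (h : BlockA961) : BlockAW := BlockA.w h.a

end Crest.Agent.R298.Main865
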